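import Vale.Agent.P307.R2.H541.Iso

/-!
Density of the isolated types over `X` gives a model over `X` which is the union of a sequence of
small models isolated over `X`.
-/

universe u

open Set Cardinal Function

namespace Vale.Agent.P307.R2.H541

namespace PG

variable {C : Type u} {M : PG C} {X : Set C}

theorem exists_bdd_of_dense (hX : #X = M.χ) (hT : ∀ g ∈ M.G, ∀ R ∈ M.T, (g : C → C) '' R ∈ M.T)
    (hL : ∀ A : Set C, #A < M.χ → ∃ R ∈ M.T, A ⊆ R)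
    (hU : ∀ R : ℕ → Set C, Monotone R → (∀ n, R n ∈ M.T) → #(⋃ n, R n : Set C) = M.χ →
      (⋃ n, R n) ∈ M.S)
    (hdens : ∀ s ⊆ X, #s < M.χ → ∀ E : Set C, #E < M.χ →
      ∃ g ∈ M.G, (∀ a ∈ s, g a = a) ∧ ∃ B ⊆ X, #B < M.χ ∧ M.Isol B X (g '' E)) :
    ∃ R : ℕ → Set C, Monotone R ∧ (∀ n, R n ∈ M.T) ∧ X ⊆ ⋃ n, R n ∧ (⋃ n, R n) ∈ M.S ∧
      ∀ n, ∃ B ⊆ X, #B < M.χ ∧ M.Isol B X (R n) := by
  obtain ⟨Y, hY, hYc, hYX⟩ := M.cof X hX.le
  have hYs : ∀ n, Y n ⊆ X := fun n => by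
    rw [← hYX]
    exact subset_iUnion Y n
  obtain ⟨R, hR, hRR⟩ := exists_seq (fun n (R : Set C) => R ∈ M.T ∧ Y n ⊆ R ∧
      ∃ B ⊆ X, #B < M.χ ∧ M.Isol B X R) (fun _ R R' => R ⊆ R') (by
      obtain ⟨R', hR', hYR⟩ := hL (Y 0) (hYc 0)
      obtain ⟨g, hg, hg1, B, h1, h2, h3⟩ := hdens (Y 0) (hYs 0) (hYc 0) R' (M.T_card hR')
      exact ⟨(g : C → C) '' R', hT g hg R' hR', fun y hy => ⟨y, hYR hy, hg1 y hy⟩, B, h1, h2, h3⟩)
    (by
      rintro n R ⟨hR, hYR, B, hB, hBc, hBi⟩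
      obtain ⟨R', hR', hRR'⟩ := hL (R ∪ Y (n + 1)) (small_union (M.T_card hR) (hYc _))
      obtain ⟨g, hg, hg1, B', h1, h2, h3⟩ := hdens (B ∪ Y (n + 1)) (union_subset hB (hYs _))
        (small_union hBc (hYc _)) R' (M.T_card hR')
      obtain ⟨h, hh, h4, h5⟩ := hBi g hg (fun b hb => hg1 b (Or.inl hb)) (B' ∪ Y (n + 1))
        (union_subset h1 (hYs _)) (small_union h2 (hYc _))
      have h6 := h3.smul (M.G.inv_mem hh) fun b hb => fix_inv (h4 b (Or.inl hb))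
      refine ⟨((h⁻¹ : Equiv.Perm C) : C → C) '' (g '' R'),
        ⟨hT _ (M.G.inv_mem hh) _ (hT g hg R' hR'), fun y hy => ?_, B', h1, h2, h6⟩, fun x hx => ?_⟩
      · exact ⟨g y, ⟨y, hRR' (Or.inr hy), rfl⟩, by
          rw [hg1 y (Or.inr hy)]
          exact fix_inv (h4 y (Or.inr hy))⟩
      · exact ⟨g x, ⟨x, hRR' (Or.inl hx), rfl⟩, by
          rw [← h5 x hx]
          exact inv_ap h x⟩)
  have hXR : X ⊆ ⋃ n, R n := by
    rw [← hYX]
    exact iUnion_mono fun n => (hR n).2.1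
  have hc : #(⋃ n, R n : Set C) = M.χ := by
    refine le_antisymm ?_ (hX.ge.trans (mk_le_mk_of_subset hXR))
    have h1 := mk_iUnion_le_sum_mk_lift (f := R)
    have h2 : (Cardinal.sum fun n => #(R n)) ≤ Cardinal.sum fun _ : ℕ => M.χ :=
      Cardinal.sum_le_sum _ _ fun n => (M.T_card (hR n).1).le
    rw [Cardinal.sum_const, Cardinal.mk_nat] at h2
    simp only [Cardinal.lift_uzero, Cardinal.lift_aleph0] at h1 h2
    exact (h1.trans h2).trans (aleph0_mul_eq M.hχ).le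
  exact ⟨R, monotone_nat_of_le_succ hRR, fun n => (hR n).1, hXR,
    hU R (monotone_nat_of_le_succ hRR) (fun n => (hR n).1) hc, fun n => (hR n).2.2⟩

end PG

end Vale.Agent.P307.R2.H541
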