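import Vale.Agent.P307.R2.H287.PackR
import Vale.Agent.P307.R2.H301.Din.Top

/-!
Atomic models over sets with well-behaved closed traces, where the shrinking of the isolating sets
is asked only inside small models which are isolated over the set.
-/

universe u v

open Set Cardinal Function

namespace Vale.Agent.P307.R2.H541

open Vale.Agent.P307.R2.H301
open Vale.Agent.P307.R2.H68 (Clo exists_clo)

variable {C : Type u} {M : PG C} {τ : Cardinal.{u}}

/-- Shrinking of the isolating sets inside the small models which are isolated over `X`. -/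
structure TrR (M : PG C) (τ : Cardinal.{u}) (X : Set C) : Prop where
  shrink : ∀ R ∈ M.T, (∃ B ⊆ X, #B < M.χ ∧ M.Isol B X R) →
    ∃ φ : Finset C → Set C, (∀ s, #(φ s) ≤ τ) ∧ ∀ H, Clo φ H → #H ≤ τ →
      ∀ e ⊆ R ∩ H, #e < τ → (∃ B ⊆ X ∩ R, M.Isol B X e) →
        ∃ B ⊆ X ∩ H, #B < τ ∧ M.Isol B X e

theorem TrR.of_trN {X : Set C} (hL : ∀ A : Set C, #A ≤ M.χ → ∃ N ∈ M.S, A ⊆ N)
    (hX : #X ≤ M.χ) (h : ∀ N ∈ M.S, X ⊆ N → ∃ ψ, TrN M τ X N ψ) : TrR M τ X := by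
  refine ⟨fun R hR _ => ?_⟩
  obtain ⟨N, hN, hXN⟩ := hL (X ∪ R) ((mk_union_le _ _).trans (add_le_of_le M.hχ hX
    (M.T_card hR).le))
  obtain ⟨ψ, hψ⟩ := h N hN (subset_union_left.trans hXN)
  refine ⟨ψ, hψ.card, fun H hH hHc e he hec => ?_⟩
  rintro ⟨B, hB, hBi⟩
  exact hψ.shrink H hH hHc e (he.trans (inter_subset_inter_left H
    (subset_union_right.trans hXN))) hec ⟨B, hB.trans inter_subset_left,
    PG.small_subset (hB.trans inter_subset_right) (M.T_card hR), hBi⟩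

/-- The data of a pack, for the union of a sequence of isolated small models. -/
theorem exists_packR {Λ : Lv M τ} {X : Set C} {φ : Finset C → Set C} (h : TrX Λ X φ)
    (hTR : TrR M τ X) (hTi : ∀ g ∈ M.G, ∀ R ∈ M.T, (g : C → C) '' R ∈ M.T)
    (hL : ∀ A : Set C, #A < M.χ → ∃ R ∈ M.T, A ⊆ R)
    {R : ℕ → Set C} (hR : Monotone R) (hRT : ∀ n, R n ∈ M.T) (hN : (⋃ n, R n) ∈ M.S)
    (hXN : X ⊆ ⋃ n, R n) (hRi : ∀ n, ∃ B ⊆ X, #B < M.χ ∧ M.Isol B X (R n))
    (hRi' : ∀ n, ∃ B ⊆ X ∩ R (n + 1), M.Isol B X (R n))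
    (hdens : ∀ s ⊆ X, #s < M.χ → ∀ E : Set C, #E < M.χ →
      ∃ g ∈ M.G, (∀ a ∈ s, g a = a) ∧ ∃ B ⊆ X, #B < M.χ ∧ M.Isol B X (g '' E)) :
    ∃ K : PG.PackR M τ X (⋃ n, R n), Nonempty K.Filt := by
  have hτ := Λ.ap
  obtain ⟨χ, hχ, hχ'⟩ := Λ.filt R hR hRT hN
  have hψ : ∀ n, ∃ ψ : Finset C → Set C, (∀ s, #(ψ s) ≤ τ) ∧ ∀ H, Clo ψ H → #H ≤ τ →
      ∀ e ⊆ R n ∩ H, #e < τ → (∃ B ⊆ X ∩ R n, M.Isol B X e) →
        ∃ B ⊆ X ∩ H, #B < τ ∧ M.Isol B X e := fun n => hTR.shrink (R n) (hRT n) (hRi n)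
  choose ψ hψc hψ using hψ
  let ψ' : Finset C → Set C := fun s => ⋃ n : ULift.{u} ℕ, ψ n.down s
  have hψ'c : ∀ s, #(ψ' s) ≤ τ := fun s => by
    have h1 : #(ULift.{u} ℕ) ≤ τ := by
      rw [mk_uLift, mk_nat, lift_aleph0]
      exact hτ
    have h2 : ∀ n : ULift.{u} ℕ, #(ψ n.down s) ≤ τ := fun n => hψc n.down s
    exact (mk_iUnion_le _).trans ((mul_le_mul' h1 (ciSup_le' h2)).trans (mul_eq_self hτ).le)
  let Φ : Finset C → Set C := fun s => (φ s ∪ ψ' s) ∪ χ s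
  have hΦ : ∀ s, #(Φ s) ≤ τ := fun s => Λ.union_le (Λ.union_le (h.card s) (hψ'c s)) (hχ s)
  have hΦφ : ∀ {H}, Clo Φ H → Clo φ H := fun h => clo_left (clo_left h)
  have hΦψ : ∀ {H} n, Clo Φ H → Clo (ψ n) H := fun n h => (clo_right (clo_left h)).mono
    fun s => subset_iUnion (fun n : ULift.{u} ℕ => ψ n.down s) ⟨n⟩
  have hΦχ : ∀ {H}, Clo Φ H → Clo χ H := fun h => clo_right h
  let Z : Set (Set C) := {H | Clo Φ H ∧ #H ≤ τ}
  have hZU : ∀ (ι : Type u) [LinearOrder ι] [WellFoundedLT ι] [Nonempty ι], #ι ≤ τ →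
      ∀ z : ι → Set C, Monotone z → (∀ i, z i ∈ Z) → (⋃ i, z i) ∈ Z := by
    intro ι _ _ _ hι z hz hzZ
    exact ⟨Clo.iUnion hz.directed_le fun i => (hzZ i).1, (mk_iUnion_le _).trans ((mul_le_mul' hι
      (ciSup_le' fun i => (hzZ i).2)).trans (mul_eq_self hτ).le)⟩
  let K : PG.PackR M τ X (⋃ n, R n) :=
    { S := Λ.S
      Z := Z
      hτ := hτ
      hτM := Λ.lt
      mem := hN
      sub := hXN
      cl := fun D hD => by
        obtain ⟨H, h1, h2, h3⟩ := exists_clo hτ hΦ D hD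
        exact ⟨H, ⟨h1, h3⟩, h2⟩
      SU := Λ.SU
      ZU := hZU
      inN := fun z hz => (hχ' z (hΦχ hz.1) hz.2).1
      im := fun E hE f hf => Λ.im E hE f (Λ.tame E hE f hf)
      amal := fun E hE E' hE' hEE' f hf => by
        obtain ⟨f', h1, h2⟩ := Λ.Γ.ext' (Λ.tame E hE f hf) (Λ.S_card E' hE') hEE'
        exact ⟨f', h2, fun A hA hAc => Λ.Γ.restr h1 hA hAc⟩
      back := fun z hz F hF f hf hfF => by
        have h1 := h.tame z (hΦφ hz.1) hz.2 f hf
        obtain ⟨k, f', h2, h3, h4⟩ := Λ.Γ.pull h1 (Λ.S_card F hF)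
        have hinj := Λ.Γ.injOn h2
        have hsub : X ∩ z ⊆ k '' F := by
          intro x hx
          refine ⟨f x, hfF x hx, ?_⟩
          refine hinj (Or.inr (mem_image_of_mem k (hfF x hx))) (Or.inl hx) ?_
          rw [h4 _ (hfF x hx), h3 x hx]
        have h5 : Λ.Γ.E (k '' F) f' := Λ.Γ.mono h2 subset_union_right
        have himg : f' '' (k '' F) = F := by
          rw [image_image]
          conv_rhs => rw [← image_id F]
          exact image_congr fun b hb => h4 b hb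
        have hkF : k '' F ∈ Λ.S := by
          obtain ⟨g, h6, h7⟩ := Λ.Γ.inv h5
          rw [himg] at h6
          have h8 := Λ.im F hF g h6
          have h9 : g '' F = k '' F := by
            refine image_congr fun b hb => ?_
            have h10 := h7 (k b) (mem_image_of_mem k hb)
            rwa [h4 b hb] at h10
          rwa [h9] at h8
        exact ⟨k '' F, hkF, hsub, f', h3, fun A hA hAc => Λ.Γ.restr h5 hA hAc, himg⟩
      lim := fun ι _ _ _ hι z hz hzZ f hf => h.lim ι hι z hz (fun i => hΦφ (hzZ i).1)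
        (fun i => (hzZ i).2) f hf
      step := fun z hz E hE hzE => by
        have hEτ : #E ≤ τ := Λ.S_card E hE
        have hEc : #E < M.χ := hEτ.trans_lt Λ.lt
        have hXz : #(X ∩ z : Set C) < M.χ :=
          ((mk_le_mk_of_subset inter_subset_right).trans hz.2).trans_lt Λ.lt
        obtain ⟨g, hg, hgz, R', hR', hER', ⟨B₁, hB₁, hB₁c, hB₁i⟩, B, hB, hBi⟩ :=
          PG.exists_isol_mem hTi hL hdens (s := X ∩ z) inter_subset_left hXz hEc
        have hBc : #B < M.χ := PG.small_subset (hB.trans inter_subset_right) (M.T_card hR')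
        obtain ⟨k, hk, hk1, hk2⟩ := M.sat hN (A := B₁ ∪ (B ∪ X ∩ z)) (B := R')
          ((union_subset hB₁ (union_subset (hB.trans inter_subset_left)
            inter_subset_left)).trans hXN)
          (PG.small_union hB₁c (PG.small_union hBc hXz)) (M.T_card hR')
        have h6 := hB₁i.smul hk fun b hb => hk1 b (Or.inl hb)
        obtain ⟨φ', h7, h8⟩ := hTR.shrink ((k : C → C) '' R') (hTi k hk R' hR') ⟨B₁, hB₁, hB₁c, h6⟩
        have hkE : #((k * g : Equiv.Perm C) '' E : Set C) ≤ τ := mk_image_le.trans hEτ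
        obtain ⟨z', h9, h10, h11⟩ := exists_clo hτ (φ := fun s => Φ s ∪ φ' s)
          (fun s => Λ.union_le (hΦ s) (h7 s)) (z ∪ (k * g : Equiv.Perm C) '' E)
          (Λ.union_le hz.2 hkE)
        have hkg : ∀ e : Set C, (k * g : Equiv.Perm C) '' e = (k : C → C) '' (g '' e) := by
          intro e
          rw [← image_comp]
          rfl
        refine ⟨k * g, M.G.mul_mem hk hg, fun a ha => ?_, z', ⟨clo_left h9, h11⟩,
          subset_union_left.trans h10, ?_, fun e he hec => ?_⟩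
        · rw [Equiv.Perm.mul_apply, hgz a ha, hk1 a (Or.inr (Or.inr ha))]
        · refine subset_inter ?_ (subset_union_right.trans h10)
          rintro _ ⟨a, ha, rfl⟩
          exact hk2 _ (hER' (mem_image_of_mem g ha))
        · refine h8 z' (clo_right h9) h11 _ (subset_inter ?_ ?_) (mk_image_le.trans_lt hec)
            ⟨B, subset_inter (hB.trans inter_subset_left) fun b hb =>
              ⟨b, (hB hb).2, hk1 b (Or.inr (Or.inl hb))⟩, ?_⟩
          · rw [hkg]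
            exact image_mono ((image_mono he).trans hER')
          · exact (image_mono he).trans (subset_union_right.trans h10)
          · rw [hkg]
            exact (hBi.subset (image_mono he)).smul hk fun b hb => hk1 b (Or.inr (Or.inl hb)) }
  refine ⟨K, ⟨?_⟩⟩
  exact
    { R := R
      T := Λ.T
      iso := fun z hz n e he hec => by
        obtain ⟨B, h1, h2⟩ := hRi' n
        exact hψ (n + 1) z (hΦψ (n + 1) hz.1) hz.2 e (he.trans (inter_subset_inter_left z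
          (hR (Nat.le_succ n)))) hec ⟨B, h1, h2.subset (he.trans inter_subset_left)⟩
      T_card := Λ.T_card
      filt := fun z hz => (hχ' z (hΦχ hz.1) hz.2).2
      glue := fun t ht htT htS f hf A hA hAc => Λ.Γ.restr (Λ.glue t ht htT htS f hf) hA hAc
      sat := Λ.sat }

/-- **Atomic models** over a set `X` whose closed traces, of cofinally many sizes, behave well. -/
theorem exists_topR {X : Set C} (hχ : ℵ₀ < M.χ) (hX : #X = M.χ)
    (hTi : ∀ g ∈ M.G, ∀ R ∈ M.T, (g : C → C) '' R ∈ M.T)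
    (hL : ∀ A : Set C, #A < M.χ → ∃ R ∈ M.T, A ⊆ R)
    (hU : ∀ R : ℕ → Set C, Monotone R → (∀ n, R n ∈ M.T) → #(⋃ n, R n : Set C) = M.χ →
      (⋃ n, R n) ∈ M.S)
    (hFew : ∀ σ < M.χ, ∃ ν < M.χ, σ ≤ ν ∧ ∀ E : Set C, #E ≤ σ → ∀ z : Set C, #z ≤ ν →
      ∀ J : Type u, ν < #J → ∀ k : J → Equiv.Perm C, (∀ j, k j ∈ M.G) →
      ∃ j j', j ≠ j' ∧ ∃ h ∈ M.G, (∀ a ∈ z, h a = a) ∧ ∀ e ∈ E, h (k j e) = k j' e)
    (hTm : M.Tm X)
    (hLv : ∀ σ < M.χ, ∃ τ, σ < τ ∧ ∃ Λ : Lv M τ, (∃ φ, TrX Λ X φ) ∧ TrR M τ X) :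
    ∃ N, M.Atomic N X := by
  have hd : ∀ σ < M.χ, ∀ s ⊆ X, #s ≤ σ → ∀ E : Set C, #E ≤ σ →
      ∃ g ∈ M.G, (∀ a ∈ s, g a = a) ∧ ∃ B ⊆ X, #B < M.χ ∧ M.Isol B X (g '' E) := by
    intro σ hσ s hs hsc E hE
    obtain ⟨H, hH, hTH⟩ := hTm σ hσ
    obtain ⟨ν, hν, h1, h2⟩ := hFew (max (max ℵ₀ σ) H) (max_lt (max_lt hχ hσ) hH)
    obtain ⟨τ, hντ, Λ, ⟨φ, hφ⟩, -⟩ := hLv ν hν
    have hσν : σ ≤ ν := ((le_max_right _ _).trans (le_max_left _ _)).trans h1
    refine hφ.dens (σ := σ) (((le_max_left _ _).trans (le_max_left _ _)).trans h1) hσν hντ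
      (fun E hE g hg h => hTH E hE g hg fun A hA hAH => h A hA (hAH.trans
        ((le_max_right _ _).trans h1))) (fun E hE z _ hz J hJ k hk => h2 E
          (hE.trans ((le_max_right _ _).trans (le_max_left _ _))) z hz J hJ k hk) hs hsc hE
  have hd' : ∀ s ⊆ X, #s < M.χ → ∀ E : Set C, #E < M.χ →
      ∃ g ∈ M.G, (∀ a ∈ s, g a = a) ∧ ∃ B ⊆ X, #B < M.χ ∧ M.Isol B X (g '' E) :=
    fun s hs hsc E hEc => hd _ (max_lt hsc hEc) s hs (le_max_left _ _) E (le_max_right _ _)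
  obtain ⟨R, h1, h2, h3, h4, h5, h6⟩ := PG.exists_bdd_of_dense' hX hTi hL hU hd'
  refine ⟨⋃ n, R n, PG.atomic_of_packsR hχ h4 h3 fun ν _ hν => ?_⟩
  obtain ⟨τ, hντ, Λ, ⟨φ, hφ⟩, hN⟩ := hLv ν hν
  obtain ⟨K, hK⟩ := exists_packR hφ hN hTi hL h1 h2 h4 h3 h5 h6 hd'
  exact ⟨τ, hντ, K, hK⟩

end Vale.Agent.P307.R2.H541
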