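import Vale.Agent.P307.R2.H287.PgLv
import Vale.Agent.P307.R2.H287.TopR

/-!
Atomic models in the saturated member of size `θ⁺`, with the shrinking of the isolating sets asked
only inside small models which are isolated over the set.
-/

set_option linter.unusedSectionVars false

universe u

open FirstOrder Cardinal Set

namespace Vale.Agent.P307.R2.H541

open Vale.Agent.P307 Vale.Agent.P307.H304 Vale.Agent.P307.R2.H287 Vale.Agent.P307.R2.H1
  Vale.Agent.P307.R2.H68 Vale.Agent.P307.R2.H971 Vale.Agent.P307.R2.H804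
  Language.Structure Language.Substructure
open Vale.Agent.P307.R2.H301 (Lv TrX TrN exists_top)

variable {L : Language.{u, u}} {K : AEC L} {ℓ θ τ : Cardinal.{u}}
  {κf α : Cardinal.{u} → Cardinal.{u}} {C : Type u} [L.Structure C]

section

variable (h₀ : BasePt K ℓ κf α θ) (hK : K.IsLS ℓ)
  (hunb : ∀ ν, ν < κf ν ∧ K.CategoricalIn (κf ν)) (hst : Stab K ℓ α (H287.thr κf))
  (hCm : K.mem C) (hs : Sat K θ C) (hCc : #C = Order.succ θ)

/-- **Atomic models** in the saturated member, over sets whose closed traces behave well. -/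
theorem pg_exists_topR {X : Set C} (hX : #X = θ)
    (hTm : (pg h₀ hK hunb hst hCm hs hCc).Tm X)
    (hLv : ∀ σ < θ, ∃ τ, σ < τ ∧ ∃ (hτ : BasePt K ℓ κf α τ) (hτθ : τ < θ),
      (∃ φ, TrX (pgLv h₀ hK hunb hst hCm hs hCc hτ hτθ) X φ) ∧
      TrR (pg h₀ hK hunb hst hCm hs hCc) τ X) :
    ∃ N, (pg h₀ hK hunb hst hCm hs hCc).Atomic N X :=
  exists_topR (hK.1.trans_lt h₀.pt.lt) hX (pg_T_inv h₀ hK hunb hst hCm hs hCc)
    (pg_small_sub h₀ hK hunb hst hCm hs hCc) (pg_union_card h₀ hK hunb hst hCm hs hCc)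
    (pg_few' h₀ hK hunb hst hCm hs hCc) hTm fun σ hσ => by
      obtain ⟨τ, h1, hτ, hτθ, h2, h3⟩ := hLv σ hσ
      exact ⟨τ, h1, pgLv h₀ hK hunb hst hCm hs hCc hτ hτθ, h2, h3⟩

end

end Vale.Agent.P307.R2.H541
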