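import Vale.Agent.P307.R2.H287.TopR

/-!
Tiny isolating sets for the tiny pieces of an atomic model.
-/

universe u v

open Set Cardinal Function

namespace Vale.Agent.P307.R2.H541

open Vale.Agent.P307.R2.H301
open Vale.Agent.P307.R2.H68 (Clo exists_clo)

variable {C : Type u} {M : PG C} {τ : Cardinal.{u}} {X N : Set C}

/-- The tiny pieces of a model which is atomic over `X` are isolated over `X` by tiny sets. -/
theorem TrR.tiny (h : TrR M τ X) (hN : M.Atomic N X) (hτ : ℵ₀ ≤ τ) (hτM : τ ≤ M.χ) {E : Set C}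
    (hE : E ⊆ N) (hEc : #E < τ) : ∃ B ⊆ X, #B < τ ∧ M.Isol B X E := by
  have hEM : #E < M.χ := hEc.trans_le hτM
  obtain ⟨B, hB, hBc, hBi⟩ := hN.iso E hE hEM
  obtain ⟨R, hR, hER, hRN⟩ := M.ls hN.mem (union_subset hE (hB.trans hN.sub))
    (PG.small_union hEM hBc)
  obtain ⟨φ, h1, h2⟩ := h.shrink R hR (hN.iso R hRN (M.T_card hR))
  obtain ⟨H, h3, h4, h5⟩ := exists_clo hτ h1 E hEc.le
  obtain ⟨B', h6, h7, h8⟩ := h2 H h3 h5 E (subset_inter (subset_union_left.trans hER) h4) hEc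
    ⟨B, subset_inter hB (subset_union_right.trans hER), hBi⟩
  exact ⟨B', h6.trans inter_subset_left, h7, h8⟩

end Vale.Agent.P307.R2.H541
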