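import Vale.Agent.P307.R2.H74.Pack

/-!
A boundedly atomic model over `X` is atomic over `X`: pieces of size `ν` are treated in closed
traces of a size `τ > ν` below the size of `X`.
-/

universe u v

open Set Cardinal Function

namespace Vale.Agent.P307.R2.H541

namespace PG

variable {C : Type u} {M : PG C} {τ : Cardinal.{u}} {X N : Set C}

/-- A filtration `R` of `N` by sets which are isolated over `X` by small sets, and its traces: `T`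
is a family of tiny models. -/
structure Pack.Filt (K : Pack M τ X N) where
  R : ℕ → Set C
  T : Set (Set C)
  iso : ∀ n, ∃ B ⊆ X, #B < M.χ ∧ M.Isol B X (R n)
  T_card : ∀ t ∈ T, #t < τ
  filt : ∀ z ∈ K.Z, ∃ t : ℕ → Set C, Monotone t ∧ (∀ n, t n ∈ T) ∧ (∀ n, t n ⊆ R n) ∧
    ⋃ n, t n = N ∩ z
  glue : ∀ t : ℕ → Set C, Monotone t → (∀ n, t n ∈ T) → (⋃ n, t n) ∈ K.S → ∀ f : C → C,
    (∀ n, ∃ g ∈ M.G, ∀ a ∈ t n, g a = f a) →
    ∀ A ⊆ ⋃ n, t n, #A < τ → ∃ g ∈ M.G, ∀ a ∈ A, g a = f a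
  sat : ∀ E ∈ K.S, ∀ A ⊆ E, #A < τ → ∀ D : Set C, #D < τ →
    ∃ g ∈ M.G, (∀ a ∈ A, g a = a) ∧ ∀ d ∈ D, g d ∈ E

theorem Pack.small_union {A B : Set C} (K : Pack M τ X N) (hA : #A < τ) (hB : #B < τ) :
    #(A ∪ B : Set C) < τ :=
  (mk_union_le A B).trans_lt (add_lt_of_lt K.hτ hA hB)

/-- The trace of `N` is embedded over the trace of `X` into every model over the trace of `X`. -/
theorem Pack.exists_embed (K : Pack M τ X N) (F : K.Filt) {z : Set C} (hz : z ∈ K.Z) {E : Set C}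
    (hE : E ∈ K.S) (hzE : X ∩ z ⊆ E) :
    ∃ h : C → C, (∀ a ∈ X ∩ z, h a = a) ∧ (∀ a ∈ N ∩ z, h a ∈ E) ∧
      ∀ A ⊆ N ∩ z, #A < τ → ∃ g ∈ M.G, ∀ a ∈ A, g a = h a := by
  obtain ⟨t, htm, htT, htR, htN⟩ := F.filt z hz
  have htc : ∀ n, #(t n) < τ := fun n => F.T_card _ (htT n)
  have htz : ∀ n, t n ⊆ N ∩ z := fun n => by
    rw [← htN]
    exact subset_iUnion t n
  have hB : ∀ n, ∃ B ⊆ X ∩ z, #B < τ ∧ M.Isol B X (t n) := fun n => by
    obtain ⟨B, h1, h2, h3⟩ := F.iso n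
    exact K.shrink z hz _ (htz n) (htc n) ⟨B, h1, h2, h3.subset (htR n)⟩
  choose B hBX hBc hBi using hB
  have step : ∀ n (g : Equiv.Perm C) (D : Set C), g ∈ M.G → #D < τ → (∀ a ∈ D, g a ∈ E) →
      (∀ A ⊆ X, #A < M.χ → ∃ h ∈ M.G, (∀ a ∈ A, h a = a) ∧ ∀ e ∈ D, h e = g e) →
      ∃ g' : Equiv.Perm C, (g' ∈ M.G ∧ (∀ a ∈ t n, g' a ∈ E) ∧
        ∀ A ⊆ X, #A < M.χ → ∃ h ∈ M.G, (∀ a ∈ A, h a = a) ∧ ∀ e ∈ t n, h e = g' e) ∧
        ∀ a ∈ D, g' a = g a := by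
    intro n g D hg hDc hgD hgA
    obtain ⟨h, hh, h1, h2⟩ := hgA (B n) ((hBX n).trans inter_subset_left) ((hBc n).trans K.hτM)
    obtain ⟨k, hk, hk1, hk2⟩ := F.sat E hE (B n ∪ (h : C → C) '' D) (by
      rintro a (ha | ⟨d, hd, rfl⟩)
      · exact hzE (hBX n ha)
      · rw [h2 d hd]
        exact hgD d hd) (K.small_union (hBc n) (mk_image_le.trans_lt hDc))
      ((h : C → C) '' t n) (mk_image_le.trans_lt (htc n))
    refine ⟨k * h, ⟨M.G.mul_mem hk hh, fun a ha => hk2 _ ⟨a, ha, rfl⟩, fun A hA hAc =>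
      hBi n (k * h) (M.G.mul_mem hk hh) (fun b hb => ?_) A hA hAc⟩, fun a ha => ?_⟩
    · rw [Equiv.Perm.mul_apply, h1 b hb, hk1 b (Or.inl hb)]
    · rw [Equiv.Perm.mul_apply, hk1 _ (Or.inr ⟨a, ha, rfl⟩), h2 a ha]
  obtain ⟨g, hg, hgg⟩ := exists_seq (fun n (g : Equiv.Perm C) => g ∈ M.G ∧ (∀ a ∈ t n, g a ∈ E) ∧
      ∀ A ⊆ X, #A < M.χ → ∃ h ∈ M.G, (∀ a ∈ A, h a = a) ∧ ∀ e ∈ t n, h e = g e)
    (fun n g g' => ∀ a ∈ t n, g' a = g a) (by
      obtain ⟨g', h1, -⟩ := step 0 1 ∅ M.G.one_mem (by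
        rw [mk_eq_zero]
        exact (zero_lt_one.trans_le (one_le_aleph0.trans K.hτ))) (by simp)
        fun A _ _ => ⟨1, M.G.one_mem, by simp, by simp⟩
      exact ⟨g', h1⟩)
    fun n g hg => step (n + 1) g (t n) hg.1 (htc n) hg.2.1 hg.2.2
  have hgm : ∀ n m, n ≤ m → ∀ a ∈ t n, g m a = g n a := by
    intro n m hnm
    induction m, hnm using Nat.le_induction with
    | base => exact fun a _ => rfl
    | succ m hnm ih => exact fun a ha => by rw [hgg m a (htm hnm ha), ih a ha]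
  obtain ⟨f, hf⟩ := exists_glue_fun (z := t) (ψ := fun n => (g n : C → C))
    fun k i hki a ha => hgm k i hki.le a ha
  have hex : ∀ a ∈ N ∩ z, ∃ n, a ∈ t n := fun a ha => by
    rw [← htN] at ha
    exact mem_iUnion.1 ha
  refine ⟨f, fun a ha => ?_, fun a ha => ?_, fun A hA hAc => ?_⟩
  · obtain ⟨n, hn⟩ := hex a ⟨K.sub ha.1, ha.2⟩
    rw [hf n a hn]
    obtain ⟨h, -, h1, h2⟩ := (hg n).2.2 {a} (singleton_subset_iff.2 ha.1)
      (by
        rw [mk_singleton]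
        exact one_lt_aleph0.trans_le M.hχ)
    rw [← h2 a hn, h1 a rfl]
  · obtain ⟨n, hn⟩ := hex a ha
    rw [hf n a hn]
    exact (hg n).2.1 a hn
  · refine F.glue t htm htT (by
      rw [htN]
      exact K.inN z hz) f (fun n => ⟨g n, (hg n).1, fun a ha => (hf n a ha).symm⟩) A (by
      rw [htN]
      exact hA) hAc

/-- The pieces of `N` of size at most `ν < τ` are isolated over `X` by tiny sets. -/
theorem Pack.exists_isol (K : Pack M τ X N) (F : K.Filt) {ν : Cardinal.{u}} (hν : ℵ₀ ≤ ν)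
    (hντ : ν < τ) {e : Set C} (he : e ⊆ N) (hec : #e ≤ ν) :
    ∃ B ⊆ X, #B < τ ∧ M.Isol B X e := by
  obtain ⟨z₀, hz₀, hez₀⟩ := K.cl e (hec.trans hντ.le)
  obtain ⟨z, hz, hz₀z, E, hE, hzE, hiso⟩ := K.exists_bdd hν hντ hz₀
  obtain ⟨h, h1, h2, h3⟩ := K.exists_embed F hz hE hzE
  have hez : e ⊆ N ∩ z := subset_inter he (hez₀.trans hz₀z)
  obtain ⟨B, hBX, hBc, hB⟩ := hiso (h '' e) (by
    rintro _ ⟨a, ha, rfl⟩
    exact h2 a (hez ha)) (mk_image_le.trans hec)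
  have hBz : B ⊆ N ∩ z := hBX.trans (inter_subset_inter_left z K.sub)
  obtain ⟨g, hg, hgA⟩ := h3 (e ∪ B) (union_subset hez hBz)
    (K.small_union (hec.trans_lt hντ) hBc)
  have hgB : ∀ b ∈ B, g b = b := fun b hb => by rw [hgA b (Or.inr hb), h1 b (hBX hb)]
  have hge : (g : C → C) '' e = h '' e := image_congr fun a ha => hgA a (Or.inl ha)
  rw [← hge] at hB
  have h4 := hB.smul (M.G.inv_mem hg) fun b hb => fix_inv (hgB b hb)
  have h5 : ((g⁻¹ : Equiv.Perm C) : C → C) '' (g '' e) = e := by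
    rw [← image_comp]
    have : ((g⁻¹ : Equiv.Perm C) : C → C) ∘ (g : C → C) = id := funext fun a => inv_ap g a
    rw [this, image_id]
  rw [h5] at h4
  exact ⟨B, hBX.trans inter_subset_left, hBc, h4⟩

/-- **Boundedly atomic models are atomic.** -/
theorem atomic_of_packs (hχ : ℵ₀ < M.χ) (hN : N ∈ M.S) (hXN : X ⊆ N)
    (h : ∀ ν, ℵ₀ ≤ ν → ν < M.χ → ∃ τ, ν < τ ∧ ∃ K : Pack M τ X N, Nonempty K.Filt) :
    M.Atomic N X := by
  refine ⟨hN, hXN, fun E hE hEc => ?_⟩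
  obtain ⟨τ, hτ, K, ⟨F⟩⟩ := h (max ℵ₀ #E) (le_max_left _ _) (max_lt hχ hEc)
  obtain ⟨B, h1, h2, h3⟩ := K.exists_isol F (le_max_left _ _) hτ hE (le_max_right _ _)
  exact ⟨B, h1, h2.trans K.hτM, h3⟩

end PG

end Vale.Agent.P307.R2.H541
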