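import Vale.Agent.P307.R2.H287.CloStr
import Vale.Agent.P307.R2.H287.Atomic
import Vale.Agent.P307.R2.H287.Bdd

/-!
The data of a pack in the saturated member of size `θ⁺`, for a smaller base point `τ`.
-/

set_option linter.unusedSectionVars false

universe u

open FirstOrder Cardinal Set

namespace Vale.Agent.P307.R2.H541

open Vale.Agent.P307 Vale.Agent.P307.H304 Vale.Agent.P307.R2.H287 Vale.Agent.P307.R2.H1
  Vale.Agent.P307.R2.H68 Vale.Agent.P307.R2.H971 Vale.Agent.P307.R2.H804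
  Language.Structure Language.Substructure

variable {L : Language.{u, u}} {K : AEC L} {ℓ θ τ : Cardinal.{u}}
  {κf α : Cardinal.{u} → Cardinal.{u}} {C : Type u} [L.Structure C]

/-- The closed sets of size at most `τ`. -/
def Zc (φ : Finset C → Set C) (τ : Cardinal.{u}) : Set (Set C) := {z | Clo φ z ∧ #z ≤ τ}

theorem Zc.mono {φ ψ : Finset C → Set C} (h : ∀ s, φ s ⊆ ψ s) {z : Set C} (hz : z ∈ Zc ψ τ) :
    z ∈ Zc φ τ := ⟨hz.1.mono h, hz.2⟩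

theorem Zc.exists_le (hτ : ℵ₀ ≤ τ) {φ : Finset C → Set C} (hφ : ∀ s, #(φ s) ≤ τ) (D : Set C)
    (hD : #D ≤ τ) : ∃ z ∈ Zc φ τ, D ⊆ z := by
  obtain ⟨z, h1, h2, h3⟩ := exists_clo hτ hφ D hD
  exact ⟨z, ⟨h1, h3⟩, h2⟩

theorem Zc.iUnion (hτ : ℵ₀ ≤ τ) {φ : Finset C → Set C} {ι : Type u} [LinearOrder ι] [Nonempty ι]
    (hι : #ι ≤ τ) (z : ι → Set C) (hz : Monotone z) (h : ∀ i, z i ∈ Zc φ τ) :
    (⋃ i, z i) ∈ Zc φ τ :=
  ⟨Clo.iUnion (directed_of_isDirected_le hz) fun i => (h i).1, (mk_iUnion_le z).trans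
    ((mul_le_mul' hι (ciSup_le' fun i => (h i).2)).trans (mul_eq_self hτ).le)⟩

section

variable (h₀ : BasePt K ℓ κf α θ) (hK : K.IsLS ℓ)
  (hunb : ∀ ν, ν < κf ν ∧ K.CategoricalIn (κf ν)) (hst : Stab K ℓ α (H287.thr κf))
  (hCm : K.mem C) (hs : Sat K θ C) (hCc : #C = Order.succ θ)

/-- A closure for the traces of a strong submodel `N` of size `θ` and of a sequence of strong
submodels. -/
theorem exists_clo_pack (hτ : BasePt K ℓ κf α τ) (hτθ : τ < θ) {N : Set C}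
    (hN : N ∈ (pg h₀ hK hunb hst hCm hs hCc).S) {R : ℕ → Set C}
    (hR : ∀ n, ∃ D : L.Substructure C, K.le D ∧ (D : Set C) = R n) :
    ∃ φ : Finset C → Set C, (∀ s, #(φ s) ≤ τ) ∧ ∀ z ∈ Zc φ τ, N ∩ z ∈ Sm K τ C ∧
      ∀ n, ∃ D : L.Substructure C, K.le D ∧ (D : Set C) = R n ∩ z := by
  have hτ0 : ℵ₀ ≤ τ := hK.1.trans hτ.pt.lt.le
  have hℓτ : ℓ ≤ τ := hτ.pt.lt.le
  obtain ⟨D, hD, hDc, rfl⟩ : ∃ D : L.Substructure C, K.le D ∧ #D = θ ∧ (D : Set C) = N := hN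
  obtain ⟨N₀, hN₀, hN₀c⟩ := (le_mk_iff_exists_subset (s := (D : Set C))).1 (hτθ.le.trans hDc.ge)
  obtain ⟨φ₁, h1, h2, h3⟩ := exists_clo_strong hK hD
  have h4 : ∀ n, ∃ φ : Finset C → Set C, (∀ s, #(φ s) ≤ ℓ) ∧ ∀ H : Set C, Clo φ H →
      ∃ D' : L.Substructure C, K.le D' ∧ (D' : Set C) = R n ∩ H := by
    intro n
    obtain ⟨D, hD, hDR⟩ := hR n
    obtain ⟨φ, h5, -, h6⟩ := exists_clo_strong hK hD
    rw [hDR] at h6
    exact ⟨φ, h5, h6⟩
  choose φ₂ h5 h6 using h4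
  refine ⟨fun s => N₀ ∪ (φ₁ s ∪ ⋃ n : ULift.{u} ℕ, φ₂ n.down s), fun s => ?_, fun z hz => ⟨?_,
    fun n => ?_⟩⟩
  · refine (mk_union_le _ _).trans (add_le_of_le hτ0 hN₀c.le ((mk_union_le _ _).trans
      (add_le_of_le hτ0 ((h1 s).trans hℓτ) ?_)))
    have h7 : #(ULift.{u} ℕ) ≤ τ := by
      rw [mk_uLift, mk_nat, lift_aleph0]
      exact hτ0
    have h8 : ∀ n : ULift.{u} ℕ, #(φ₂ n.down s) ≤ τ := fun n => (h5 n.down s).trans hℓτ
    exact (mk_iUnion_le _).trans ((mul_le_mul' h7 (ciSup_le' h8)).trans (mul_eq_self hτ0).le)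
  · obtain ⟨D', h7, h8⟩ := h3 z (hz.1.mono fun s => subset_union_left.trans subset_union_right)
    refine ⟨D', h7, (mk_coe_eq h8).trans (le_antisymm ?_ ?_), h8⟩
    · exact (mk_le_mk_of_subset inter_subset_right).trans hz.2
    · refine hN₀c.ge.trans (mk_le_mk_of_subset (subset_inter hN₀ ?_))
      exact subset_union_left.trans (hz.1 ∅ (by simp))
  · refine h6 n z (hz.1.mono fun s => ?_)
    exact (subset_iUnion (fun n : ULift.{u} ℕ => φ₂ n.down s) ⟨n⟩).trans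
      (subset_union_right.trans subset_union_right)

end

end Vale.Agent.P307.R2.H541
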