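import Vale.Agent.P307.R2.H287.Elem

set_option linter.unusedSectionVars false

universe u v w

open FirstOrder Cardinal Set

namespace Vale.Agent.P307.R2.H287

open Vale.Agent.P307 Vale.Agent.P307.H304 Language.Structure Language.Substructure

variable {L : Language.{u, u}} {K : AEC L}

/-- The function of thresholds. -/
noncomputable def thr (κf : Cardinal.{u} → Cardinal.{u}) (ν : Cardinal.{u}) : Cardinal.{u} :=
  κf (max (tau ν) (Order.succ ν))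

/-- A template which works for all sizes. -/
theorem exists_tpl {ℓ κ₀ : Cardinal.{u}} (hK : K.IsLS ℓ) (hκ₀ : hanf (2 ^ ℓ) ≤ κ₀)
    (hpos : 0 < κ₀) {M₀ : Type u} [L.Structure M₀] (hM₀ : K.mem M₀) (hM₀c : #M₀ = κ₀) :
    Nonempty (Tpl K ℓ) := by
  have hℓ := hK.1
  obtain ⟨Λ, hΛ⟩ : ∃ Λ : Type u, #Λ = ℓ := ⟨ℓ.out, mk_out ℓ⟩
  have hne : Nonempty M₀ := by
    rw [← mk_ne_zero_iff, hM₀c]
    exact hpos.ne'
  obtain ⟨sk, hsk⟩ := Vale.Agent.P307.exists_skolem hK hM₀ Λ hΛ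
  have hL : (exLang L Λ).card ≤ ℓ := card_exLang_le hℓ hK.2.1 hΛ.le
  obtain ⟨x⟩ : Nonempty (κ₀.ord.ToType ≃ M₀) := Cardinal.eq.1 (by rw [hM₀c, mk_ord_toType])
  obtain ⟨a, ha1, ha2⟩ := exists_template (L := exLang L Λ) hℓ hL x (by
    rw [mk_ord_toType]
    exact hκ₀)
  have ha3 : x (a 2 0) ≠ x (a 2 1) := fun h =>
    absurd (x.injective h) (ha1 2 (show (0 : Fin 2) < 1 by decide)).ne
  exact ⟨⟨Λ, M₀, fun n i => x (a n i), hne, hsk, ha2, ha3, hK.2.1, hΛ.le, hℓ⟩⟩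

/-- Change of the bound. -/
def Tpl.mono {ℓ ν : Cardinal.{u}} (t : Tpl K ℓ) (h : ℓ ≤ ν) : Tpl K ν :=
  { Λ := t.Λ, M := t.M, a := t.a, ne := t.ne, cl := t.cl, ha := t.ha, ha2 := t.ha2,
    hL := t.hL.trans h, hΛ := t.hΛ.trans h, hν := t.hν.trans h }

variable {ℓ : Cardinal.{u}} {κf : Cardinal.{u} → Cardinal.{u}}

theorem exists_tpl' (hK : K.IsLS ℓ) (hunb : ∀ ν, ν < κf ν ∧ K.CategoricalIn (κf ν)) :
    Nonempty (Tpl K ℓ) := by
  obtain ⟨h1, ⟨M₀, sM₀, hM₀, hM₀c⟩, -⟩ := hunb (hanf (2 ^ ℓ))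
  exact exists_tpl hK h1.le (pos_of_gt h1) hM₀ hM₀c

theorem good_gr_thr (hK : K.IsLS ℓ) (hunb : ∀ ν, ν < κf ν ∧ K.CategoricalIn (κf ν))
    {ν : Cardinal.{u}} (hℓ : ℓ ≤ ν) {M N : Type u} [L.Structure M] [L.Structure N] (f : M ↪[L] N)
    (hf : K.Emb f) (hM : thr κf ν ≤ #M) (A : Set M) (hA : #A ≤ ν) : Good L ν (gr f A) := by
  obtain ⟨t⟩ := exists_tpl' hK hunb
  have h1 := hunb (max (tau ν) (Order.succ ν))
  have h2 := hunb (max (thr κf ν) ((thr κf ν) ^ ν))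
  exact good_gr_two (t.mono hℓ) ((le_max_left _ _).trans h1.1.le)
    ((le_max_right _ _).trans h1.1.le) ((le_max_left _ _).trans h2.1.le)
    ((le_max_right _ _).trans h2.1.le) h1.2 h2.2 hK hℓ f hf hM A hA

theorem good_empty_thr (hK : K.IsLS ℓ) (hunb : ∀ ν, ν < κf ν ∧ K.CategoricalIn (κf ν))
    {ν : Cardinal.{u}} (hℓ : ℓ ≤ ν) {M N : Type u} [L.Structure M] [L.Structure N]
    (hM : K.mem M) (hN : K.mem N) (hMκ : thr κf ν ≤ #M) (hNκ : thr κf ν ≤ #N) :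
    Good L ν (∅ : Set (M × N)) := by
  obtain ⟨t⟩ := exists_tpl' hK hunb
  have h1 := hunb (max (tau ν) (Order.succ ν))
  have h2 := hunb (max (thr κf ν) ((thr κf ν) ^ ν))
  exact good_empty_two (t.mono hℓ) ((le_max_left _ _).trans h1.1.le)
    ((le_max_right _ _).trans h1.1.le) ((le_max_left _ _).trans h2.1.le)
    ((le_max_right _ _).trans h2.1.le) h1.2 h2.2 hK hℓ hM hN hMκ hNκ

/-- All large members are standard. -/
theorem exists_std' (hK : K.IsLS ℓ) (hunb : ∀ ν, ν < κf ν ∧ K.CategoricalIn (κf ν)) :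
    ∃ (L₁ : Language.{u, u}) (φ : L →ᴸ L₁) (M₀ : Type u) (_ : L₁.Structure M₀)
      (a : ∀ n : ℕ, Fin n → M₀), L₁.card ≤ ℓ ∧
      ∀ ν, ℓ ≤ ν → ∀ (M : Type u) [L.Structure M], K.mem M → thr κf ν ≤ #M →
        Std φ a ν M := by
  obtain ⟨t⟩ := exists_tpl' hK hunb
  refine ⟨exLang L t.Λ, exHom L t.Λ, t.M, inferInstance, t.a, t.hx, fun ν hν M _ hM hMκ => ?_⟩
  obtain ⟨I, hI, hI1, hI2⟩ := exists_nice ν (thr κf ν)
  obtain ⟨E⟩ := exists_em t I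
  have hIne : Nonempty I := by
    rw [← mk_ne_zero_iff]
    exact ((pos_of_gt (hunb _).1).trans_le hI2).ne'
  exact ⟨{ I := I, ne := hIne, N := E.N, exp := E.e, c := E.c, isEM := E.isEM, top := E.top,
           nice := hI1 }, good_empty_thr hK hunb hν hM E.mem hMκ (hI2.trans E.le_card)⟩

theorem exists_alpha_fun (hK : K.IsLS ℓ) (hunb : ∀ ν, ν < κf ν ∧ K.CategoricalIn (κf ν)) :
    ∃ α : Cardinal.{u} → Cardinal.{u}, Stab K ℓ α (thr κf) ∧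
      ∀ θ, ℓ < θ → (∀ ρ < θ, α ρ < θ) → (∀ ρ < θ, thr κf ρ < θ) → θ.ord.cof = ℵ₀ →
        K.CategoricalIn θ := by
  obtain ⟨L₁, φ, M₀, hM₀, a, hL, hstd⟩ := exists_std' hK hunb
  have h1 : ∀ ρ, ∃ α, ℓ ≤ ρ → (ρ ≤ α ∧ ∀ ν, α ≤ ν → ∀ (M M' : Type u) [L.Structure M]
      [L.Structure M'], Std φ a ν M → Std φ a ν M' → ∀ R : Set (M × M'), #R ≤ ρ →
      Good L α R → Good L ν R) := by
    intro ρ
    by_cases hρ : ℓ ≤ ρ
    · obtain ⟨α, h⟩ := exists_alpha φ a (hK.1.trans hρ) (hL.trans hρ)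
      exact ⟨α, fun _ => h⟩
    · exact ⟨0, fun h => absurd h hρ⟩
  choose α hα using h1
  refine ⟨α, fun ρ hρ => ⟨(hα ρ hρ).1, fun ν hν M M' _ _ hM hM' hκM hκM' R hR hgood => ?_⟩, ?_⟩
  · have hlν : ℓ ≤ ν := (hρ.trans (hα ρ hρ).1).trans hν
    exact (hα ρ hρ).2 ν hν M M' (hstd ν hlν M hM hκM) (hstd ν hlν M' hM' hκM') R hR hgood
  · intro θ hℓθ hαθ hκθ hcof
    constructor
    · obtain ⟨h3, ⟨M, _, h4, h5⟩, -⟩ := hunb θ
      exact exists_mem_card hK hℓθ.le h4 (h3.le.trans h5.ge)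
    · intro M N _ _ hM hN hMθ hNθ
      refine exists_iso φ a hK.1 hL hℓθ hcof α hα hαθ M N hMθ hNθ ?_ ?_
      · intro ν hν hℓν
        exact hstd ν hℓν M hM ((hκθ ν hν).le.trans hMθ.ge)
      · intro ν hν hℓν
        exact hstd ν hℓν N hN ((hκθ ν hν).le.trans hNθ.ge)

/-- The codes with the stabilization functions. -/
theorem spec_dichotomy2 {Λ : Type u} (c : CodeTy Λ) :
    ∃ (α κf : Cardinal.{u} → Cardinal.{u}) (ν : Cardinal.{u}),
      ((∀ ν, ν < κf ν ∧ κf ν ∈ spec c) ∧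
        (∀ θ, #Λ < θ → (∀ ρ < θ, α ρ < θ) → (∀ ρ < θ, thr κf ρ < θ) → θ.ord.cof = ℵ₀ →
          θ ∈ spec c) ∧
        ∀ K : AEC (canLang c.1.1 c.1.2), K.IsLS #Λ → K.part Λ = c.2 → Stab K #Λ α (thr κf)) ∨
      (∀ κ, ν < κ → κ ∉ spec c) := by
  by_cases hunb : ∀ ν, ∃ κ : Cardinal.{u}, ν < κ ∧ κ ∈ spec c
  · choose κf hκf using hunb
    obtain ⟨-, K, hK1, hK2, -⟩ := hκf ℵ₀
    have hspec : ∀ κ, κ ∈ spec c → K.CategoricalIn κ := by
      rintro κ ⟨K', h1, h2, h3⟩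
      exact categoricalIn_of_part_eq (h2.trans hK2.symm) h1 hK1 h3
    obtain ⟨α, h1, h2⟩ := exists_alpha_fun hK1 fun ν => ⟨(hκf ν).1, hspec _ (hκf ν).2⟩
    exact ⟨α, κf, 0, Or.inl ⟨hκf, fun θ h3 h4 h5 h6 => ⟨K, hK1, hK2, h2 θ h3 h4 h5 h6⟩,
      fun K' h3 h4 => h1.of_mem fun M _ hM => mem_of_part_eq (h4.trans hK2.symm) h3 hM⟩⟩
  · push Not at hunb
    obtain ⟨ν, h⟩ := hunb
    exact ⟨id, id, ν, Or.inr h⟩

/-- Structure of the class above a closure point. -/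
theorem infinitary_of_stab2 {θ : Cardinal.{u}} {α : Cardinal.{u} → Cardinal.{u}}
    (hK : K.IsLS ℓ) (hst : Stab K ℓ α (thr κf))
    (hunb : ∀ ν, ν < κf ν ∧ K.CategoricalIn (κf ν)) (hlθ : ℓ < θ)
    (hα : ∀ ρ < θ, α ρ < θ) (hκ : ∀ ρ < θ, thr κf ρ < θ) :
    (∃ (M : Type u) (_ : L.Structure M), K.mem M ∧ #M = θ) ∧
    (∀ (M N : Type u) [L.Structure M] [L.Structure N], K.mem M → θ ≤ #M → θ ≤ #N →
      (K.mem N ↔ InfEq L θ M N)) ∧
    (∀ (N : Type u) [L.Structure N] (S : L.Substructure N), K.mem N → θ ≤ #S →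
      (K.le S ↔ InfElem L θ S)) := by
  have hθ : ℵ₀ < θ := hK.1.trans_lt hlθ
  have hLθ : L.card < θ := hK.2.1.trans_lt hlθ
  refine ⟨?_, ?_, ?_⟩
  · obtain ⟨h1, ⟨M, _, h2, h3⟩, -⟩ := hunb θ
    exact exists_mem_card hK hlθ.le h2 (h1.le.trans h3.ge)
  · intro M N _ _ hM hMθ hNθ
    constructor
    · intro hN φ
      have hlα : ℓ ≤ α ℓ := (hst ℓ le_rfl).1
      have h5 : thr κf (α ℓ) < θ := hκ _ (hα ℓ hlθ)
      have h1 : Good L (α ℓ) (∅ : Set (M × N)) :=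
        good_empty_thr hK hunb hlα hM hN (h5.le.trans hMθ) (h5.le.trans hNθ)
      exact (isSys_of_stab hK.1 hst hα hκ hM hN hMθ hNθ).sat_iff hθ hLθ φ
        (R := ∅) ⟨ℓ, hlθ, le_rfl, by simp, h1⟩ (by
          rw [mk_pempty]
          exact aleph0_pos.trans hθ) (fun x => x.elim)
    · intro h
      refine mem_of_good hK hM ?_
      refine (isSys_satSys (L := L) (M := M) (N := N) hθ.le).good hK.1 hlθ
        (R := Set.range fun x : PEmpty.{u + 1} => ((x.elim, x.elim) : M × N))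
        ⟨PEmpty.{u + 1}, _, _, ?_, rfl, h⟩ (empty_subset _) (by simp)
      rw [mk_pempty]
      exact aleph0_pos.trans hθ
  · intro N _ S hN hSθ
    have hNθ : θ ≤ #N := hSθ.trans (mk_set_le _)
    constructor
    · intro hS X hX φ v
      have hSmem : K.mem S := (K.mem_of_le _ hS).1
      have hA : #(Set.range v) < θ := mk_range_le.trans_lt hX
      let ρ := max ℓ #(Set.range v)
      have hρ : ρ < θ := max_lt hlθ hA
      have hlρ : ℓ ≤ ρ := le_max_left _ _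
      have hlα : ℓ ≤ α ρ := hlρ.trans (hst ρ hlρ).1
      have h5 : thr κf (α ρ) < θ := hκ _ (hα ρ hρ)
      have h1 : Good L (α ρ) (gr S.subtype (Set.range v)) :=
        good_gr_thr hK hunb hlα S.subtype (AEC.emb_subtype.2 hS) (h5.le.trans hSθ) _
          ((le_max_right _ _).trans (hst ρ hlρ).1)
      exact (isSys_of_stab hK.1 hst hα hκ hSmem hN hSθ hNθ).sat_iff hθ hLθ φ
        (R := gr S.subtype (Set.range v))
        ⟨ρ, hρ, hlρ, (mk_gr_le _ _).trans (le_max_right _ _), h1⟩ hX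
        (fun x => mem_gr.2 ⟨⟨x, rfl⟩, rfl⟩)
    · intro h
      refine le_of_elem hK hN fun A hA => ?_
      refine (isSys_satSys (L := L) (M := S) (N := N) hθ.le).good hK.1 hlθ
        (R := Set.range fun x : A => ((x.1, (x.1 : N)) : S × N))
        ⟨A, _, _, hA.trans_lt hlθ, rfl, fun φ => h A (hA.trans_lt hlθ) φ _⟩ ?_
        ((mk_gr_le _ _).trans hA)
      rintro _ ⟨a, ha, rfl⟩
      exact ⟨⟨a, ha⟩, rfl⟩

/-- The uniform club, from one categoricity cardinal. -/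
theorem uniform_club_one (l : Cardinal.{u}) :
    ∃ μ, l ≤ μ ∧ ∃ C : Set Cardinal.{u}, IsClub C ∧
      ∀ (L : Language.{u, u}) (K : AEC L), K.LS ≤ l →
        (∃ κ, μ ≤ κ ∧ K.CategoricalIn κ) →
        ∀ θ ∈ C, (θ.ord.cof = ℵ₀ → K.CategoricalIn θ) ∧
          (∃ (M : Type u) (_ : L.Structure M), K.mem M ∧ #M = θ) ∧
          (∀ (M N : Type u) [L.Structure M] [L.Structure N], K.mem M → θ ≤ #M → θ ≤ #N →
            (K.mem N ↔ InfEq L θ M N)) ∧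
          (∀ (N : Type u) [L.Structure N] (S : L.Substructure N), K.mem N → θ ≤ #S →
            (K.le S ↔ InfElem L θ S)) := by
  obtain ⟨Λ, hΛ⟩ : ∃ Λ : Type u, #Λ = l := ⟨l.out, mk_out l⟩
  choose α κf ν h using fun c : CodeTy Λ => spec_dichotomy2 c
  have hbν : BddAbove (Set.range ν) := bddAbove_of_small
  let G : CodeTy Λ → Cardinal.{u} → Cardinal.{u} := fun c ρ => max (α c ρ) (thr (κf c) ρ)
  have hbg : ∀ ρ, BddAbove (Set.range fun c => G c ρ) := fun ρ => bddAbove_of_small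
  refine ⟨max l (Order.succ (⨆ c, ν c)), le_max_left _ _,
    {θ | l < θ ∧ ∀ ρ < θ, (⨆ c, G c ρ) < θ}, isClub_closure _ _, ?_⟩
  intro L K hK hcat θ hθ
  obtain ⟨κ, hμκ, hcat⟩ := hcat
  have hLS : K.IsLS #Λ := AEC.isLS_of_LS_le (hK.trans hΛ.ge)
  obtain ⟨c, hc, hcst⟩ := exists_code' K hLS
  rw [← hc] at hcat
  have hG : ∀ ρ < θ, G c ρ < θ := fun ρ hρ => (le_ciSup (hbg ρ) c).trans_lt (hθ.2 ρ hρ)
  have hα : ∀ ρ < θ, α c ρ < θ := fun ρ hρ => (le_max_left _ _).trans_lt (hG ρ hρ)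
  have hκ : ∀ ρ < θ, thr (κf c) ρ < θ := fun ρ hρ => (le_max_right _ _).trans_lt (hG ρ hρ)
  have hlθ : #Λ < θ := by
    rw [hΛ]
    exact hθ.1
  rcases h c with ⟨h1, h2, h3⟩ | h1
  · refine ⟨fun hcof => ?_, ?_⟩
    · rw [← hc]
      exact h2 θ hlθ hα hκ hcof
    · exact infinitary_of_stab2 hLS (hcst _ _ h3) (fun ν => ⟨(h1 ν).1, (hc _).1 (h1 ν).2⟩) hlθ
        hα hκ
  · exfalso
    have h3 : ν c < max l (Order.succ (⨆ c, ν c)) :=
      (Order.lt_succ_of_le (le_ciSup hbν c)).trans_le (le_max_right _ _)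
    exact h1 κ (h3.trans_le hμκ) hcat

end Vale.Agent.P307.R2.H287
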