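import Vale.Agent.P307.R2.H287.PackPG
import Vale.Agent.P307.R2.H301.Din.Top
import Vale.Agent.P307.R2.H229.Few

/-!
The level of a smaller base point in the saturated member of size `θ⁺`, and the soft hypotheses of
`exists_top`.
-/

set_option linter.unusedSectionVars false

universe u

open FirstOrder Cardinal Set

namespace Vale.Agent.P307.R2.H541

open Vale.Agent.P307 Vale.Agent.P307.H304 Vale.Agent.P307.R2.H287 Vale.Agent.P307.R2.H1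
  Vale.Agent.P307.R2.H68 Vale.Agent.P307.R2.H971 Vale.Agent.P307.R2.H804
  Language.Structure Language.Substructure
open Vale.Agent.P307.R2.H301 (Lv TrX TrN exists_top)

variable {L : Language.{u, u}} {K : AEC L} {ℓ θ τ : Cardinal.{u}}
  {κf α : Cardinal.{u} → Cardinal.{u}} {C : Type u} [L.Structure C]

section

variable (h₀ : BasePt K ℓ κf α θ) (hK : K.IsLS ℓ)
  (hunb : ∀ ν, ν < κf ν ∧ K.CategoricalIn (κf ν)) (hst : Stab K ℓ α (H287.thr κf))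
  (hCm : K.mem C) (hs : Sat K θ C) (hCc : #C = Order.succ θ)

/-- The level `τ`. -/
def pgLv (hτ : BasePt K ℓ κf α τ) (hτθ : τ < θ) : Lv (pg h₀ hK hunb hst hCm hs hCc) τ where
  Γ := pgEM h₀ hK hunb hst hCm hs hCc hτ hτθ
  S := Sm K τ C
  T := Tm' K τ C
  lt := hτθ
  S_card := fun E hE => (Sm.card hE).le
  SU := fun ι _ _ _ hι F hF h => Sm.iUnion (hK.1.trans hτ.pt.lt.le) hι F hF h
  im := fun E hE f hf => (EMp.of_let h₀ hK hunb hτ hτθ hCc hE fun A hA hAc =>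
    (pgEM h₀ hK hunb hst hCm hs hCc hτ hτθ).restr hf hA hAc).2
  tame := fun E hE f hf => (EMp.of_let h₀ hK hunb hτ hτθ hCc hE hf).1
  sat := fun E hE A hA hAc D hD => Sm.sat h₀ hK hunb hst hCm hs hCc hτ hτθ hE hA hAc hD
  T_card := fun t ht => Tm'.card ht
  glue := fun t htm ht hU f hf => (EMp.of_filt h₀ hK hunb hτ hτθ hCc htm ht hU hf).1
  filt := fun R hR hRT hRS => by
    obtain ⟨φ, h1, h2⟩ := exists_clo_pack h₀ hK hunb hst hCm hs hCc hτ hτθ hRS (R := R)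
      fun n => by
        obtain ⟨D, h1, -, h2⟩ := hRT n
        exact ⟨D, h1, h2⟩
    refine ⟨φ, h1, fun H hH hHc => ⟨(h2 H ⟨hH, hHc⟩).1, ?_⟩⟩
    obtain ⟨t, h3, h4, h5, h6⟩ := Sm.exists_filt hK hτ (N := (⋃ n, R n) ∩ H)
      (Sm.card (h2 H ⟨hH, hHc⟩).1).le hR inter_subset_left fun n => by
        obtain ⟨D, h7, h8⟩ := (h2 H ⟨hH, hHc⟩).2 n
        refine ⟨D, h7, h8.trans ?_⟩
        ext x
        exact ⟨fun ⟨a, b⟩ => ⟨a, mem_iUnion.2 ⟨n, a⟩, b⟩, fun ⟨a, _, b⟩ => ⟨a, b⟩⟩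
    exact ⟨t, h3, h4, h5, h6⟩

theorem pg_small_sub (A : Set C) (hA : #A < (pg h₀ hK hunb hst hCm hs hCc).χ) :
    ∃ R ∈ (pg h₀ hK hunb hst hCm hs hCc).T, A ⊆ R := by
  change #A < θ at hA
  obtain ⟨R, h1, h2, h3⟩ := hK.2.2 C hCm A
  exact ⟨R, ⟨R, h1, h3.trans_lt (add_lt_of_lt (aleph0_le_pt h₀ hK) hA h₀.pt.lt), rfl⟩, h2⟩

theorem pg_union_card (R : ℕ → Set C) (hR : Monotone R)
    (hRT : ∀ n, R n ∈ (pg h₀ hK hunb hst hCm hs hCc).T)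
    (hc : #(⋃ n, R n : Set C) = (pg h₀ hK hunb hst hCm hs hCc).χ) :
    (⋃ n, R n) ∈ (pg h₀ hK hunb hst hCm hs hCc).S := by
  obtain ⟨E, h1, h2⟩ := pg_union h₀ hK hunb hst hCm hs hCc R hR fun n => by
    obtain ⟨E, h1, -, h3⟩ := hRT n
    exact ⟨E, h1, h3⟩
  refine ⟨E, h1, ?_, h2⟩
  have h3 : #(E : Set C) = θ := by
    rw [h2]
    exact hc
  exact h3

theorem pg_few' (σ : Cardinal.{u}) (hσ : σ < (pg h₀ hK hunb hst hCm hs hCc).χ) :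
    ∃ ν < (pg h₀ hK hunb hst hCm hs hCc).χ, σ ≤ ν ∧ ∀ E : Set C, #E ≤ σ → ∀ z : Set C, #z ≤ ν →
      ∀ J : Type u, ν < #J → ∀ k : J → Equiv.Perm C,
      (∀ j, k j ∈ (pg h₀ hK hunb hst hCm hs hCc).G) →
      ∃ j j', j ≠ j' ∧ ∃ h ∈ (pg h₀ hK hunb hst hCm hs hCc).G, (∀ a ∈ z, h a = a) ∧
        ∀ e ∈ E, h (k j e) = k j' e := by
  change σ < θ at hσ
  let σ' : Cardinal.{u} := max ℓ σ
  have hσ' : σ' < θ := max_lt h₀.pt.lt hσ
  have hσ0 : ℵ₀ ≤ σ' := hK.1.trans (le_max_left _ _)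
  refine ⟨2 ^ σ', h₀.pow σ' hσ', (le_max_right _ _).trans (cantor σ').le,
    fun E hE z hz J hJ k _ => ?_⟩
  refine pg_few h₀ hK hunb hst hCm hs hCc hσ0 ((le_max_left _ _).trans (cantor σ').le)
    (h₀.pow σ' hσ') ?_ (hE.trans (le_max_right _ _)) hz hJ k
  rw [← power_mul, mul_eq_self hσ0]

/-- **Atomic models** in the saturated member, over sets whose closed traces behave well. -/
theorem pg_exists_top {X : Set C} (hX : #X = θ)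
    (hTm : (pg h₀ hK hunb hst hCm hs hCc).Tm X)
    (hLv : ∀ σ < θ, ∃ τ, σ < τ ∧ ∃ (hτ : BasePt K ℓ κf α τ) (hτθ : τ < θ),
      (∃ φ, TrX (pgLv h₀ hK hunb hst hCm hs hCc hτ hτθ) X φ) ∧
      ∀ N ∈ (pg h₀ hK hunb hst hCm hs hCc).S, X ⊆ N →
        ∃ ψ, TrN (pg h₀ hK hunb hst hCm hs hCc) τ X N ψ) :
    ∃ N, (pg h₀ hK hunb hst hCm hs hCc).Atomic N X :=
  exists_top (hK.1.trans_lt h₀.pt.lt) hX (pg_T_inv h₀ hK hunb hst hCm hs hCc)
    (pg_small_sub h₀ hK hunb hst hCm hs hCc) (pg_union_card h₀ hK hunb hst hCm hs hCc)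
    (pg_few' h₀ hK hunb hst hCm hs hCc) hTm fun σ hσ => by
      obtain ⟨τ, h1, hτ, hτθ, h2, h3⟩ := hLv σ hσ
      exact ⟨τ, h1, pgLv h₀ hK hunb hst hCm hs hCc hτ hτθ, h2, h3⟩

end

end Vale.Agent.P307.R2.H541
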