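import Vale.Agent.P307.R2.H287.Tame

set_option linter.unusedSectionVars false

universe u v w

open FirstOrder Cardinal Set

namespace Vale.Agent.P307.R2.H287

open Vale.Agent.P307 Vale.Agent.P307.H304 Language.Structure Language.Substructure

variable {L : Language.{u, u}} {K : AEC L} {ℓ θ : Cardinal.{u}} {α κf : Cardinal.{u} → Cardinal.{u}}
  {M N P : Type u} [L.Structure M] [L.Structure N] [L.Structure P]

theorem isPI_range2 (g : P ↪[L] M) (g' : P ↪[L] N) : IsPI L (range fun x => (g x, g' x)) where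
  eq_iff := by
    rintro _ ⟨x, rfl⟩ _ ⟨y, rfl⟩
    exact ⟨fun h => congrArg g' (g.injective h), fun h => congrArg g (g'.injective h)⟩
  fun_iff := by
    intro n f x hx q hq
    choose y hy using hx
    obtain ⟨z, rfl⟩ := hq
    have h1 : (fun i => (x i).1) = fun i => g (y i) := funext fun i => by rw [← hy i]
    have h2 : (fun i => (x i).2) = fun i => g' (y i) := funext fun i => by rw [← hy i]
    rw [h1, h2]
    change funMap f (g ∘ y) = g z ↔ funMap f (g' ∘ y) = g' z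
    rw [← g.map_fun, ← g'.map_fun]
    exact ⟨fun h => congrArg g' (g.injective h), fun h => congrArg g (g'.injective h)⟩
  rel_iff := by
    intro n r x hx
    choose y hy using hx
    have h1 : (fun i => (x i).1) = fun i => g (y i) := funext fun i => by rw [← hy i]
    have h2 : (fun i => (x i).2) = fun i => g' (y i) := funext fun i => by rw [← hy i]
    rw [h1, h2]
    exact (g.map_rel r y).trans (g'.map_rel r y).symm

theorem isPI_iUnion {R : ℕ → Set (M × N)} (hm : Monotone R) (hR : ∀ n, IsPI L (R n)) :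
    IsPI L (⋃ n, R n) where
  eq_iff := by
    intro p hp q hq
    obtain ⟨i, hi⟩ := mem_iUnion.1 hp
    obtain ⟨j, hj⟩ := mem_iUnion.1 hq
    exact (hR (max i j)).eq_iff p (hm (le_max_left _ _) hi) q (hm (le_max_right _ _) hj)
  fun_iff := by
    intro n f x hx q hq
    choose i hi using fun k => mem_iUnion.1 (hx k)
    obtain ⟨j, hj⟩ := mem_iUnion.1 hq
    have h1 : ∀ k, i k ≤ max (Finset.univ.sup i) j := fun k =>
      (Finset.le_sup (Finset.mem_univ k)).trans (le_max_left _ _)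
    exact (hR (max (Finset.univ.sup i) j)).fun_iff f x (fun k => hm (h1 k) (hi k)) q
      (hm (le_max_right _ _) hj)
  rel_iff := by
    intro n r x hx
    choose i hi using fun k => mem_iUnion.1 (hx k)
    exact (hR (Finset.univ.sup i)).rel_iff r x fun k =>
      hm (Finset.le_sup (Finset.mem_univ k)) (hi k)

namespace Clo

variable (h : Clo K ℓ α κf θ)
include h

theorem lg_range2 (g : P ↪[L] M) (g' : P ↪[L] N) (hg : K.Emb g) (hg' : K.Emb g')
    (hP : θ ≤ #P) : LG L ℓ θ (range fun x => (g x, g' x)) := by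
  intro R hR hRθ
  choose x hx using fun p : R => hR p.2
  have hB : #(range x) < θ := mk_range_le.trans_lt hRθ
  refine h.sg_subset (h.sg_comp (h.sg_gr g hg hP (range x) hB).swap
    (h.sg_gr g' hg' hP (range x) hB)) fun p hp => ?_
  have h1 := hx ⟨p, hp⟩
  exact ⟨x ⟨p, hp⟩, mem_gr.2 ⟨⟨_, rfl⟩, (congrArg Prod.fst h1).symm⟩,
    mem_gr.2 ⟨⟨_, rfl⟩, (congrArg Prod.snd h1).symm⟩⟩

variable (hH : ∀ ρ < θ, Hfn ρ < θ)
include hH

/-- Pieces of bounded size are enough. -/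
theorem lg_of_chi {t : Tpl K ℓ} {J : Type u} [LinearOrder J] (hJ : Nice θ J)
    (hJc : thr κf θ ≤ #J) (E : EM t J) {Wt : Type u} [LinearOrder Wt] [WellFoundedLT Wt]
    (hW : #Wt = θ) (ω : Wt → J) (hω : StrictMono ω) (E₀ : EM t Wt) (i₀ : E₀.N ↪[L] E.N)
    (hi₀' : ∀ s : (exLang L t.Λ).Term Wt, i₀ (s.realize E₀.c) = s.realize fun i => E.c (ω i))
    (hM : K.mem M) (hMθ : θ ≤ #M)
    (v : E₀.N ↪[L] M) (R₀ : Set (E.N × M)) (hR₀ : #R₀ < θ)
    (hLG : LG L ℓ θ ((range fun x => (i₀ x, v x)) ∪ R₀)) {σ : Type u} (hσ : #σ < θ)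
    (c : σ → E.N) (d : σ → M) {χ : Cardinal.{u}}
    (hχ1 : Hfn (max ℓ (#R₀ + #σ)) ≤ χ) (hχ2 : #R₀ ≤ χ) (hχ3 : ℓ ≤ χ) (hχ : χ < θ)
    (hcd : ∀ R ⊆ (range fun x => (i₀ x, v x)) ∪ R₀, #R ≤ χ →
      SG L ℓ θ (R ∪ range fun k => (c k, d k))) :
    LG L ℓ θ (((range fun x => (i₀ x, v x)) ∪ R₀) ∪ range fun k => (c k, d k)) := by
  classical
  have hEc : thr κf θ ≤ #E.N := hJc.trans E.le_card
  have hEθ : θ ≤ #E.N := (lt_thr h.hunb θ).le.trans hEc
  have hE₀ : #E₀.N = θ := E₀.card_eq h.hℓ.le hW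
  have hG : #((range fun x => (i₀ x, v x)) ∪ R₀ : Set (E.N × M)) ≤ θ :=
    (mk_union_le _ _).trans (add_le_of_le h.hθ0 (mk_range_le.trans hE₀.le) hR₀.le)
  intro R hR hRθ
  let R' : Set (E.N × M) := R ∩ range fun x => (i₀ x, v x)
  have hR' : #R' < θ := (mk_le_mk_of_subset inter_subset_left).trans_lt hRθ
  have hR'R₀ : #(R' ∪ R₀ : Set (E.N × M)) < θ := (mk_union_le _ _).trans_lt (h.add_lt hR' hR₀)
  let χ' := max χ #(R' ∪ R₀ : Set (E.N × M))
  have hχ' : χ' < θ := max_lt hχ hR'R₀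
  obtain ⟨c₂, hc₂⟩ := h.rChi' hM hMθ E.mem hEc (Prod.swap ⁻¹' ((range fun x => (i₀ x, v x)) ∪ R₀))
    ((mk_swap _).trans_le hG) hLG.swap hχ' hσ d
  have hc₂' : ∀ S ⊆ (range fun x => (i₀ x, v x)) ∪ R₀, #S ≤ χ' →
      SG L ℓ θ (S ∪ range fun k => (c₂ k, d k)) := by
    intro S hS hSc
    have h1 := (hc₂ (Prod.swap ⁻¹' S) (fun p hp => hS hp) ((mk_swap S).trans_le hSc)).swap
    refine h.sg_subset h1 ?_
    rintro p (hp | ⟨k, rfl⟩)
    · exact Or.inl hp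
    · exact Or.inr ⟨k, rfl⟩
  -- tameness
  have hσ' : #(R₀ ⊕ σ) ≤ max ℓ (#R₀ + #σ) := by
    rw [mk_sum, lift_id, lift_id]
    exact le_max_right _ _
  have hEMs : ∀ x ∈ EMs E ω, ∃ y, i₀ y = x := by
    rintro x ⟨s, rfl⟩
    exact ⟨_, hi₀' s⟩
  have key := h.tame hH hJ E hW.ge ω hω (σ := R₀ ⊕ σ) (σ₀ := max ℓ (#R₀ + #σ))
    (le_max_left _ _) (max_lt h.hℓ (h.add_lt hR₀ hσ)) hσ'
    (Sum.elim (fun r : R₀ => r.1.1) c) (Sum.elim (fun r : R₀ => r.1.1) c₂) (by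
      intro A hA hAc
      choose y hy using fun a : A => hEMs a.1 (hA a.2)
      let S : Set (E.N × M) := (range fun a : A => (a.1, v (y a))) ∪ R₀
      have hS : S ⊆ (range fun x => (i₀ x, v x)) ∪ R₀ := by
        rintro p (⟨a, rfl⟩ | hp)
        · exact Or.inl ⟨y a, Prod.ext (hy a) rfl⟩
        · exact Or.inr hp
      have hSc : #S ≤ χ := (mk_union_le _ _).trans (add_le_of_le (h.h0.trans hχ3)
        (mk_range_le.trans (hAc.trans hχ1)) hχ2)
      refine h.sg_subset (h.sg_comp (hcd S hS hSc)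
        (hc₂' S hS (hSc.trans (le_max_left _ _))).swap) ?_
      rintro _ (⟨a, ha, rfl⟩ | ⟨k, rfl⟩)
      · exact ⟨v (y ⟨a, ha⟩), Or.inl (Or.inl ⟨⟨a, ha⟩, rfl⟩), Or.inl (Or.inl ⟨⟨a, ha⟩, rfl⟩)⟩
      · rcases k with r | k
        · exact ⟨r.1.2, Or.inl (Or.inr r.2), Or.inl (Or.inr r.2)⟩
        · exact ⟨d k, Or.inr ⟨k, rfl⟩, Or.inr ⟨k, rfl⟩⟩)
    (Prod.fst '' R') (by
      rintro _ ⟨p, hp, rfl⟩
      obtain ⟨y, rfl⟩ := hp.2
      have h1 : y ∈ closure (exLang L t.Λ) (range E₀.c) := by rw [E₀.top]; trivial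
      obtain ⟨s, rfl⟩ := Gr.mem_closure_range.1 h1
      exact ⟨s, hi₀' s⟩) (mk_image_le.trans_lt hR')
  refine h.sg_subset (h.sg_comp key (hc₂' (R' ∪ R₀) (union_subset (fun p hp => Or.inl hp.2)
    subset_union_right) (le_max_right _ _))) ?_
  intro p hp
  rcases hR hp with (h1 | h1) | h1
  · exact ⟨p.1, Or.inl ⟨p.1, ⟨p, ⟨hp, h1⟩, rfl⟩, rfl⟩, Or.inl (Or.inl ⟨hp, h1⟩)⟩
  · exact ⟨p.1, Or.inr ⟨Sum.inl ⟨p, h1⟩, rfl⟩, Or.inl (Or.inr h1)⟩
  · obtain ⟨k, rfl⟩ := h1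
    exact ⟨c₂ k, Or.inr ⟨Sum.inr k, rfl⟩, Or.inr ⟨k, rfl⟩⟩

end Clo

end Vale.Agent.P307.R2.H287
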