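import Vale.Agent.P307.R2.H287.Ext

set_option linter.unusedSectionVars false

universe u v w

open FirstOrder Cardinal Set

namespace Vale.Agent.P307.R2.H287

open Vale.Agent.P307 Vale.Agent.P307.H304 Language.Structure Language.Substructure

variable {L : Language.{u, u}} {K : AEC L} {ℓ θ : Cardinal.{u}} {α κf : Cardinal.{u} → Cardinal.{u}}
  {M N P : Type u} [L.Structure M] [L.Structure N] [L.Structure P]

/-- The positions of size `θ`. -/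
def Pos (K : AEC L) (θ : Cardinal.{u}) (M N : Type u) [L.Structure M] [L.Structure N] :
    Set (Set (M × N)) :=
  {R | ∃ (P : Type u) (_ : L.Structure P) (g : P ↪[L] M) (g' : P ↪[L] N), K.Emb g ∧ K.Emb g' ∧
    #P = θ ∧ R = range fun x => (g x, g' x)}

theorem Pos.swap {R : Set (M × N)} (hR : R ∈ Pos K θ M N) : Prod.swap ⁻¹' R ∈ Pos K θ N M := by
  obtain ⟨P, sP, g, g', hg, hg', hP, rfl⟩ := hR
  refine ⟨P, sP, g', g, hg', hg, hP, ?_⟩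
  ext p
  constructor
  · rintro ⟨x, hx⟩
    exact ⟨x, Prod.ext (congrArg Prod.snd hx) (congrArg Prod.fst hx)⟩
  · rintro ⟨x, rfl⟩
    exact ⟨x, rfl⟩

namespace Clo

variable (h : Clo K ℓ α κf θ)
include h

variable (hH : ∀ ρ < θ, Hfn ρ < θ) (hcof : θ.ord.cof = ℵ₀) (hcat : K.CategoricalIn θ)
include hH hcof hcat

theorem pos_left (hM : K.mem M) (hMθ : thr κf θ ≤ #M) (hN : K.mem N) (hNθ : thr κf θ ≤ #N)
    {R : Set (M × N)} (hR : R ∈ Pos K θ M N) (A : Set M) (hA : #A ≤ θ) :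
    ∃ R' ∈ Pos K θ M N, R ⊆ R' ∧ ∀ a ∈ A, ∃ b, (a, b) ∈ R' := by
  classical
  obtain ⟨P, sP, g, g', hg, hg', hP, rfl⟩ := hR
  obtain ⟨t⟩ := h.tpl
  let Wt : Type u := θ.ord.ToType
  have hW : #Wt = θ := mk_ord_toType θ
  have hthr0 : ℵ₀ ≤ thr κf θ := h.hθ0.trans (lt_thr h.hunb θ).le
  obtain ⟨J, oJ, ω, hJ, hω⟩ := exists_nice_ext (thr κf θ) hthr0 Wt
  have hJθ : Nice θ J := hJ.mono (lt_thr h.hunb θ).le
  have hJc : thr κf θ ≤ #J := by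
    by_contra hcon
    rw [not_le] at hcon
    obtain ⟨x, hx, -⟩ := hJ univ ∅ (by
      rw [mk_univ]
      exact hcon.le) (by simp) (by simp)
    exact lt_irrefl x (hx x trivial)
  obtain ⟨E⟩ := exists_em t J
  obtain ⟨E₀⟩ := exists_em t Wt
  obtain ⟨i₀, hi₀, hi₀'⟩ := E₀.exists_map E ω hω
  have hE₀ : #E₀.N = θ := E₀.card_eq h.hℓ.le hW
  obtain ⟨w⟩ := hcat.2 E₀.N P E₀.mem hg.mem_left hE₀ hP
  have hwe : K.Emb w.toEmbedding := AEC.Emb.of_equiv w E₀.mem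
  obtain ⟨S₁, T₁, e₁, hS₁, hT₁, -, hAT₁, hS₁c, he₁⟩ := h.exists_ext hH hJθ hJc E hW ω hω E₀ i₀ hi₀'
    hM hMθ (g.comp w.toEmbedding) hcof hi₀ (AEC.Emb.comp hg hwe) ∅ (by simp) A hA
  obtain ⟨S₂, T₂, e₂, hS₂, hT₂, hSS, -, -, he₂⟩ := h.exists_ext hH hJθ hJc E hW ω hω E₀ i₀ hi₀'
    hN hNθ (g'.comp w.toEmbedding) hcof hi₀ (AEC.Emb.comp hg' hwe) S₁ hS₁c.le ∅ (by simp)
  let g₁ : S₁ ↪[L] M := T₁.subtype.comp e₁.toEmbedding
  let g₂ : S₁ ↪[L] N := (T₂.subtype.comp e₂.toEmbedding).comp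
    (Language.Substructure.inclusion (show S₁ ≤ S₂ from hSS))
  have hS₁m : K.mem S₁ := (K.mem_of_le _ hS₁).1
  have hS₂m : K.mem S₂ := (K.mem_of_le _ hS₂).1
  have hinc : K.Emb (Language.Substructure.inclusion (show S₁ ≤ S₂ from hSS)) :=
    AEC.Emb.of_comp (g := S₂.subtype) (AEC.emb_subtype.2 hS₂) (by
      have h1 : S₂.subtype.comp (Language.Substructure.inclusion (show S₁ ≤ S₂ from hSS)) = S₁.subtype := by
        ext x
        rfl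
      rw [h1]
      exact AEC.emb_subtype.2 hS₁)
  have hg₁ : K.Emb g₁ := AEC.Emb.comp (AEC.emb_subtype.2 hT₁) (AEC.Emb.of_equiv e₁ hS₁m)
  have hg₂ : K.Emb g₂ := AEC.Emb.comp (AEC.Emb.comp (AEC.emb_subtype.2 hT₂)
    (AEC.Emb.of_equiv e₂ hS₂m)) hinc
  refine ⟨range fun x => (g₁ x, g₂ x), ⟨S₁, inferInstance, g₁, g₂, hg₁, hg₂, hS₁c, rfl⟩, ?_, ?_⟩
  · rintro _ ⟨y, rfl⟩
    obtain ⟨hx1, hx1'⟩ := he₁ (w.symm y)
    obtain ⟨hx2, hx2'⟩ := he₂ (w.symm y)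
    refine ⟨⟨i₀ (w.symm y), hx1⟩, Prod.ext ?_ ?_⟩
    · refine hx1'.trans ?_
      change g (w (w.symm y)) = g y
      rw [w.apply_symm_apply]
    · refine hx2'.trans ?_
      change g' (w (w.symm y)) = g' y
      rw [w.apply_symm_apply]
  · intro a ha
    refine ⟨g₂ (e₁.symm ⟨a, hAT₁ ha⟩), e₁.symm ⟨a, hAT₁ ha⟩, Prod.ext ?_ rfl⟩
    change ((e₁ (e₁.symm ⟨a, hAT₁ ha⟩) : T₁) : M) = a
    rw [e₁.apply_symm_apply]

/-- Isomorphisms of strong submodels of size `θ` are good at the level `θ`. -/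
theorem ab (hM : K.mem M) (hMθ : thr κf θ ≤ #M) (hN : K.mem N) (hNθ : thr κf θ ≤ #N)
    {R : Set (M × N)} (hR : R ∈ Pos K θ M N) : Good L θ R := by
  refine good_of_system (Pos K θ M N) ?_ ?_ ?_ hR
  · rintro R ⟨P, sP, g, g', hg, hg', hP, rfl⟩
    exact ⟨isPI_range2 g g', mk_range_le.trans hP.le⟩
  · intro R hR A hA
    exact h.pos_left hH hcof hcat hM hMθ hN hNθ hR A hA
  · intro R hR B hB
    obtain ⟨R', h1, h2, h3⟩ := h.pos_left hH hcof hcat hN hNθ hM hMθ (Pos.swap hR) B hB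
    refine ⟨_, Pos.swap h1, fun p hp => h2 (a := p.swap) hp, h3⟩

end Clo

end Vale.Agent.P307.R2.H287
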