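import Vale.Agent.P307.R2.H287.Step

set_option linter.unusedSectionVars false

universe u v w

open FirstOrder Cardinal Set

namespace Vale.Agent.P307.R2.H287

open Vale.Agent.P307 Vale.Agent.P307.H304 Language.Structure Language.Substructure

variable {L : Language.{u, u}} {K : AEC L} {ν κ₁ κ₂ ℓ : Cardinal.{u}} {β : Ordinal.{u}}

theorem GrUp.grLev (h : GrUp K κ₁ ν β) (h12 : κ₁ ≤ κ₂) : GrLev K κ₂ ν β :=
  fun M N _ _ f hf hM _ A hA => h M N f hf (h12.trans hM.ge) A hA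

theorem exists_complete' (t : Tpl K ν) (hν : ν ≤ κ₁) (hτ : tau ν ≤ κ₁) (hντ : Order.succ ν ≤ κ₁)
    (h12 : κ₁ ≤ κ₂) (hpow : κ₁ ^ ν ≤ κ₂) (hcat₁ : K.CategoricalIn κ₁) (hcat₂ : K.CategoricalIn κ₂)
    (hK : K.IsLS ℓ) (hℓ : ℓ ≤ ν) (ih : GrUp K κ₁ ν β) {M₀ : Type u} [L.Structure M₀]
    (hM₀ : #M₀ = κ₁) :
    ∃ (W : Type u) (_ : L.Structure W), K.mem W ∧ #W = κ₁ ∧ ∀ (Z : Type u) [L.Structure Z]
      (f : W ↪[L] Z), K.Emb f → #Z = κ₁ → ∀ (Q : Set (W × M₀)) (C : Set M₀) (R : Set (Z × M₀)),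
      #Q ≤ ν → #C ≤ ν → R ∈ Lev L Z M₀ ν β → Prod.map f id '' Q ⊆ R → CovR R C →
      ∃ R' ∈ Lev L W M₀ ν β, Q ⊆ R' ∧ CovR R' C := by
  have hν0 := t.hν
  have hκ0 : ℵ₀ ≤ κ₁ := hν0.trans hν
  have hκ20 : ℵ₀ ≤ κ₂ := hκ0.trans h12
  let Ω : Type u := (Order.succ κ₂).out
  have hΩ : κ₂ < #Ω := by
    rw [mk_out]
    exact Order.lt_succ κ₂
  obtain ⟨⟨X₀, sX₀, hX₀, hX₀c⟩, -⟩ := id hcat₂
  obtain ⟨x₀, -⟩ := exists_pt (K := K) hΩ hX₀c hX₀
  choose st hst1 hst2 hst3 using fun x : St K Ω κ₂ κ₁ =>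
    exists_step t hν hτ h12 hpow hcat₂ hM₀ (ih.grLev h12) x
  obtain ⟨b, -, hb⟩ := exists_chain (chB_st hκ0 h12) (⟨x₀, ∅, empty_subset _, by simp⟩ :
    St K Ω κ₂ κ₁) (SuccTy ν) (fun i => (mk_Iio_succTy i).trans hν) (fun _ => st) fun _ => hst1
  obtain ⟨i₀, -⟩ := exists_gt_of_small hν0 (∅ : Set (SuccTy ν)) (by simp)
  have hne : Nonempty (SuccTy ν) := ⟨i₀⟩
  have hIκ : #(SuccTy ν) ≤ κ₁ := by
    rw [mk_toType, card_ord]
    exact hντ
  have hmono : ∀ i j, i ≤ j → st (b i) ≤ st (b j) := by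
    intro i j hij
    rcases eq_or_lt_of_le hij with h | h
    · rw [h]
    · exact (hb i j h).trans (hst1 _)
  obtain ⟨z, hz1, hz2⟩ := exists_union hκ20 (hIκ.trans h12) (fun i => (st (b i)).p)
    fun i j hij => (hmono i j hij).1
  choose pr e he using fun i => hst3 (b i)
  choose f hf using fun i => hz2 i
  let F : ∀ i, (pr i).N.N ↪[L] z.s := fun i => (f i).comp ((e i).toEmbedding.comp (pr i).i)
  have hF : ∀ i n, (F i n).1 = (e i ((pr i).i n)).1 := fun i n => (hf i).2 _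
  have hFe : ∀ i, K.Emb (F i) := fun i =>
    AEC.Emb.comp (hf i).1 (AEC.Emb.comp (AEC.Emb.of_equiv (e i) (pr i).P.mem) (pr i).emb)
  have hS : ∀ i (a : z.s), a ∈ (F i).toHom.range ↔ a.1 ∈ (st (b i)).t := by
    intro i a
    rw [he i]
    constructor
    · rintro ⟨n, rfl⟩
      exact ⟨n, (hF i n).symm⟩
    · rintro ⟨n, hn⟩
      exact ⟨n, Subtype.ext ((hF i n).trans hn)⟩
  have hSm : Monotone fun i => (F i).toHom.range := by
    intro i j hij a ha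
    rw [hS] at ha ⊢
    exact (hmono i j hij).2 ha
  have hWle : K.le (⨆ i, (F i).toHom.range) := AEC.le_iSup_directed _ hSm hFe
  have hW : ∀ a : z.s, a ∈ (⨆ i, (F i).toHom.range) ↔ ∃ i, a.1 ∈ (st (b i)).t := by
    intro a
    rw [Language.Substructure.mem_iSup_of_directed hSm.directed_le]
    simp only [hS]
  have hWc : #(⨆ i, (F i).toHom.range : L.Substructure z.s) = κ₁ := by
    apply le_antisymm
    · have h1 : ((⨆ i, (F i).toHom.range : L.Substructure z.s) : Set z.s) =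
          ⋃ i, (Subtype.val ⁻¹' (st (b i)).t : Set z.s) := by
        ext a
        rw [SetLike.mem_coe, hW, mem_iUnion]
        rfl
      change #((⨆ i, (F i).toHom.range : L.Substructure z.s) : Set z.s) ≤ κ₁
      rw [h1]
      exact mk_iUnion_le_of_le hκ0 hIκ _ fun i =>
        (mk_preimage_of_injective _ _ Subtype.val_injective).trans (st (b i)).card
    · refine ((pr i₀).card.symm.trans (mk_range_eq (F i₀) (F i₀).injective).symm).trans_le ?_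
      refine mk_le_mk_of_subset ?_
      rintro _ ⟨n, rfl⟩
      exact (le_iSup (fun i => (F i).toHom.range) i₀) ⟨n, rfl⟩
  have hG : ∀ i n, F i n ∈ (⨆ i, (F i).toHom.range : L.Substructure z.s) := fun i n =>
    (le_iSup (fun i => (F i).toHom.range) i) ⟨n, rfl⟩
  let G : ∀ i, (pr i).N.N ↪[L] (⨆ i, (F i).toHom.range : L.Substructure z.s) := fun i =>
    (F i).codRestrict _ (hG i)
  have hGe : ∀ i, K.Emb (G i) := by
    intro i
    refine AEC.Emb.of_comp (g := (⨆ i, (F i).toHom.range : L.Substructure z.s).subtype)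
      (AEC.emb_subtype.2 hWle) ?_
    have h1 : (⨆ i, (F i).toHom.range : L.Substructure z.s).subtype.comp (G i) = F i := by
      ext x
      rfl
    rw [h1]
    exact hFe i
  refine ⟨(⨆ i, (F i).toHom.range : L.Substructure z.s), inferInstance,
    (K.mem_of_le _ hWle).1, hWc, ?_⟩
  intro Z _ g hg hZ Q C R hQ hC hR hQR hRC
  -- the stage
  have h2 : ∀ p : Q, ∃ i, p.1.1.1.1 ∈ (st (b i)).t := fun p => (hW p.1.1.1).1 p.1.1.2
  choose idx hidx using h2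
  obtain ⟨i, hi⟩ := exists_gt_of_small hν0 (Set.range idx) (mk_range_le.trans hQ)
  have hQi : ∀ p ∈ Q, p.1.1.1 ∈ (b i).t := fun p hp =>
    (hb _ _ (hi _ ⟨⟨p, hp⟩, rfl⟩)).2 (hidx ⟨p, hp⟩)
  have hQi' : ∀ p ∈ Q, ∃ n, G i n = p.1 := by
    intro p hp
    have h3 : p.1.1.1 ∈ (st (b i)).t := (hst1 (b i)).2 (hQi p hp)
    obtain ⟨n, hn⟩ := (hS i p.1.1).2 h3
    exact ⟨n, Subtype.ext hn⟩
  let Q' : Set ((pr i).N.N × M₀) := Prod.map (G i) id ⁻¹' Q
  have hQ'inj : Function.Injective (Prod.map (G i) (id : M₀ → M₀)) :=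
    (G i).injective.prodMap Function.injective_id
  have hQ'c : #Q' ≤ ν := (mk_preimage_of_injective _ _ hQ'inj).trans hQ
  have hQQ' : ∀ p ∈ Q, ∃ q ∈ Q', Prod.map (G i) id q = p := by
    intro p hp
    obtain ⟨n, hn⟩ := hQi' p hp
    exact ⟨(n, p.2), (by
      change (G i n, p.2) ∈ Q
      rw [hn]
      exact hp), Prod.ext hn rfl⟩
  have hPc : #(pr i).P.N = κ₂ := (mk_congr (e i).toEquiv).trans (st (b i)).p.card
  obtain ⟨P₂, sP₂, k, hk, hP₂c, R₂, hR₂, hQR₂, hRC₂⟩ := transfer_up t hν h12 hcat₁ hK hℓ ih (pr i)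
    hPc (g.comp (G i)) (AEC.Emb.comp hg (hGe i)) hZ Q' hQ'c C R hR (by
      rintro _ ⟨q, hq, rfl⟩
      exact hQR ⟨_, hq, rfl⟩) hRC
  have hke : K.Emb (k.comp (e i).symm.toEmbedding) :=
    AEC.Emb.comp hk (AEC.Emb.of_equiv (e i).symm (st (b i)).p.mem)
  obtain ⟨z', h', hz', hh'⟩ := exists_room hκ20 hΩ (st (b i)).p hP₂c
    (k.comp (e i).symm.toEmbedding) hke
  let Qh : Set (Ω × M₀) := (fun p : (⨆ i, (F i).toHom.range : L.Substructure z.s) × M₀ =>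
    (p.1.1.1, p.2)) '' Q
  have hmeet : Meets ν β Qh C (st (b i)).p := by
    refine hst2 (b i) Qh C ?_ (mk_image_le.trans hQ) hC ⟨z', hz', Prod.map h' id '' R₂, ?_, ?_, ?_⟩
    · rintro _ ⟨p, hp, rfl⟩
      exact ⟨hQi p hp, trivial⟩
    · exact Lev.map_left hR₂ (lev_of_good (good_gr_equiv hν0 h' (mk_image_le.trans
        (Lev.card hR₂))) β)
    · rintro _ ⟨p, hp, rfl⟩
      obtain ⟨q, hq, rfl⟩ := hQQ' p hp
      refine ⟨_, ⟨_, hQR₂ ⟨q, hq, rfl⟩, rfl⟩, Prod.ext ?_ rfl⟩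
      have h3 := hh' (e i ((pr i).i q.1))
      have h4 : (k.comp (e i).symm.toEmbedding) (e i ((pr i).i q.1)) = k ((pr i).i q.1) := by
        change k ((e i).symm (e i ((pr i).i q.1))) = _
        rw [(e i).symm_apply_apply]
      rw [h4] at h3
      exact h3.trans (hF i q.1).symm
    · intro c hc
      obtain ⟨y, hy⟩ := hRC₂ c hc
      exact ⟨h' y, _, hy, rfl⟩
  obtain ⟨R₃, hR₃, hQR₃, hRC₃⟩ := hmeet
  obtain ⟨R₄, hR₄, hQR₄, hRC₄⟩ := reflect_down (pr i) Q' hQ'c C (Prod.map (e i).symm id '' R₃)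
    (Lev.map_left hR₃ (lev_of_good (good_gr_equiv hν0 (e i).symm (mk_image_le.trans
      (Lev.card hR₃))) β)) (by
      rintro _ ⟨q, hq, rfl⟩
      obtain ⟨p, hp, hpq⟩ := hQR₃ ⟨_, hq, rfl⟩
      have h3 : p.1.1 = (F i q.1).1 := (Prod.ext_iff.1 hpq).1
      have h4 : p.2 = q.2 := (Prod.ext_iff.1 hpq).2
      refine ⟨p, hp, Prod.ext ?_ h4⟩
      change (e i).symm p.1 = (pr i).i q.1
      rw [show p.1 = e i ((pr i).i q.1) from Subtype.ext (h3.trans (hF i q.1)),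
        (e i).symm_apply_apply]) (by
      intro c hc
      obtain ⟨y, hy⟩ := hRC₃ c hc
      exact ⟨_, _, hy, rfl⟩)
  refine ⟨Prod.map (G i) id '' R₄, Lev.map_left hR₄ (ih _ _ (G i) (hGe i) (pr i).card.ge _
    (mk_image_le.trans (Lev.card hR₄))), ?_, ?_⟩
  · intro p hp
    obtain ⟨q, hq, rfl⟩ := hQQ' p hp
    exact ⟨q, hQR₄ hq, rfl⟩
  · intro c hc
    obtain ⟨y, hy⟩ := hRC₄ c hc
    exact ⟨_, _, hy, rfl⟩

end Vale.Agent.P307.R2.H287
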