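import Vale.Agent.P307.R2.H287.LowMod
import Vale.Agent.P307.R2.H68.Ec

/-!
Finitary closures whose closed sets have strong traces on given strong submodels.
-/

set_option linter.unusedSectionVars false

universe u

open FirstOrder Cardinal Set

namespace Vale.Agent.P307.R2.H541

open Vale.Agent.P307 Vale.Agent.P307.H304 Vale.Agent.P307.R2.H287 Vale.Agent.P307.R2.H1
  Vale.Agent.P307.R2.H68 Vale.Agent.P307.R2.H971 Vale.Agent.P307.R2.H804
  Language.Structure Language.Substructure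

variable {L : Language.{u, u}} {K : AEC L} {ℓ : Cardinal.{u}} {C : Type u} [L.Structure C]

/-- The traces of the closed sets on a strong submodel are strong submodels. -/
theorem exists_clo_strong (hK : K.IsLS ℓ) {D : L.Substructure C} (hD : K.le D) :
    ∃ φ : Finset C → Set C, (∀ s, #(φ s) ≤ ℓ) ∧ (∀ s, φ s ⊆ D) ∧ ∀ H : Set C, Clo φ H →
      ∃ D' : L.Substructure C, K.le D' ∧ (D' : Set C) = (D : Set C) ∩ H := by
  classical
  have hℓ := hK.1
  have hls : ∀ A : Set C, ∃ D' : Set C, A ⊆ D → #A ≤ ℓ →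
      (∃ D'' : L.Substructure C, K.le D'' ∧ (D'' : Set C) = D') ∧ A ⊆ D' ∧ D' ⊆ D ∧ #D' ≤ ℓ := by
    intro A
    by_cases h : A ⊆ D ∧ #A ≤ ℓ
    · obtain ⟨D', h1, h2, h3, h4⟩ := inst_ls' hK hD h.1
      exact ⟨D', fun _ _ => ⟨⟨D', h1, rfl⟩, h3, h4, h2.trans (max_le h.2 le_rfl)⟩⟩
    · exact ⟨∅, fun h1 h2 => absurd ⟨h1, h2⟩ h⟩
  choose hull hhull using hls
  let M : Finset C → Set C := Finset.strongInduction fun s ih =>
    hull ((s : Set C) ∩ D ∪ ⋃ t : {t : Finset C // t ⊂ s}, ih t.1 t.2)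
  have hM : ∀ s, M s = hull ((s : Set C) ∩ D ∪ ⋃ t : {t : Finset C // t ⊂ s}, M t.1) :=
    fun s => Finset.strongInduction_eq _ s
  have key : ∀ s : Finset C, ((s : Set C) ∩ D ∪ ⋃ t : {t : Finset C // t ⊂ s}, M t.1) ⊆ D ∧
      #((s : Set C) ∩ D ∪ ⋃ t : {t : Finset C // t ⊂ s}, M t.1 : Set C) ≤ ℓ := by
    intro s
    induction s using Finset.strongInduction with
    | H s ih =>
      have h1 : ∀ t : {t : Finset C // t ⊂ s}, M t.1 ⊆ D ∧ #(M t.1) ≤ ℓ := fun t => by
        obtain ⟨h2, h3⟩ := ih t.1 t.2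
        obtain ⟨-, -, h4, h5⟩ := hhull _ h2 h3
        rw [hM]
        exact ⟨h4, h5⟩
      refine ⟨union_subset inter_subset_right (iUnion_subset fun t => (h1 t).1), ?_⟩
      refine (mk_union_le _ _).trans (add_le_of_le hℓ ?_ ?_)
      · refine (mk_le_mk_of_subset inter_subset_left).trans (le_trans ?_ hℓ)
        exact (lt_aleph0_iff_set_finite.2 s.finite_toSet).le
      · have h2 : #{t : Finset C // t ⊂ s} ≤ ℵ₀ := by
          have : Finite {t : Finset C // t ⊂ s} := by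
            refine Finite.of_injective (β := {t // t ∈ s.powerset})
              (fun t => ⟨t.1, Finset.mem_powerset.2 t.2.1⟩) ?_
            intro t t' h
            exact Subtype.ext (Subtype.mk.inj h)
          exact (lt_aleph0_of_finite _).le
        refine (mk_iUnion_le _).trans ((mul_le_mul' h2 (ciSup_le' fun t => (h1 t).2)).trans ?_)
        exact (aleph0_mul_eq hℓ).le
  have hMp : ∀ s, (∃ D'' : L.Substructure C, K.le D'' ∧ (D'' : Set C) = M s) ∧
      ((s : Set C) ∩ D ∪ ⋃ t : {t : Finset C // t ⊂ s}, M t.1) ⊆ M s ∧ M s ⊆ D ∧ #(M s) ≤ ℓ := by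
    intro s
    have h1 := hhull _ (key s).1 (key s).2
    rw [← hM] at h1
    exact h1
  have hMm : ∀ t s, t ⊆ s → M t ⊆ M s := by
    intro t s hts
    rcases eq_or_ssubset_of_subset hts with rfl | h
    · exact Subset.rfl
    · exact (subset_iUnion (fun t : {t : Finset C // t ⊂ s} => M t.1) ⟨t, h⟩).trans
        (subset_union_right.trans (hMp s).2.1)
  refine ⟨M, fun s => (hMp s).2.2.2, fun s => (hMp s).2.2.1, fun H hH => ?_⟩
  let I : Type u := {s : Finset C // (s : Set C) ⊆ H}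
  have hI : Nonempty I := ⟨⟨∅, by simp⟩⟩
  have hdir : IsDirectedOrder I := ⟨fun a b => ⟨⟨a.1 ∪ b.1, by
    rw [Finset.coe_union]
    exact union_subset a.2 b.2⟩, Finset.subset_union_left, Finset.subset_union_right⟩⟩
  obtain ⟨D', h1, h2⟩ := exists_iUnion_strong (K := K) (ι := I) (fun s => M s.1)
    (fun s t h => hMm _ _ h) fun s => (hMp s.1).1
  refine ⟨D', h1, h2.trans (subset_antisymm (iUnion_subset fun s =>
    subset_inter (hMp s.1).2.2.1 (hH s.1 s.2)) fun x hx => ?_)⟩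
  refine mem_iUnion.2 ⟨⟨{x}, by simpa using hx.2⟩, (hMp _).2.1 (Or.inl ⟨by simp, hx.1⟩)⟩

/-- Finitary operations have common refinements. -/
theorem exists_clo_common {τ : Cardinal.{u}} (hτ : ℵ₀ ≤ τ) {J : Type u} (hJ : #J ≤ τ)
    (ψ : J → Finset C → Set C) (hψ : ∀ j s, #(ψ j s) ≤ τ) :
    ∃ φ : Finset C → Set C, (∀ s, #(φ s) ≤ τ) ∧ ∀ j s, ψ j s ⊆ φ s :=
  ⟨fun s => ⋃ j, ψ j s, fun s => (mk_iUnion_le _).trans ((mul_le_mul' hJ
    (ciSup_le' fun j => hψ j s)).trans (mul_eq_self hτ).le), fun j s =>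
    subset_iUnion (fun j => ψ j s) j⟩

end Vale.Agent.P307.R2.H541
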