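import Vale.Agent.P307.R2.H287.RChi2

set_option linter.unusedSectionVars false

universe u v w

open FirstOrder Cardinal Set

namespace Vale.Agent.P307.R2.H287

open Vale.Agent.P307 Vale.Agent.P307.H304 Language.Structure Language.Substructure

/-- The step of the thresholds. -/
noncomputable def hstep (η : Cardinal.{u}) : Cardinal.{u} :=
  max (hanf (2 ^ η)) (Order.succ η)

theorem exists_H (σ₀ : Cardinal.{u}) : ∃ (H : Cardinal.{u}) (e : SuccTy (2 ^ σ₀) → Cardinal.{u}),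
    (∀ k, 2 ^ σ₀ ≤ e k) ∧ (∀ j k, j < k → hstep (e j) ≤ e k) ∧ ∀ k, hstep (e k) ≤ H := by
  obtain ⟨e, he⟩ := exists_rec (X := SuccTy (2 ^ σ₀)) (β := Cardinal.{u}) fun j prev =>
    max (2 ^ σ₀) (⨆ i : Iio j, hstep (prev i))
  refine ⟨⨆ k, hstep (e k), e, fun k => ?_, fun j k hjk => ?_, fun k => ?_⟩
  · rw [he k]
    exact le_max_left _ _
  · rw [he k]
    refine le_trans ?_ (le_max_right _ _)
    exact le_ciSup (f := fun i : Iio k => hstep (e i.1)) bddAbove_of_small ⟨j, hjk⟩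
  · exact le_ciSup (f := fun k => hstep (e k)) bddAbove_of_small k

/-- The threshold for tameness. -/
noncomputable def Hfn (σ₀ : Cardinal.{u}) : Cardinal.{u} := (exists_H σ₀).choose

theorem exists_gap {σ₀ : Cardinal.{u}} {Γ : Type u} (hΓ : #Γ ≤ 2 ^ σ₀)
    (κ : Γ → Cardinal.{u}) :
    ∃ η, 2 ^ σ₀ ≤ η ∧ hstep η ≤ Hfn σ₀ ∧ ∀ c, κ c ≤ η ∨ hstep η ≤ κ c := by
  obtain ⟨e, he1, he2, he3⟩ := (exists_H σ₀).choose_spec
  by_contra hcon
  push Not at hcon
  have h1 : ∀ k, ∃ c, e k < κ c ∧ κ c < hstep (e k) := fun k =>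
    hcon (e k) (he1 k) (he3 k)
  choose c hc1 hc2 using h1
  have hinj : Function.Injective c := by
    have key : ∀ j k, j < k → c j ≠ c k := by
      intro j k hjk hck
      have h2 : κ (c j) < e k := (hc2 j).trans_le (he2 j k hjk)
      rw [hck] at h2
      exact absurd (hc1 k) (not_lt.2 h2.le)
    intro j k hjk
    rcases lt_trichotomy j k with h2 | h2 | h2
    · exact absurd hjk (key j k h2)
    · exact h2
    · exact absurd hjk.symm (key k j h2)
  have h2 := (mk_le_of_injective hinj).trans hΓ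
  rw [mk_toType, card_ord] at h2
  exact absurd (Order.lt_succ _) (not_lt.2 h2)

theorem exists_cuts {σ₀ : Cardinal.{u}} (hσ₀ : ℵ₀ ≤ σ₀) {J Wt : Type u} [LinearOrder J]
    [LinearOrder Wt] [WellFoundedLT Wt] [Nonempty J] (V : Set J) (hV : #V ≤ σ₀) (ω : Wt → J)
    (hω : StrictMono ω) :
    ∃ (η : Cardinal.{u}) (V' : Set J) (Γ : Type u) (p : Γ → (hstep η).ord.ToType → J)
      (γ : (V' ∪ range ω : Set J) → Γ), 2 ^ σ₀ ≤ η ∧ hstep η ≤ Hfn σ₀ ∧ V ⊆ V' ∧ #V' ≤ η ∧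
      #Γ ≤ η ∧ (∀ d d' ξ ξ', d < d' → ξ < ξ' → p (γ d) ξ < p (γ d') ξ') ∧
      (∀ d, d.1 ∈ V' → ∀ ξ, p (γ d) ξ = d.1) ∧
      (∀ d, d.1 ∈ range ω → ∀ ξ, p (γ d) ξ ∈ range ω) := by
  classical
  let cut : Wt → Set V := fun w => {v | v.1 < ω w}
  let Wc : Set V → Set Wt := fun c => {w | ω w ∉ V ∧ cut w = c}
  obtain ⟨η, hη1, hη2, hη3⟩ := exists_gap (σ₀ := σ₀) (Γ := Set V) (by
    rw [mk_set]
    exact power_le_power_left two_ne_zero hV) (fun c => #(Wc c))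
  have hη0 : ℵ₀ ≤ η := (hσ₀.trans (cantor σ₀).le).trans hη1
  have hηs : η < hstep η := (Order.lt_succ η).trans_le (le_max_right _ _)
  let Sm : Set Wt := {w | ω w ∉ V ∧ #(Wc (cut w)) ≤ η}
  have hSm : #Sm ≤ η := by
    have h1 : Sm ⊆ ⋃ c : {c : Set V // #(Wc c) ≤ η}, Wc c.1 := fun w hw =>
      mem_iUnion.2 ⟨⟨cut w, hw.2⟩, hw.1, rfl⟩
    refine (mk_le_mk_of_subset h1).trans (mk_iUnion_le_of_le hη0 ?_ _ fun c => c.2)
    refine (mk_subtype_le _).trans ?_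
    rw [mk_set]
    exact (power_le_power_left two_ne_zero hV).trans hη1
  let V' : Set J := V ∪ ω '' Sm
  have hV' : #V' ≤ η := (mk_union_le _ _).trans (add_le_of_le hη0
    ((hV.trans (cantor σ₀).le).trans hη1) (mk_image_le.trans hSm))
  have hj : ∀ c : {c : Set V // hstep η ≤ #(Wc c)}, ∃ j : (hstep η).ord.ToType → Wc c.1,
      StrictMono j := fun c => exists_strictMono_toType c.2
  choose j hj using hj
  let Γ : Type u := V' ⊕ {c : Set V // hstep η ≤ #(Wc c)}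
  have hΓ : #Γ ≤ η := by
    change #(V' ⊕ {c : Set V // hstep η ≤ #(Wc c)}) ≤ η
    rw [mk_sum, lift_id, lift_id]
    refine add_le_of_le hη0 hV' ((mk_subtype_le _).trans ?_)
    rw [mk_set]
    exact (power_le_power_left two_ne_zero hV).trans hη1
  let p : Γ → (hstep η).ord.ToType → J := fun c ξ =>
    Sum.elim (fun v : V' => v.1) (fun c => ω (j c ξ).1) c
  have hsel : ∀ d : (V' ∪ range ω : Set J), d.1 ∉ V' → ∃ w, ω w = d.1 ∧ ω w ∉ V ∧
      hstep η ≤ #(Wc (cut w)) := by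
    intro d hd
    rcases d.2 with h1 | ⟨w, hw⟩
    · exact absurd h1 hd
    · have h2 : ω w ∉ V := fun h3 => hd (Or.inl (hw ▸ h3))
      refine ⟨w, hw, h2, ?_⟩
      rcases hη3 (cut w) with h3 | h3
      · exact absurd (Or.inr ⟨w, ⟨h2, h3⟩, hw⟩) hd
      · exact h3
  choose ws hws1 hws2 hws3 using hsel
  let γ : (V' ∪ range ω : Set J) → Γ := fun d =>
    if hd : d.1 ∈ V' then Sum.inl ⟨d.1, hd⟩ else Sum.inr ⟨cut (ws d hd), hws3 d hd⟩
  have hγ1 : ∀ d (hd : d.1 ∈ V'), γ d = Sum.inl ⟨d.1, hd⟩ := fun d hd => dif_pos hd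
  have hγ2 : ∀ d (hd : d.1 ∉ V'), γ d = Sum.inr ⟨cut (ws d hd), hws3 d hd⟩ := fun d hd =>
    dif_neg hd
  have hp1 : ∀ d (_ : d.1 ∈ V') ξ, p (γ d) ξ = d.1 := by
    intro d hd ξ
    rw [hγ1 d hd]
    rfl
  have hp2 : ∀ d (hd : d.1 ∉ V') ξ, ∃ w, p (γ d) ξ = ω w ∧ ω w ∉ V ∧
      cut w = cut (ws d hd) := by
    intro d hd ξ
    rw [hγ2 d hd]
    exact ⟨(j ⟨cut (ws d hd), hws3 d hd⟩ ξ).1, rfl, (j ⟨cut (ws d hd), hws3 d hd⟩ ξ).2⟩
  have hcut : ∀ w w', ω w ∉ V → w < w' → cut w ≠ cut w' → ∃ v ∈ V, ω w ≤ v ∧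
      (∀ u, cut u = cut w → ω u ≤ v) ∧ ∀ u, cut u = cut w' → v < ω u := by
    intro w w' hw hww' hne
    have h1 : cut w ⊆ cut w' := fun v hv => lt_trans (b := ω w) hv (hω hww')
    obtain ⟨v, hv1, hv2⟩ : ∃ v, v ∈ cut w' ∧ v ∉ cut w := by
      by_contra hcon
      push Not at hcon
      exact hne (Subset.antisymm h1 hcon)
    refine ⟨v.1, v.2, not_lt.1 hv2, fun u hu => ?_, fun u hu => ?_⟩
    · rw [← hu] at hv2
      exact not_lt.1 hv2
    · rw [← hu] at hv1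
      exact hv1
  refine ⟨η, V', Γ, p, γ, hη1, hη2, subset_union_left, hV', hΓ, ?_, hp1, ?_⟩
  · intro d d' ξ ξ' hdd' hξ
    have hdd'' : d.1 < d'.1 := hdd'
    by_cases hd : d.1 ∈ V'
    · rw [hp1 d hd]
      by_cases hd' : d'.1 ∈ V'
      · rw [hp1 d' hd']
        exact hdd''
      · obtain ⟨u, hu1, hu2, hu3⟩ := hp2 d' hd' ξ'
        rw [hu1]
        have h4 : d.1 < ω (ws d' hd') := by rw [hws1]; exact hdd''
        rcases hd with h1 | ⟨w, hw, hwd⟩
        · have h2 : (⟨d.1, h1⟩ : V) ∈ cut (ws d' hd') := h4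
          rw [← hu3] at h2
          exact h2
        · have h3 : cut w ≠ cut (ws d' hd') := by
            intro h5
            have h6 := hws3 d' hd'
            rw [← h5] at h6
            exact absurd (h6.trans hw.2) (not_le.2 hηs)
          rw [← hwd] at h4 ⊢
          obtain ⟨v, -, h5, -, h6⟩ := hcut w _ hw.1 (hω.lt_iff_lt.1 h4) h3
          exact h5.trans_lt (h6 u hu3)
    · obtain ⟨u, hu1, hu2, hu3⟩ := hp2 d hd ξ
      rw [hu1]
      by_cases hd' : d'.1 ∈ V'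
      · rw [hp1 d' hd']
        have h4 : ω (ws d hd) < d'.1 := by rw [hws1]; exact hdd''
        rcases hd' with h1 | ⟨w', hw', hwd'⟩
        · have h2 : (⟨d'.1, h1⟩ : V) ∉ cut (ws d hd) := not_lt.2 h4.le
          rw [← hu3] at h2
          refine lt_of_le_of_ne (not_lt.1 h2) fun h5 => hu2 ?_
          rw [h5]
          exact h1
        · have h3 : cut (ws d hd) ≠ cut w' := by
            intro h5
            have h6 := hws3 d hd
            rw [h5] at h6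
            exact absurd (h6.trans hw'.2) (not_le.2 hηs)
          rw [← hwd'] at h4 ⊢
          obtain ⟨v, -, -, h5, h6⟩ := hcut _ w' (hws2 d hd) (hω.lt_iff_lt.1 h4) h3
          exact (h5 u hu3).trans_lt (h6 w' rfl)
      · have h4 : ω (ws d hd) < ω (ws d' hd') := by rw [hws1, hws1]; exact hdd''
        by_cases h3 : cut (ws d hd) = cut (ws d' hd')
        · rw [← hu1, hγ2 d hd, hγ2 d' hd']
          have h5 : (⟨cut (ws d hd), hws3 d hd⟩ : {c : Set V // hstep η ≤ #(Wc c)}) =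
              ⟨cut (ws d' hd'), hws3 d' hd'⟩ := Subtype.ext h3
          rw [h5]
          exact hω (hj _ hξ)
        · obtain ⟨u', hu1', hu2', hu3'⟩ := hp2 d' hd' ξ'
          rw [hu1']
          obtain ⟨v, -, -, h5, h6⟩ := hcut _ _ (hws2 d hd) (hω.lt_iff_lt.1 h4) h3
          exact (h5 u hu3).trans_lt (h6 u' hu3')
  · intro d hd ξ
    by_cases hd1 : d.1 ∈ V'
    · rw [hp1 d hd1]
      exact hd
    · obtain ⟨u, hu1, -, -⟩ := hp2 d hd1 ξ
      exact ⟨u, hu1.symm⟩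

end Vale.Agent.P307.R2.H287
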