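import Vale.Agent.P307.R2.H287.Chain2

set_option linter.unusedSectionVars false

universe u v w

open FirstOrder Cardinal Set

namespace Vale.Agent.P307.R2.H287

open Vale.Agent.P307 Vale.Agent.P307.H304 Language.Structure Language.Substructure

variable {L : Language.{u, u}} {K : AEC L} {ν κ₁ κ₂ ℓ : Cardinal.{u}} {β : Ordinal.{u}}

theorem exists_back' (t : Tpl K ν) (hν : ν ≤ κ₁) (hτ : tau ν ≤ κ₁) (hντ : Order.succ ν ≤ κ₁)
    (h12 : κ₁ ≤ κ₂) (hpow : κ₁ ^ ν ≤ κ₂) (hcat₁ : K.CategoricalIn κ₁) (hcat₂ : K.CategoricalIn κ₂)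
    (hK : K.IsLS ℓ) (hℓ : ℓ ≤ ν) (ih : GrUp K κ₁ ν β) {M N : Type u} [L.Structure M]
    [L.Structure N] (f : M ↪[L] N) (hf : K.Emb f) (hM : #M = κ₁) (hN : #N = κ₁) (A : Set M)
    (hA : #A ≤ ν) (B : Set N) (hB : #B ≤ ν) :
    ∃ R ∈ Lev L M N ν β, gr f A ⊆ R ∧ CovR R B := by
  obtain ⟨W, sW, hW, hWc, hcomp⟩ := exists_complete' t hν hτ hντ h12 hpow hcat₁ hcat₂ hK hℓ ih hN
  obtain ⟨e⟩ := hcat₁.2 M W hf.mem_left hW hM hWc
  have hg : K.Emb (f.comp e.symm.toEmbedding) := AEC.Emb.comp hf (AEC.Emb.of_equiv e.symm hW)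
  obtain ⟨R', h1, h2, h3⟩ := hcomp N (f.comp e.symm.toEmbedding) hg hN ((fun a => (e a, f a)) '' A)
    B (gr (Language.Equiv.refl L N) (f '' A ∪ B)) (mk_image_le.trans hA) hB
    (lev_of_good (good_gr_equiv t.hν (Language.Equiv.refl L N) ((mk_union_le _ _).trans
      (add_le_of_le t.hν (mk_image_le.trans hA) hB))) β) (by
      rintro _ ⟨_, ⟨a, ha, rfl⟩, rfl⟩
      refine mem_gr.2 ⟨?_, ?_⟩
      · refine Or.inl ⟨a, ha, ?_⟩
        change f a = f (e.symm (e a))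
        rw [e.symm_apply_apply]
      · change f a = f (e.symm (e a))
        rw [e.symm_apply_apply]) (by
      intro b hb
      exact ⟨b, mem_gr.2 ⟨Or.inr hb, rfl⟩⟩)
  refine ⟨Prod.map e.symm id '' R', Lev.map_left h1 (lev_of_good (good_gr_equiv t.hν e.symm
    (mk_image_le.trans (Lev.card h1))) β), ?_, ?_⟩
  · intro p hp
    obtain ⟨hp1, hp2⟩ := mem_gr.1 hp
    refine ⟨_, h2 ⟨p.1, hp1, rfl⟩, Prod.ext ?_ hp2.symm⟩
    change e.symm (e p.1) = p.1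
    rw [e.symm_apply_apply]
  · intro b hb
    obtain ⟨a, ha⟩ := h3 b hb
    exact ⟨e.symm a, _, ha, rfl⟩

theorem exists_sub_card {κ : Cardinal.{u}} (hK : K.IsLS ℓ) (hℓ : ℓ ≤ κ) {M : Type u}
    [L.Structure M] (hM : K.mem M) (hκM : κ ≤ #M) (A : Set M) (hA : #A ≤ κ) :
    ∃ S : L.Substructure M, K.le S ∧ A ⊆ S ∧ #S = κ := by
  have hκ0 : ℵ₀ ≤ κ := hK.1.trans hℓ
  obtain ⟨A', hA'⟩ := le_mk_iff_exists_set.1 hκM
  obtain ⟨S, h1, h2, h3⟩ := hK.2.2 M hM (A ∪ A')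
  refine ⟨S, h1, subset_union_left.trans h2, le_antisymm ?_ ?_⟩
  · exact h3.trans (add_le_of_le hκ0 ((mk_union_le _ _).trans (add_le_of_le hκ0 hA hA'.le)) hℓ)
  · rw [← hA']
    exact mk_le_mk_of_subset (subset_union_right.trans h2)

theorem grUp (t : Tpl K ν) (hν : ν ≤ κ₁) (hτ : tau ν ≤ κ₁) (hντ : Order.succ ν ≤ κ₁)
    (h12 : κ₁ ≤ κ₂) (hpow : κ₁ ^ ν ≤ κ₂) (hcat₁ : K.CategoricalIn κ₁) (hcat₂ : K.CategoricalIn κ₂)
    (hK : K.IsLS ℓ) (hℓ : ℓ ≤ ν) (γ : Ordinal.{u}) : GrUp K κ₁ ν γ := by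
  induction γ using WellFoundedLT.induction with
  | ind γ ih =>
  intro M N _ _ f hf hM A hA
  have hκ0 : ℵ₀ ≤ κ₁ := t.hν.trans hν
  rw [mem_lev_iff]
  refine ⟨isPI_gr f A, (mk_gr_le _ _).trans hA, fun β hβ => ⟨fun A' hA' => ?_, fun B hB => ?_⟩⟩
  · refine ⟨gr f (A ∪ A'), ih β hβ M N f hf hM _ ((mk_union_le _ _).trans
      (add_le_of_le t.hν hA hA')), image_mono subset_union_left, fun a ha => ?_⟩
    exact ⟨f a, a, Or.inr ha, rfl⟩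
  · obtain ⟨M₁, hM₁, hAM₁, hM₁c⟩ := exists_sub_card hK (hℓ.trans hν) hf.mem_left hM A (hA.trans hν)
    obtain ⟨N₁, hN₁, hBN₁, hN₁c⟩ := exists_sub_card hK (hℓ.trans hν) hf.mem_right
      (hM.trans (mk_le_of_injective f.injective)) (f '' M₁ ∪ B)
      ((mk_union_le _ _).trans (add_le_of_le hκ0 (mk_image_le.trans hM₁c.le) (hB.trans hν)))
    let f' : M₁ ↪[L] N₁ := (f.domRestrict M₁).codRestrict N₁
      fun c => hBN₁ (Or.inl ⟨c.1, c.2, rfl⟩)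
    have hf' : K.Emb f' := by
      refine AEC.Emb.of_comp (g := N₁.subtype) (AEC.emb_subtype.2 hN₁) ?_
      have h1 : N₁.subtype.comp f' = f.comp M₁.subtype := by
        ext x
        rfl
      rw [h1]
      exact AEC.Emb.comp hf (AEC.emb_subtype.2 hM₁)
    obtain ⟨R, hR, hgR, hRB⟩ := exists_back' t hν hτ hντ h12 hpow hcat₁ hcat₂ hK hℓ (ih β hβ) f'
      hf' hM₁c hN₁c (Subtype.val ⁻¹' A)
      ((mk_preimage_of_injective _ _ Subtype.val_injective).trans hA) (Subtype.val ⁻¹' B)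
      ((mk_preimage_of_injective _ _ Subtype.val_injective).trans hB)
    have h2 : (Prod.map M₁.subtype id '' R : Set (M × N₁)) ∈ Lev L M N₁ ν β :=
      Lev.map_left hR (ih β hβ M₁ M M₁.subtype (AEC.emb_subtype.2 hM₁) hM₁c.ge _
        (mk_image_le.trans (Lev.card hR)))
    have h3 : (Prod.map id N₁.subtype '' (Prod.map M₁.subtype id '' R) : Set (M × N)) ∈
        Lev L M N ν β :=
      Lev.map_right h2 (ih β hβ N₁ N N₁.subtype (AEC.emb_subtype.2 hN₁) hN₁c.ge _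
        (mk_image_le.trans (Lev.card h2)))
    refine ⟨_, h3, ?_, ?_⟩
    · intro p hp
      obtain ⟨hp1, hp2⟩ := mem_gr.1 hp
      have h4 : ((⟨p.1, hAM₁ hp1⟩ : M₁), f' ⟨p.1, hAM₁ hp1⟩) ∈ R := hgR (mem_gr.2 ⟨hp1, rfl⟩)
      exact ⟨_, ⟨_, h4, rfl⟩, Prod.ext rfl hp2.symm⟩
    · intro c hc
      obtain ⟨y, hy⟩ := hRB ⟨c, hBN₁ (Or.inr hc)⟩ hc
      exact ⟨y.1, _, ⟨_, hy, rfl⟩, rfl⟩

/-- Two categoricity cardinals give the elementarity of strong embeddings. -/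
theorem good_gr_two (t : Tpl K ν) (hτ : tau ν ≤ κ₁) (hντ : Order.succ ν ≤ κ₁)
    (h12 : κ₁ ≤ κ₂) (hpow : κ₁ ^ ν ≤ κ₂) (hcat₁ : K.CategoricalIn κ₁) (hcat₂ : K.CategoricalIn κ₂)
    (hK : K.IsLS ℓ) (hℓ : ℓ ≤ ν) {M N : Type u} [L.Structure M] [L.Structure N] (f : M ↪[L] N)
    (hf : K.Emb f) (hM : κ₁ ≤ #M) (A : Set M) (hA : #A ≤ ν) : Good L ν (gr f A) :=
  good_of_lev fun γ => grUp t ((Order.le_succ ν).trans hντ) hτ hντ h12 hpow hcat₁ hcat₂ hK hℓ γ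
    M N f hf hM A hA

/-- All large members are equivalent. -/
theorem good_empty_two (t : Tpl K ν) (hτ : tau ν ≤ κ₁) (hντ : Order.succ ν ≤ κ₁)
    (h12 : κ₁ ≤ κ₂) (hpow : κ₁ ^ ν ≤ κ₂) (hcat₁ : K.CategoricalIn κ₁) (hcat₂ : K.CategoricalIn κ₂)
    (hK : K.IsLS ℓ) (hℓ : ℓ ≤ ν) {M N : Type u} [L.Structure M] [L.Structure N]
    (hM : K.mem M) (hN : K.mem N) (hMκ : κ₁ ≤ #M) (hNκ : κ₁ ≤ #N) :
    Good L ν (∅ : Set (M × N)) := by
  have hν : ν ≤ κ₁ := (Order.le_succ ν).trans hντ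
  obtain ⟨M₁, hM₁, -, hM₁c⟩ := exists_sub_card hK (hℓ.trans hν) hM hMκ ∅ (by simp)
  obtain ⟨N₁, hN₁, -, hN₁c⟩ := exists_sub_card hK (hℓ.trans hν) hN hNκ ∅ (by simp)
  obtain ⟨e⟩ := hcat₁.2 M₁ N₁ (K.mem_of_le _ hM₁).1 (K.mem_of_le _ hN₁).1 hM₁c hN₁c
  have h1 := good_gr_two t hτ hντ h12 hpow hcat₁ hcat₂ hK hℓ M₁.subtype (AEC.emb_subtype.2 hM₁)
    hM₁c.ge ∅ (by simp)
  have h2 := good_gr_two t hτ hντ h12 hpow hcat₁ hcat₂ hK hℓ N₁.subtype (AEC.emb_subtype.2 hN₁)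
    hN₁c.ge ∅ (by simp)
  have h3 := good_gr_equiv t.hν e (A := ∅) (by simp)
  have h4 := (h1.swap.comp h3).comp h2
  exact h4.subset (empty_subset _)

end Vale.Agent.P307.R2.H287
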