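import Vale.Agent.P307.R2.H287.Mirror

set_option linter.unusedSectionVars false

universe u v w

open FirstOrder Cardinal Set

namespace Vale.Agent.P307.R2.H287

open Vale.Agent.P307 Vale.Agent.P307.H304 Language.Structure Language.Substructure

/-- A template for a class `K`. -/
structure Tpl {L : Language.{u, u}} (K : AEC L) (ν : Cardinal.{u}) where
  Λ : Type u
  M : Type u
  [sM : L.Structure M]
  [xM : (exLang L Λ).Structure M]
  [eM : (exHom L Λ).IsExpansionOn M]
  a : ∀ n : ℕ, Fin n → M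
  ne : Nonempty M
  cl : Gr.Cl1 K (exHom L Λ) M
  ha : IsTemplate (exLang L Λ) a
  ha2 : a 2 0 ≠ a 2 1
  hL : L.card ≤ ν
  hΛ : #Λ ≤ ν
  hν : ℵ₀ ≤ ν

attribute [instance] Tpl.sM Tpl.xM Tpl.eM

/-- An EM model over the order `I`. -/
structure EM {L : Language.{u, u}} {K : AEC L} {ν : Cardinal.{u}} (t : Tpl K ν) (I : Type u)
    [LinearOrder I] where
  N : Type u
  [s : L.Structure N]
  [x : (exLang L t.Λ).Structure N]
  [e : (exHom L t.Λ).IsExpansionOn N]
  c : I → N
  isEM : IsEM (exLang L t.Λ) t.a c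
  top : closure (exLang L t.Λ) (range c) = ⊤

attribute [instance] EM.s EM.x EM.e

section

variable {L : Language.{u, u}} {K : AEC L} {ν : Cardinal.{u}} (t : Tpl K ν)

theorem exists_em (I : Type u) [LinearOrder I] : Nonempty (EM t I) := by
  haveI := t.ne
  obtain ⟨N, sN, c, hc, htop⟩ := exists_isEM t.ha I
  let s3 : L.Structure N := (exHom L t.Λ).reduct N
  have he4 : (exHom L t.Λ).IsExpansionOn N := Language.LHom.isExpansionOn_reduct _ _
  exact ⟨⟨N, c, hc, htop⟩⟩

variable {t} {I I' : Type u} [LinearOrder I] [LinearOrder I'] (E : EM t I) (E' : EM t I')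

theorem EM.inj : Function.Injective E.c := E.isEM.injective t.ha2

theorem EM.mem : K.mem E.N := (em_le (exHom L t.Λ) E.isEM E.top t.cl).1

theorem Tpl.hx (t : Tpl K ν) : (exLang L t.Λ).card ≤ ν := card_exLang_le t.hν t.hL t.hΛ

theorem EM.card_le {κ : Cardinal.{u}} (hν : ν ≤ κ) (hI : #I ≤ κ) : #E.N ≤ κ := by
  have h1 : Function.Surjective fun s : (exLang L t.Λ).Term I => s.realize E.c := by
    intro y
    have h2 : y ∈ closure (exLang L t.Λ) (range E.c) := by rw [E.top]; trivial
    exact Gr.mem_closure_range.1 h2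
  exact (mk_le_of_surjective h1).trans (mk_term_le (t.hν.trans hν) (t.hx.trans hν) I hI)

theorem EM.le_card : #I ≤ #E.N := mk_le_of_injective E.inj

theorem EM.card_eq {κ : Cardinal.{u}} (hν : ν ≤ κ) (hI : #I = κ) : #E.N = κ :=
  le_antisymm (E.card_le hν hI.le) (hI.symm.trans_le E.le_card)

/-- Maps of EM models. -/
theorem EM.exists_map (σ : I → I') (hσ : StrictMono σ) : ∃ f : E.N ↪[L] E'.N, K.Emb f ∧
    ∀ s : (exLang L t.Λ).Term I, f (s.realize E.c) = s.realize fun i => E'.c (σ i) := by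
  obtain ⟨f, hf⟩ := exists_em_map E.isEM E'.isEM E.top σ hσ
  exact ⟨Gr.embReduct (exHom L t.Λ) f,
    emb_em_map (exHom L t.Λ) t.cl E'.isEM E.top E'.top σ f hf, hf⟩

/-- Elementarity of such maps. -/
theorem EM.good_map (hI : Nice ν I) (hI' : Nice ν I') (σ : I → I') (hσ : StrictMono σ)
    (f : E.N → E'.N)
    (hf : ∀ s : (exLang L t.Λ).Term I, f (s.realize E.c) = s.realize fun i => E'.c (σ i))
    (A : Set E.N) (hA : #A ≤ ν) : Good L ν (gr f A) := by
  obtain ⟨V, hV, hVA⟩ := exists_cover' t.hν E.top A hA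
  choose tB htB using fun b : A => hVA b.1 b.2
  have h3 : EqS (exLang L t.Λ) ν (fun b => (tB b).realize fun q : V => E.c q.1)
      (fun b => (tB b).realize fun q : V => E'.c (σ q.1)) :=
    eqS_of_pattern t.hν t.hx E.isEM E'.isEM E.top E'.top hI hI' hV (fun q : V => q.1)
      (fun q => σ q.1) (fun q q' => hσ.le_iff_le.symm) tB
  have h4 : gr f A = Set.range fun b : A => ((tB b).realize (fun q : V => E.c q.1),
      (tB b).realize fun q : V => E'.c (σ q.1)) := by
    have h5 : ∀ b : A, (b.1, f b.1) = ((tB b).realize (fun q : V => E.c q.1),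
        (tB b).realize fun q : V => E'.c (σ q.1)) := by
      intro b
      refine Prod.ext (htB b).symm ?_
      have h6 := hf ((tB b).relabel Subtype.val)
      rw [Language.Term.realize_relabel, Language.Term.realize_relabel] at h6
      exact (congrArg f (htB b)).symm.trans h6
    ext p
    constructor
    · rintro ⟨b, hb, rfl⟩
      exact ⟨⟨b, hb⟩, (h5 ⟨b, hb⟩).symm⟩
    · rintro ⟨b, rfl⟩
      exact ⟨b.1, b.2, h5 b⟩
  rw [h4]
  exact Good.reduct (exHom L t.Λ) h3

end

/-- The threshold. -/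
noncomputable def hFn (ν : Cardinal.{u}) : Cardinal.{u} :=
  max ν (hanf (2 ^ ((2 : Cardinal.{u}) ^ ν)))

/-- A nice order. -/
theorem exists_E (ν : Cardinal.{u}) : ∃ (τ : Cardinal.{u}) (E : Type u) (_ : LinearOrder E),
    Nice (hFn ν) E ∧ #E ≤ τ ∧ Order.succ (hFn ν) ≤ τ := by
  obtain ⟨E, h1, h2, -⟩ := exists_nice (hFn ν) 0
  exact ⟨max #E (Order.succ (hFn ν)), E, h1, h2, le_max_left _ _, le_max_right _ _⟩

/-- The size threshold. -/
noncomputable def tau (ν : Cardinal.{u}) : Cardinal.{u} := (exists_E ν).choose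

section pair

variable {L : Language.{u, u}} {K : AEC L} {ν : Cardinal.{u}} (t : Tpl K ν)

/-- A pair of EM models. -/
structure Pair (t : Tpl K ν) (κ₁ : Cardinal.{u}) where
  D : Type u
  D' : Type u
  [oD : LinearOrder D]
  [oD' : LinearOrder D']
  N : EM t D
  P : EM t D'
  ι : D → D'
  hι : StrictMono ι
  nice : Nice (hFn ν) D
  nice' : Nice (hFn ν) D'
  i : N.N ↪[L] P.N
  emb : K.Emb i
  hi : ∀ s : (exLang L t.Λ).Term D, i (s.realize N.c) = s.realize fun d => P.c (ι d)
  card : #N.N = κ₁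

attribute [instance] Pair.oD Pair.oD'

end pair

end Vale.Agent.P307.R2.H287
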