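import Vale.Agent.P307.R2.H287.Ord

universe u v w

open FirstOrder Cardinal Set

namespace Vale.Agent.P307.R2.H287

open Vale.Agent.P307 Language.Structure Language.Substructure

section atEq

variable {L L' : Language.{u, u}} {M N P : Type u}

theorem AtEq.map_terms [L.Structure M] [L.Structure N] {Q : Type w} {R : Type v} {b : Q → M}
    {b' : Q → N} (h : AtEq L b b') (t : R → L.Term Q) :
    AtEq L (fun r => (t r).realize b) (fun r => (t r).realize b') := by
  have key : ∀ (M : Type u) [L.Structure M] (b : Q → M) (s : L.Term R),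
      s.realize (fun r => (t r).realize b) = (s.subst t).realize b := fun M _ b s => by
    rw [Language.Term.realize_subst]
  constructor
  · intro s s'
    rw [key, key, key, key]
    exact h.1 _ _
  · intro n r ts
    simp only [key]
    exact h.2 n r fun k => (ts k).subst t

theorem realize_dn (φ : L →ᴸ L') [L'.Structure M] {Q : Type w} (t : L.Term Q) (b : Q → M) :
    (t.realize (M := Dn φ M) b : M) = (φ.onTerm t).realize (M := M) b := by
  induction t with
  | var _ => rfl
  | func f ts ih =>
    change funMap (M := M) (φ.onFunction f) (fun k => ((ts k).realize (M := Dn φ M) b : M)) =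
      funMap (M := M) (φ.onFunction f) (fun k => (φ.onTerm (ts k)).realize (M := M) b)
    congr 1
    funext k
    exact ih k

theorem AtEq.dn (φ : L →ᴸ L') [L'.Structure M] [L'.Structure N] {Q : Type w} {b : Q → M}
    {b' : Q → N} (h : AtEq L' b b') : AtEq L (M := Dn φ M) (N := Dn φ N) b b' := by
  constructor
  · intro s t
    have h1 := h.1 (φ.onTerm s) (φ.onTerm t)
    rw [← realize_dn φ s b, ← realize_dn φ t b, ← realize_dn φ s b', ← realize_dn φ t b'] at h1
    exact h1
  · intro n r ts
    have h1 := h.2 n (φ.onRelation r) (fun k => φ.onTerm (ts k))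
    simp only [← realize_dn] at h1
    exact h1

theorem AtEq.red (φ : L →ᴸ L') [L.Structure M] [L.Structure N] [L'.Structure M] [L'.Structure N]
    [φ.IsExpansionOn M] [φ.IsExpansionOn N] {Q : Type w} {b : Q → M}
    {b' : Q → N} (h : AtEq L' b b') : AtEq L b b' := by
  constructor
  · intro s t
    have h1 := h.1 (φ.onTerm s) (φ.onTerm t)
    simpa only [Language.LHom.realize_onTerm] using h1
  · intro n r ts
    have h1 := h.2 n (φ.onRelation r) (fun k => φ.onTerm (ts k))
    simpa only [Language.LHom.realize_onTerm, Language.LHom.map_onRelation] using h1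

/-- The embedding given by equality of atomic types. -/
theorem AtEq.exists_embedding [L.Structure M] [L.Structure N] {Q : Type u} {b : Q → M}
    {b' : Q → N} (h : AtEq L b b') (htop : closure L (range b) = ⊤) :
    ∃ f : M ↪[L] N, ∀ t : L.Term Q, f (t.realize b) = t.realize b' := by
  obtain ⟨e, he⟩ := Gr.exists_closure_equiv h
  have hmem : ∀ x : M, x ∈ closure L (range b) := fun x => by rw [htop]; trivial
  refine ⟨(closure L (range b')).subtype.comp (e.toEmbedding.comp
    { toFun := fun x => ⟨x, hmem x⟩
      inj' := fun x y h => congrArg Subtype.val h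
      map_fun' := fun f x => rfl
      map_rel' := fun r x => Iff.rfl }), fun t => he t _⟩

end atEq

section em

variable {L : Language.{u, u}} {M N N' : Type u} [L.Structure M] [L.Structure N] [L.Structure N']
  {a : ∀ n : ℕ, Fin n → M} {I I' : Type u} [LinearOrder I] [LinearOrder I'] {c : I → N}
  {c' : I' → N'}

theorem IsEM.finset (hc : IsEM L a c) (w : Finset I) :
    AtEq L (fun d : w => c d.1) (fun d : w => a w.card ((w.orderIsoOfFin rfl).symm d)) := by
  have h1 := (hc w.card (fun k => ((w.orderIsoOfFin rfl) k).1) (fun i j hij =>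
    (w.orderIsoOfFin rfl).strictMono hij)).comp (fun d : w => (w.orderIsoOfFin rfl).symm d)
  have h2 : ((fun k => c ((w.orderIsoOfFin rfl) k).1) ∘ fun d : w =>
      (w.orderIsoOfFin rfl).symm d) = fun d : w => c d.1 := by
    funext d
    exact congrArg c (congrArg Subtype.val ((w.orderIsoOfFin rfl).apply_symm_apply d))
  rw [h2] at h1
  exact h1

theorem exists_em_map (hc : IsEM L a c) (hc' : IsEM L a c') (htop : closure L (range c) = ⊤)
    (σ : I → I') (hσ : StrictMono σ) :
    ∃ f : N ↪[L] N', ∀ t : L.Term I, f (t.realize c) = t.realize (fun i => c' (σ i)) :=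
  AtEq.exists_embedding (hc.pattern hc' id σ fun _ _ => hσ.le_iff_le.symm) htop

end em

section emb

variable {L L₁ : Language.{u, u}} {K : AEC L} (φ : L →ᴸ L₁) {M N N' : Type u} [L₁.Structure M]
  [L.Structure M] [φ.IsExpansionOn M] [L₁.Structure N] [L.Structure N] [φ.IsExpansionOn N]
  [L₁.Structure N'] [L.Structure N'] [φ.IsExpansionOn N'] {a : ∀ n : ℕ, Fin n → M}
  {I I' : Type u} [LinearOrder I'] {c : I → N} {c' : I' → N'}

theorem emb_em_map (hM : ∀ S : L₁.Substructure M, K.le (φ.substructureReduct S))
    (hc' : IsEM L₁ a c') (htop : closure L₁ (range c) = ⊤) (htop' : closure L₁ (range c') = ⊤)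
    (σ : I → I') (f : N ↪[L₁] N')
    (hf : ∀ t : L₁.Term I, f (t.realize c) = t.realize (fun i => c' (σ i))) :
    K.Emb (Gr.embReduct φ f) := by
  have h1 := (em_le φ hc' htop' hM).2 (range σ)
  unfold AEC.Emb
  convert h1 using 1
  ext x
  have h2 : x ∈ φ.substructureReduct (closure L₁ (c' '' range σ)) ↔
      x ∈ closure L₁ (range fun i => c' (σ i)) := by
    rw [← range_comp]
    rfl
  rw [h2, Gr.mem_closure_range]
  constructor
  · rintro ⟨y, rfl⟩
    have h3 : y ∈ closure L₁ (range c) := by rw [htop]; trivial
    obtain ⟨t, rfl⟩ := Gr.mem_closure_range.1 h3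
    exact ⟨t, (hf t).symm⟩
  · rintro ⟨t, rfl⟩
    exact ⟨t.realize c, hf t⟩

end emb

end Vale.Agent.P307.R2.H287
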