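import Vale.Agent.P307.R2.H287.Ab

set_option linter.unusedSectionVars false

universe u v w

open FirstOrder Cardinal Set

namespace Vale.Agent.P307.R2.H287

open Vale.Agent.P307 Vale.Agent.P307.H304 Language.Structure Language.Substructure

variable {L : Language.{u, u}} {K : AEC L} {ℓ θ : Cardinal.{u}} {α κf : Cardinal.{u} → Cardinal.{u}}
  {M N P : Type u} [L.Structure M] [L.Structure N] [L.Structure P]

/-- A small filtration of a set. -/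
theorem exists_filt (h0 : ℵ₀ ≤ θ) (hcof : θ.ord.cof = ℵ₀) (A : Set M) (hA : #A = θ) :
    ∃ F : ℕ → Set M, (∀ n, #(F n) < θ) ∧ ∀ a ∈ A, ∃ n, a ∈ F n := by
  obtain ⟨F, -, h1, h2⟩ := exists_filtration hA h0 hcof
  refine ⟨fun n => Subtype.val '' F n, fun n => mk_image_le.trans_lt (h1 n), fun a ha => ?_⟩
  obtain ⟨n, hn⟩ := h2 ⟨a, ha⟩
  exact ⟨n, ⟨a, ha⟩, hn, rfl⟩

theorem le_iSup_nat {S : ℕ → L.Substructure M} (hm : Monotone S) (hS : ∀ n, K.le (S n)) :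
    K.le (⨆ n, S n) := by
  have h1 := AEC.le_iSup_directed (K := K) (fun n : ULift.{u} ℕ => S n.down)
    (fun n m hnm => hm hnm) fun n => hS n.down
  have h2 : (⨆ n : ULift.{u} ℕ, S n.down) = ⨆ n, S n := Equiv.ulift.iSup_comp
  rw [← h2]
  exact h1

namespace Clo

variable (h : Clo K ℓ α κf θ)
include h

theorem exists_small_sub (hM : K.mem M) (A : Set M) (hA : #A < θ) :
    ∃ S : L.Substructure M, K.le S ∧ A ⊆ S ∧ #S < θ := by
  obtain ⟨S, h1, h2, h3⟩ := h.hK.2.2 M hM A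
  exact ⟨S, h1, h2, h3.trans_lt (h.add_lt hA h.hℓ)⟩

variable (hH : ∀ ρ < θ, Hfn ρ < θ)
include hH

variable {t : Tpl K ℓ} {J : Type u} [LinearOrder J] (hJ : Nice θ J)
    (hJc : thr κf θ ≤ #J) (E : EM t J) {Wt : Type u} [LinearOrder Wt] [WellFoundedLT Wt]
    (hW : #Wt = θ) (ω : Wt → J) (hω : StrictMono ω) (E₀ : EM t Wt) (i₀ : E₀.N ↪[L] E.N)
    (hi₀' : ∀ s : (exLang L t.Λ).Term Wt, i₀ (s.realize E₀.c) = s.realize fun i => E.c (ω i))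
    (hM : K.mem M) (hMθ : thr κf θ ≤ #M)
    (v : E₀.N ↪[L] M)
include hJ hJc hW hω hi₀' hM hMθ

theorem step_forth (R₀ : Set (E.N × M)) (hR₀ : #R₀ < θ)
    (hLG : LG L ℓ θ ((range fun x => (i₀ x, v x)) ∪ R₀)) (A : Set E.N) (hA : #A < θ) :
    ∃ R₁, R₀ ⊆ R₁ ∧ #R₁ < θ ∧ LG L ℓ θ ((range fun x => (i₀ x, v x)) ∪ R₁) ∧
      A ⊆ Prod.fst '' R₁ := by
  have hEc : thr κf θ ≤ #E.N := hJc.trans E.le_card
  have hEθ : θ ≤ #E.N := (lt_thr h.hunb θ).le.trans hEc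
  have hE₀ : #E₀.N = θ := E₀.card_eq h.hℓ.le hW
  have hG : #((range fun x => (i₀ x, v x)) ∪ R₀ : Set (E.N × M)) ≤ θ :=
    (mk_union_le _ _).trans (add_le_of_le h.hθ0 (mk_range_le.trans hE₀.le) hR₀.le)
  let χ := max (max (Hfn (max ℓ (#R₀ + #A))) #R₀) ℓ
  have hχ : χ < θ := max_lt (max_lt (hH _ (max_lt h.hℓ (h.add_lt hR₀ hA))) hR₀) h.hℓ
  obtain ⟨d, hd⟩ := h.rChi' E.mem hEθ hM hMθ _ hG hLG hχ hA (Subtype.val : A → E.N)
  have h1 := h.lg_of_chi hH hJ hJc E hW ω hω E₀ i₀ hi₀' hM ((lt_thr h.hunb θ).le.trans hMθ) v R₀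
    hR₀ hLG hA Subtype.val d (χ := χ) ((le_max_left _ _).trans (le_max_left _ _))
    ((le_max_right _ _).trans (le_max_left _ _)) (le_max_right _ _) hχ hd
  refine ⟨R₀ ∪ range fun k : A => (k.1, d k), subset_union_left, ?_, ?_, ?_⟩
  · exact (mk_union_le _ _).trans_lt (h.add_lt hR₀ (mk_range_le.trans_lt hA))
  · rw [← union_assoc]
    exact h1
  · intro a ha
    exact ⟨_, Or.inr ⟨⟨a, ha⟩, rfl⟩, rfl⟩

theorem step_back (R₀ : Set (E.N × M)) (hR₀ : #R₀ < θ)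
    (hLG : LG L ℓ θ ((range fun x => (i₀ x, v x)) ∪ R₀)) (B : Set M) (hB : #B < θ) :
    ∃ R₁, R₀ ⊆ R₁ ∧ #R₁ < θ ∧ LG L ℓ θ ((range fun x => (i₀ x, v x)) ∪ R₁) ∧
      B ⊆ Prod.snd '' R₁ := by
  have hEc : thr κf θ ≤ #E.N := hJc.trans E.le_card
  have hMθ' : θ ≤ #M := (lt_thr h.hunb θ).le.trans hMθ
  have hE₀ : #E₀.N = θ := E₀.card_eq h.hℓ.le hW
  have hG : #((range fun x => (i₀ x, v x)) ∪ R₀ : Set (E.N × M)) ≤ θ :=
    (mk_union_le _ _).trans (add_le_of_le h.hθ0 (mk_range_le.trans hE₀.le) hR₀.le)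
  let χ := max (max (Hfn (max ℓ (#R₀ + #B))) #R₀) ℓ
  have hχ : χ < θ := max_lt (max_lt (hH _ (max_lt h.hℓ (h.add_lt hR₀ hB))) hR₀) h.hℓ
  obtain ⟨c, hc⟩ := h.rChi' hM hMθ' E.mem hEc (Prod.swap ⁻¹' ((range fun x => (i₀ x, v x)) ∪ R₀))
    ((mk_swap _).trans_le hG) hLG.swap hχ hB (Subtype.val : B → M)
  have hc' : ∀ S ⊆ (range fun x => (i₀ x, v x)) ∪ R₀, #S ≤ χ →
      SG L ℓ θ (S ∪ range fun k => (c k, Subtype.val k)) := by
    intro S hS hSc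
    have h1 := (hc (Prod.swap ⁻¹' S) (fun p hp => hS hp) ((mk_swap S).trans_le hSc)).swap
    refine h.sg_subset h1 ?_
    rintro p (hp | ⟨k, rfl⟩)
    · exact Or.inl hp
    · exact Or.inr ⟨k, rfl⟩
  have h1 := h.lg_of_chi hH hJ hJc E hW ω hω E₀ i₀ hi₀' hM ((lt_thr h.hunb θ).le.trans hMθ) v R₀
    hR₀ hLG hB c Subtype.val (χ := χ) ((le_max_left _ _).trans (le_max_left _ _))
    ((le_max_right _ _).trans (le_max_left _ _)) (le_max_right _ _) hχ hc'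
  refine ⟨R₀ ∪ range fun k : B => (c k, k.1), subset_union_left, ?_, ?_, ?_⟩
  · exact (mk_union_le _ _).trans_lt (h.add_lt hR₀ (mk_range_le.trans_lt hB))
  · rw [← union_assoc]
    exact h1
  · intro b hb
    exact ⟨_, Or.inr ⟨⟨b, hb⟩, rfl⟩, rfl⟩

theorem step_both (R₀ : Set (E.N × M)) (hR₀ : #R₀ < θ)
    (hLG : LG L ℓ θ ((range fun x => (i₀ x, v x)) ∪ R₀)) (A : Set E.N) (hA : #A < θ)
    (B : Set M) (hB : #B < θ) :
    ∃ (R₁ : Set (E.N × M)) (S : L.Substructure E.N) (T : L.Substructure M), R₀ ⊆ R₁ ∧ #R₁ < θ ∧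
      LG L ℓ θ ((range fun x => (i₀ x, v x)) ∪ R₁) ∧ K.le S ∧ K.le T ∧
      A ∪ Prod.fst '' R₀ ⊆ S ∧ (S : Set E.N) ⊆ Prod.fst '' R₁ ∧
      B ∪ Prod.snd '' R₀ ⊆ T ∧ (T : Set M) ⊆ Prod.snd '' R₁ := by
  obtain ⟨S, hS1, hS2, hS3⟩ := h.exists_small_sub E.mem (A ∪ Prod.fst '' R₀)
    ((mk_union_le _ _).trans_lt (h.add_lt hA (mk_image_le.trans_lt hR₀)))
  obtain ⟨R₁, h1, h2, h3, h4⟩ := h.step_forth hH hJ hJc E hW ω hω E₀ i₀ hi₀' hM hMθ v R₀ hR₀ hLG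
    S hS3
  obtain ⟨T, hT1, hT2, hT3⟩ := h.exists_small_sub hM (B ∪ Prod.snd '' R₁)
    ((mk_union_le _ _).trans_lt (h.add_lt hB (mk_image_le.trans_lt h2)))
  obtain ⟨R₂, h5, h6, h7, h8⟩ := h.step_back hH hJ hJc E hW ω hω E₀ i₀ hi₀' hM hMθ v R₁ h2 h3
    T hT3
  exact ⟨R₂, S, T, h1.trans h5, h6, h7, hS1, hT1, hS2, h4.trans (image_mono h5),
    (union_subset_union_right _ (image_mono h1)).trans hT2, h8⟩

/-- Extension of an embedding of a standard model of size `θ`. -/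
theorem exists_ext (hcof : θ.ord.cof = ℵ₀) (hi₀ : K.Emb i₀) (hv : K.Emb v) (A : Set E.N)
    (hA : #A ≤ θ) (B : Set M) (hB : #B ≤ θ) :
    ∃ (S : L.Substructure E.N) (T : L.Substructure M) (e : S ≃[L] T), K.le S ∧ K.le T ∧
      A ⊆ S ∧ B ⊆ T ∧ #S = θ ∧ ∀ x, ∃ hx : i₀ x ∈ S, (e ⟨i₀ x, hx⟩ : M) = v x := by
  classical
  have hE₀ : #E₀.N = θ := E₀.card_eq h.hℓ.le hW
  have hA' : #(A ∪ range i₀ : Set E.N) = θ := by
    apply le_antisymm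
    · exact (mk_union_le _ _).trans (add_le_of_le h.hθ0 hA (mk_range_le.trans hE₀.le))
    · refine (hE₀.symm.trans (mk_range_eq i₀ i₀.injective).symm).trans_le ?_
      exact mk_le_mk_of_subset subset_union_right
  have hB' : #(B ∪ range v : Set M) = θ := by
    apply le_antisymm
    · exact (mk_union_le _ _).trans (add_le_of_le h.hθ0 hB (mk_range_le.trans hE₀.le))
    · refine (hE₀.symm.trans (mk_range_eq v v.injective).symm).trans_le ?_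
      exact mk_le_mk_of_subset subset_union_right
  obtain ⟨FA, hFA1, hFA2⟩ := exists_filt h.hθ0 hcof _ hA'
  obtain ⟨FB, hFB1, hFB2⟩ := exists_filt h.hθ0 hcof _ hB'
  have hθ0 : (0 : Cardinal.{u}) < θ := aleph0_pos.trans_le h.hθ0
  have hLG0 : LG L ℓ θ ((range fun x => (i₀ x, v x)) ∪ (∅ : Set (E.N × M))) := by
    rw [union_empty]
    exact h.lg_range2 i₀ v hi₀ hv hE₀.ge
  choose nx S T h1 h2 h3 h4 h5 h6 h7 h8 h9 using fun (n : ℕ)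
    (R : {R : Set (E.N × M) // #R < θ ∧ LG L ℓ θ ((range fun x => (i₀ x, v x)) ∪ R)}) =>
    h.step_both hH hJ hJc E hW ω hω E₀ i₀ hi₀' hM hMθ v R.1 R.2.1 R.2.2 (FA n) (hFA1 n) (FB n)
      (hFB1 n)
  let F : ℕ → {R : Set (E.N × M) // #R < θ ∧ LG L ℓ θ ((range fun x => (i₀ x, v x)) ∪ R)} :=
    fun n => Nat.rec ⟨∅, by simpa using hθ0, hLG0⟩ (fun n R => ⟨nx n R, h2 n R, h3 n R⟩) n
  have hF : ∀ n, (F (n + 1)).1 = nx n (F n) := fun n => rfl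
  have hFm : Monotone fun n => (F n).1 := monotone_nat_of_le_succ fun n => h1 n (F n)
  have hSm : Monotone fun n => S n (F n) := monotone_nat_of_le_succ fun n x hx =>
    h6 (n + 1) (F (n + 1)) (Or.inr (h7 n (F n) hx))
  have hTm : Monotone fun n => T n (F n) := monotone_nat_of_le_succ fun n x hx =>
    h8 (n + 1) (F (n + 1)) (Or.inr (h9 n (F n) hx))
  have hSmem : ∀ x, x ∈ (⨆ n, S n (F n) : L.Substructure E.N) ↔ ∃ n, x ∈ S n (F n) := fun x =>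
    Language.Substructure.mem_iSup_of_directed hSm.directed_le
  have hTmem : ∀ x, x ∈ (⨆ n, T n (F n) : L.Substructure M) ↔ ∃ n, x ∈ T n (F n) := fun x =>
    Language.Substructure.mem_iSup_of_directed hTm.directed_le
  have hPI : IsPI L (⋃ n, (F n).1) := isPI_iUnion hFm fun n => by
    have h10 : SG L ℓ θ (F n).1 := (F n).2.2 _ subset_union_right (F n).2.1
    exact h.sg_isPI h10
  obtain ⟨e, he⟩ := hPI.exists_equiv_sub (⨆ n, S n (F n)) (⨆ n, T n (F n)) (by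
    intro a ha
    obtain ⟨n, hn⟩ := (hSmem a).1 ha
    obtain ⟨p, hp, rfl⟩ := h7 n (F n) hn
    refine ⟨p.2, (hTmem _).2 ⟨n + 1, h8 (n + 1) (F (n + 1)) (Or.inr ⟨p, hp, rfl⟩)⟩,
      mem_iUnion.2 ⟨n + 1, hp⟩⟩) (by
    intro b hb
    obtain ⟨n, hn⟩ := (hTmem b).1 hb
    obtain ⟨p, hp, rfl⟩ := h9 n (F n) hn
    refine ⟨p.1, (hSmem _).2 ⟨n + 1, h6 (n + 1) (F (n + 1)) (Or.inr ⟨p, hp, rfl⟩)⟩,
      mem_iUnion.2 ⟨n + 1, hp⟩⟩)
  have hAS : ∀ a ∈ A ∪ range i₀, a ∈ (⨆ n, S n (F n) : L.Substructure E.N) := by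
    intro a ha
    obtain ⟨n, hn⟩ := hFA2 a ha
    exact (hSmem a).2 ⟨n, h6 n (F n) (Or.inl hn)⟩
  have hBT : ∀ a ∈ B ∪ range v, a ∈ (⨆ n, T n (F n) : L.Substructure M) := by
    intro a ha
    obtain ⟨n, hn⟩ := hFB2 a ha
    exact (hTmem a).2 ⟨n, h8 n (F n) (Or.inl hn)⟩
  refine ⟨⨆ n, S n (F n), ⨆ n, T n (F n), e, le_iSup_nat hSm fun n => h4 n (F n),
    le_iSup_nat hTm fun n => h5 n (F n), fun a ha => hAS a (Or.inl ha),
    fun b hb => hBT b (Or.inl hb), ?_, fun x => ⟨hAS _ (Or.inr ⟨x, rfl⟩), ?_⟩⟩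
  · apply le_antisymm
    · have h10 : ((⨆ n, S n (F n) : L.Substructure E.N) : Set E.N) ⊆
          ⋃ n : ULift.{u} ℕ, Prod.fst '' (F (n.down + 1)).1 := by
        intro a ha
        obtain ⟨n, hn⟩ := (hSmem a).1 ha
        exact mem_iUnion.2 ⟨ULift.up n, h7 n (F n) hn⟩
      refine (mk_le_mk_of_subset h10).trans ?_
      refine mk_iUnion_le_of_le h.hθ0 (mk_le_aleph0.trans h.hθ0) _ fun n => ?_
      exact mk_image_le.trans (F (n.down + 1)).2.1.le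
    · refine (hE₀.symm.trans (mk_range_eq i₀ i₀.injective).symm).trans_le ?_
      refine mk_le_mk_of_subset ?_
      rintro _ ⟨x, rfl⟩
      exact hAS _ (Or.inr ⟨x, rfl⟩)
  · have h10 := he ⟨i₀ x, hAS _ (Or.inr ⟨x, rfl⟩)⟩
    obtain ⟨n, hn⟩ := mem_iUnion.1 h10
    have h11 : SG L ℓ θ ({(i₀ x, v x), (i₀ x, (e ⟨i₀ x, hAS _ (Or.inr ⟨x, rfl⟩)⟩ : M))} :
        Set (E.N × M)) := by
      refine (F n).2.2 _ ?_ ?_
      · rintro p (rfl | rfl)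
        · exact Or.inl ⟨x, rfl⟩
        · exact Or.inr hn
      · exact (Set.Finite.lt_aleph0 (by simp)).trans_le h.hθ0
    exact (((h.sg_isPI h11).eq_iff _ (Or.inl rfl) _ (Or.inr rfl)).1 rfl).symm

end Clo

end Vale.Agent.P307.R2.H287
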