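import Vale.Agent.P307.R2.H287.EmMap

universe u v w

open FirstOrder Cardinal Set

namespace Vale.Agent.P307.R2.H287

open Vale.Agent.P307 Language.Structure Language.Substructure

/-- The new symbols. -/
abbrev Sy (Λ T S : Type u) : Type u := Λ ⊕ (Λ ⊕ (T ⊕ (Set S ⊕ ULift.{u} ℕ)))

/-- The language of a pair of models. -/
abbrev L2 (L : Language.{u, u}) (Λ T S : Type u) : Language.{u, u} :=
  L.sum (Gr.LX (Sy Λ T S) (ULift.{u} Bool))

section syms

variable {L : Language.{u, u}} {Λ T S : Type u}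

/-- The first Skolem structure. -/
def homA : exLang L Λ →ᴸ L2 L Λ T S where
  onFunction := fun {n} f => (Sum.map id Sum.inl f : L.Functions n ⊕ Sy Λ T S)
  onRelation := fun {n} r => (Sum.map id PEmpty.elim r : L.Relations n ⊕ ULift.{u} Bool)

/-- The second Skolem structure. -/
def homB : exLang L Λ →ᴸ L2 L Λ T S where
  onFunction := fun {n} f => (Sum.map id (fun l => Sum.inr (Sum.inl l)) f :
    L.Functions n ⊕ Sy Λ T S)
  onRelation := fun {n} r => (Sum.map id PEmpty.elim r : L.Relations n ⊕ ULift.{u} Bool)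

/-- Constants. -/
def sT (t : T) : (L2 L Λ T S).Functions 0 := Sum.inr (Sum.inr (Sum.inr (Sum.inl t)))

/-- Cut functions. -/
def sG (c : Set S) : (L2 L Λ T S).Functions 1 :=
  Sum.inr (Sum.inr (Sum.inr (Sum.inr (Sum.inl c))))

/-- Decomposition functions. -/
def sF (i : ℕ) : (L2 L Λ T S).Functions 1 :=
  Sum.inr (Sum.inr (Sum.inr (Sum.inr (Sum.inr (ULift.up i)))))

/-- The skeleton. -/
def rSk : (L2 L Λ T S).Relations 1 := Sum.inr (ULift.up false)

/-- The order of the skeleton. -/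
def rLt : (L2 L Λ T S).Relations 2 := Sum.inr (ULift.up true)

theorem card_L2_le {l : Cardinal.{u}} (hl : ℵ₀ ≤ l) (hL : L.card ≤ l) (hΛ : #Λ ≤ l) (hT : #T ≤ l)
    (hS : 2 ^ #S ≤ l) : (L2 L Λ T S).card ≤ l := by
  refine Gr.card_LX_le hl hL ?_ ?_
  · simp only [mk_sum, lift_id]
    refine add_le_of_le hl hΛ (add_le_of_le hl hΛ (add_le_of_le hl hT (add_le_of_le hl ?_ ?_)))
    · rw [mk_set]
      exact hS
    · rw [mk_uLift, mk_nat, lift_aleph0]
      exact hl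
  · rw [mk_uLift, mk_bool]
    refine le_trans ?_ hl
    rw [lift_ofNat]
    exact (natCast_lt_aleph0 (n := 2)).le

end syms

section str

variable {L : Language.{u, u}} {Λ T S N Z D₁ X : Type u} [(exLang L Λ).Structure N]
  [(exLang L Λ).Structure Z] [L.Structure N] [L.Structure Z] [(exHom L Λ).IsExpansionOn N]
  [(exHom L Λ).IsExpansionOn Z]

open Classical in
/-- The interpretation of the new function symbols. -/
noncomputable def fnZ (g : N → Z) (tv : T → Z) (Gc : Set S → Z → Z) (dec : Z → ℕ → Z) (z₀ : Z)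
    (n : ℕ) : Sy Λ T S → (Fin n → Z) → Z
  | Sum.inl l, v => funMap (L := exLang L Λ) (Sum.inr l) v
  | Sum.inr (Sum.inl l), v => if h : ∀ k, ∃ m, g m = v k then
      g (funMap (L := exLang L Λ) (Sum.inr l) fun k => (h k).choose) else z₀
  | Sum.inr (Sum.inr (Sum.inl t)), _ => tv t
  | Sum.inr (Sum.inr (Sum.inr (Sum.inl c))), v => if h : 0 < n then Gc c (v ⟨0, h⟩) else z₀
  | Sum.inr (Sum.inr (Sum.inr (Sum.inr i))), v =>
      if h : 0 < n then dec (v ⟨0, h⟩) i.down else z₀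

/-- The interpretation of the new relation symbols. -/
def rlZ [LT D₁] (c₁ : D₁ → Z) (n : ℕ) : ULift.{u} Bool → (Fin n → Z) → Prop
  | ⟨false⟩, v => ∃ h : 0 < n, v ⟨0, h⟩ ∈ range c₁
  | ⟨true⟩, v => ∃ h : 1 < n, ∃ t t', t < t' ∧ c₁ t = v ⟨0, by omega⟩ ∧ c₁ t' = v ⟨1, h⟩

/-- The properties of the structure on `Z`. -/
structure IsStr [(L2 L Λ T S).Structure Z] [LT D₁] (g : N ↪[L] Z) (tv : T → Z)
    (Gc : Set S → Z → Z) (dec : Z → ℕ → Z) (c₁ : D₁ → Z) : Prop where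
  hA : (homA : exLang L Λ →ᴸ L2 L Λ T S).IsExpansionOn Z
  hB : ∃ f : N ↪[exLang L Λ] Dn (homB : exLang L Λ →ᴸ L2 L Λ T S) Z, ∀ x, f x = g x
  hT : ∀ (t : T) (v : Fin 0 → Z), funMap (L := L2 L Λ T S) (sT t) v = tv t
  hG : ∀ (c : Set S) (v : Fin 1 → Z), funMap (L := L2 L Λ T S) (sG c) v = Gc c (v 0)
  hF : ∀ (i : ℕ) (v : Fin 1 → Z), funMap (L := L2 L Λ T S) (sF i) v = dec (v 0) i
  hSk : ∀ v : Fin 1 → Z, RelMap (L := L2 L Λ T S) rSk v ↔ v 0 ∈ range c₁
  hLt : ∀ v : Fin 2 → Z, RelMap (L := L2 L Λ T S) rLt v ↔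
    ∃ t t', t < t' ∧ c₁ t = v 0 ∧ c₁ t' = v 1

theorem exists_str [LT D₁] (g : N ↪[L] Z) (tv : T → Z) (Gc : Set S → Z → Z) (dec : Z → ℕ → Z)
    (c₁ : D₁ → Z) (z₀ : Z) : ∃ _ : (L2 L Λ T S).Structure Z,
      ((Language.LHom.sumInl : L →ᴸ L2 L Λ T S).IsExpansionOn Z) ∧
      IsStr (Λ := Λ) g tv Gc dec c₁ := by
  let s1 : (Gr.LX (Sy Λ T S) (ULift.{u} Bool)).Structure Z :=
    Gr.lxStr (fnZ (L := L) g tv Gc dec z₀) (rlZ c₁)
  refine ⟨inferInstance, inferInstance, ?_⟩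
  have hexp1 : ∀ {n : ℕ} (f : L.Functions n) (v : Fin n → Z),
      funMap (L := exLang L Λ) (Sum.inl f) v = funMap f v := fun f v =>
    (exHom L Λ).map_onFunction f v
  have hexp2 : ∀ {n : ℕ} (f : L.Relations n) (v : Fin n → Z),
      RelMap (L := exLang L Λ) (Sum.inl f) v = RelMap f v := fun f v =>
    (exHom L Λ).map_onRelation f v
  have hexp3 : ∀ {n : ℕ} (f : L.Functions n) (v : Fin n → N),
      funMap (L := exLang L Λ) (Sum.inl f) v = funMap f v := fun f v =>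
    (exHom L Λ).map_onFunction f v
  have hexp4 : ∀ {n : ℕ} (f : L.Relations n) (v : Fin n → N),
      RelMap (L := exLang L Λ) (Sum.inl f) v = RelMap f v := fun f v =>
    (exHom L Λ).map_onRelation f v
  refine ⟨⟨?_, ?_⟩, ⟨⟨⟨g, g.injective⟩, ?_, ?_⟩, fun _ => rfl⟩, ?_, ?_, ?_, ?_, ?_⟩
  · rintro n (f | l) v
    · exact (hexp1 f v).symm
    · rfl
  · rintro n (r | l) v
    · exact (hexp2 r v).symm
    · exact l.elim
  · rintro n (f | l) v
    · change g (funMap (L := exLang L Λ) (Sum.inl f) v) = funMap f (fun k => g (v k))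
      rw [hexp3]
      exact g.map_fun f v
    · have h : ∀ k, ∃ m, g m = g (v k) := fun k => ⟨v k, rfl⟩
      change g (funMap (L := exLang L Λ) (Sum.inr l) v) =
        fnZ (L := L) (Λ := Λ) g tv Gc dec z₀ n (Sum.inr (Sum.inl l)) (fun k => g (v k))
      have h2 : fnZ (L := L) (Λ := Λ) g tv Gc dec z₀ n (Sum.inr (Sum.inl l)) (fun k => g (v k)) =
        g (funMap (L := exLang L Λ) (Sum.inr l) fun k => (h k).choose) := dif_pos h
      rw [h2]
      congr 2
      funext k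
      exact (g.injective (h k).choose_spec).symm
  · rintro n (r | l) v
    · change RelMap r (fun k => g (v k)) ↔ RelMap (L := exLang L Λ) (Sum.inl r) v
      rw [hexp4]
      exact g.map_rel r v
    · exact l.elim
  · intro t v
    rfl
  · intro c v
    rfl
  · intro i v
    rfl
  · intro v
    change (∃ h : 0 < 1, v ⟨0, h⟩ ∈ range c₁) ↔ _
    exact ⟨fun ⟨_, h⟩ => h, fun h => ⟨Nat.one_pos, h⟩⟩
  · intro v
    change (∃ h : 1 < 2, ∃ t t', t < t' ∧ c₁ t = v ⟨0, by omega⟩ ∧ c₁ t' = v ⟨1, h⟩) ↔ _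
    exact ⟨fun ⟨_, h⟩ => h, fun h => ⟨Nat.one_lt_two, h⟩⟩

end str

end Vale.Agent.P307.R2.H287
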