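import Vale.Agent.P307.R2.H427.EMapPG
import Vale.Agent.P307.R2.H541.Di1

/-!
The strong submodels of size `τ` (a smaller base point) of the saturated member of size `θ⁺`.
-/

set_option linter.unusedSectionVars false

universe u

open FirstOrder Cardinal Set

namespace Vale.Agent.P307.R2.H541

open Vale.Agent.P307 Vale.Agent.P307.H304 Vale.Agent.P307.R2.H287 Vale.Agent.P307.R2.H1
  Vale.Agent.P307.R2.H971 Vale.Agent.P307.R2.H804 Language.Structure Language.Substructure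

variable {L : Language.{u, u}} {K : AEC L} {ℓ θ τ : Cardinal.{u}}
  {κf α : Cardinal.{u} → Cardinal.{u}} {C : Type u} [L.Structure C]

/-- The strong submodels of size `τ`. -/
def Sm (K : AEC L) (τ : Cardinal.{u}) (C : Type u) [L.Structure C] : Set (Set C) :=
  {N | ∃ D : L.Substructure C, K.le D ∧ #D = τ ∧ (D : Set C) = N}

/-- The strong submodels of size less than `τ`. -/
def Tm' (K : AEC L) (τ : Cardinal.{u}) (C : Type u) [L.Structure C] : Set (Set C) :=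
  {N | ∃ D : L.Substructure C, K.le D ∧ #D < τ ∧ (D : Set C) = N}

theorem Sm.card {N : Set C} (h : N ∈ Sm K τ C) : #N = τ := by
  obtain ⟨D, -, h1, rfl⟩ := h
  exact h1

theorem Tm'.card {N : Set C} (h : N ∈ Tm' K τ C) : #N < τ := by
  obtain ⟨D, -, h1, rfl⟩ := h
  exact h1

/-- Unions of chains (or directed families) of strong submodels. -/
theorem exists_iUnion_strong {ι : Type u} [Preorder ι] [IsDirectedOrder ι] [Nonempty ι]
    (F : ι → Set C) (hF : Monotone F)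
    (h : ∀ i, ∃ D : L.Substructure C, K.le D ∧ (D : Set C) = F i) :
    ∃ D : L.Substructure C, K.le D ∧ (D : Set C) = ⋃ i, F i := by
  choose D hD hDF using h
  have hDm : Monotone D := by
    intro i j hij
    rw [← SetLike.coe_subset_coe, hDF, hDF]
    exact hF hij
  refine ⟨⨆ i, D i, AEC.le_iSup_directed D hDm hD, ?_⟩
  ext x
  rw [SetLike.mem_coe, Language.Substructure.mem_iSup_of_directed
    (directed_of_isDirected_le hDm), mem_iUnion]
  refine exists_congr fun i => ?_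
  rw [← hDF, SetLike.mem_coe]

theorem Sm.iUnion {ι : Type u} [Preorder ι] [IsDirectedOrder ι] [Nonempty ι] (hτ : ℵ₀ ≤ τ)
    (hι : #ι ≤ τ) (F : ι → Set C) (hF : Monotone F) (h : ∀ i, F i ∈ Sm K τ C) :
    (⋃ i, F i) ∈ Sm K τ C := by
  obtain ⟨D, hD, hDF⟩ := exists_iUnion_strong (K := K) F hF fun i => by
    obtain ⟨D, h1, -, h3⟩ := h i
    exact ⟨D, h1, h3⟩
  refine ⟨D, hD, ?_, hDF⟩
  have h1 : #D = #(⋃ i, F i : Set C) := mk_coe_eq hDF
  rw [h1]
  refine le_antisymm ?_ ?_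
  · refine (mk_iUnion_le F).trans ((mul_le_mul' hι (ciSup_le' fun i => (Sm.card (h i)).le)).trans
      (mul_eq_self hτ).le)
  · obtain ⟨i⟩ := (inferInstance : Nonempty ι)
    exact (Sm.card (h i)).ge.trans (mk_le_mk_of_subset (subset_iUnion F i))

section

variable (h₀ : BasePt K ℓ κf α θ) (hK : K.IsLS ℓ)
  (hunb : ∀ ν, ν < κf ν ∧ K.CategoricalIn (κf ν)) (hst : Stab K ℓ α (H287.thr κf))
  (hCm : K.mem C) (hs : Sat K θ C) (hCc : #C = Order.succ θ)

include h₀ hK hunb in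
/-- Maps which are induced by automorphisms on the members of a sequence of tiny strong submodels
with union of size `τ` are elementary. -/
theorem EMp.of_filt (hτ : BasePt K ℓ κf α τ) (hτθ : τ < θ) (hCc : #C = Order.succ θ)
    {t : ℕ → Set C} (htm : Monotone t) (ht : ∀ n, t n ∈ Tm' K τ C)
    (hU : (⋃ n, t n) ∈ Sm K τ C) {f : C → C}
    (hf : ∀ n, ∃ g ∈ autG L C, ∀ a ∈ t n, g a = f a) :
    EMp L τ (⋃ n, t n) f ∧ f '' (⋃ n, t n) ∈ Sm K τ C := by
  choose D hD hDc hDt using ht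
  choose g hg hgf using hf
  choose e he using hg
  have heg : ∀ n, ∀ a ∈ t n, e n a = f a := fun n a ha => by rw [he, hgf n a ha]
  let S : ULift.{u} ℕ → L.Substructure C := fun n => D n.down
  let T : ULift.{u} ℕ → L.Substructure C := fun n => (D n.down).map (e n.down).toHom
  have hmt : ∀ n x, x ∈ D n ↔ x ∈ t n := fun n x => by
    rw [← hDt n]
    rfl
  have hS : Monotone S := fun n m h x hx => (hmt _ x).2 (htm h ((hmt _ x).1 hx))
  have hT : Monotone T := by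
    rintro n m h _ ⟨a, ha, rfl⟩
    have h1 : a ∈ t n.down := (hmt _ a).1 ha
    have h2 : a ∈ t m.down := htm h h1
    refine ⟨a, (hmt _ a).2 h2, ?_⟩
    change e m.down a = e n.down a
    rw [heg _ a h1, heg _ a h2]
  have hTK : ∀ n, K.le (T n) := fun n => K.le_iso (e n.down) (D n.down) (hD _)
  have hSK : ∀ n, K.le (S n) := fun n => hD _
  have hex : ∀ n : ULift.{u} ℕ, ∃ i : S n ≃[L] T n, ∀ x, (i x : C) = f x := by
    intro n
    obtain ⟨i, hi⟩ := IsPI.exists_equiv_sub (L := L) (R := {p : C × C | p.1 ∈ D n.down ∧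
      e n.down p.1 = p.2}) (by
        have h1 := isPI_gr (e n.down).toEmbedding (D n.down : Set C)
        refine h1.mono ?_
        rintro ⟨x, y⟩ ⟨h2, h3⟩
        exact mem_gr.2 ⟨h2, h3.symm⟩) (S n) (T n) (fun x hx => ⟨e n.down x, ⟨x, hx, rfl⟩, hx, rfl⟩)
      (by
        rintro _ ⟨x, hx, rfl⟩
        exact ⟨x, hx, hx, rfl⟩)
    exact ⟨i, fun x => ((hi x).2).symm.trans (heg _ x ((hmt _ x).1 x.2))⟩
  choose i hi using hex
  obtain ⟨E, hE⟩ := H913.exists_equiv_iSup S T hS hT i (by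
    intro n m h x
    rw [hi, hi])
  have hSle : K.le (⨆ n, S n) := AEC.le_iSup_directed S hS hSK
  have hTle : K.le (⨆ n, T n) := AEC.le_iSup_directed T hT hTK
  have hmS : ∀ x, x ∈ (⨆ n, S n : L.Substructure C) ↔ ∃ n, x ∈ t n := fun x => by
    rw [Language.Substructure.mem_iSup_of_directed (directed_of_isDirected_le hS)]
    exact ⟨fun ⟨n, hn⟩ => ⟨n.down, (hmt _ x).1 hn⟩, fun ⟨n, hn⟩ => ⟨⟨n⟩, (hmt _ x).2 hn⟩⟩
  have hSc : ((⨆ n, S n : L.Substructure C) : Set C) = ⋃ n, t n := by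
    ext x
    rw [SetLike.mem_coe, hmS, mem_iUnion]
  have hScard : #(⨆ n, S n : L.Substructure C) = τ := (mk_coe_eq hSc).trans (Sm.card hU)
  have hEf : ∀ x : (⨆ n, S n : L.Substructure C), (E x : C) = f x := by
    rintro ⟨x, hx⟩
    obtain ⟨n, hn⟩ := (hmS x).1 hx
    have h1 := hE ⟨n⟩ ⟨x, (hmt _ x).2 hn⟩
    exact h1.trans (hi ⟨n⟩ ⟨x, (hmt _ x).2 hn⟩)
  have hTm : ((⨆ n, T n : L.Substructure C) : Set C) = f '' ⋃ n, t n := by
    ext y
    constructor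
    · intro hy
      have h1 := hEf (E.symm ⟨y, hy⟩)
      rw [Language.Equiv.apply_symm_apply] at h1
      refine ⟨_, ?_, h1.symm⟩
      rw [← hSc]
      exact (E.symm ⟨y, hy⟩).2
    · rintro ⟨x, hx, rfl⟩
      rw [← hSc] at hx
      rw [← hEf ⟨x, hx⟩]
      exact (E ⟨x, hx⟩).2
  refine ⟨?_, _, hTle, ?_, hTm⟩
  · rw [← hSc]
    refine EMp.of_emb h₀ hK hunb hτ hτθ hCc hSle hScard
      ((⨆ n, T n : L.Substructure C).subtype.comp E.toEmbedding) ?_ fun x => (hEf x).symm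
    exact AEC.Emb.comp (AEC.emb_subtype.2 hTle) (AEC.Emb.of_equiv E (K.mem_of_le _ hSle).1)
  · rw [← hScard]
    exact (mk_congr E.toEquiv).symm

include hK in
/-- Filtrations by tiny strong submodels, along a given filtration. -/
theorem Sm.exists_filt (hτ : BasePt K ℓ κf α τ) {N : Set C} (hN : #N ≤ τ) {R : ℕ → Set C}
    (hR : Monotone R) (hNR : N ⊆ ⋃ n, R n)
    (hRN : ∀ n, ∃ D : L.Substructure C, K.le D ∧ (D : Set C) = R n ∩ N) :
    ∃ t : ℕ → Set C, Monotone t ∧ (∀ n, t n ∈ Tm' K τ C) ∧ (∀ n, t n ⊆ R n) ∧ ⋃ n, t n = N := by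
  have hτ0 : ℵ₀ ≤ τ := hK.1.trans hτ.pt.lt.le
  obtain ⟨Y, hY, hYc, hYN⟩ := exists_filtration' hτ0 hτ.pt.cof N hN
  have hls : ∀ n (A : Set C), A ⊆ R n ∩ N → #A < τ →
      ∃ t ∈ Tm' K τ C, A ⊆ t ∧ t ⊆ R n ∩ N := by
    intro n A hA hAc
    obtain ⟨D, hD, hDR⟩ := hRN n
    obtain ⟨D', h1, h2, h3, h4⟩ := inst_ls' hK hD (A := A) (by rwa [hDR])
    exact ⟨D', ⟨D', h1, h2.trans_lt (max_lt hAc hτ.pt.lt), rfl⟩, h3, by rwa [hDR] at h4⟩
  obtain ⟨t, ht, htt⟩ := exists_seq (fun n (t : Set C) => t ∈ Tm' K τ C ∧ Y n ∩ R n ⊆ t ∧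
      t ⊆ R n ∩ N) (fun _ t t' => t ⊆ t') (by
      obtain ⟨t, h1, h2, h3⟩ := hls 0 (Y 0 ∩ R 0) (fun x hx => ⟨hx.2, by
        rw [← hYN]
        exact mem_iUnion.2 ⟨0, hx.1⟩⟩) ((mk_le_mk_of_subset inter_subset_left).trans_lt (hYc 0))
      exact ⟨t, h1, h2, h3⟩)
    (by
      rintro n t ⟨h1, h2, h3⟩
      obtain ⟨t', h4, h5, h6⟩ := hls (n + 1) (t ∪ Y (n + 1) ∩ R (n + 1)) (union_subset
        (fun x hx => ⟨hR (Nat.le_succ n) (h3 hx).1, (h3 hx).2⟩) fun x hx => ⟨hx.2, by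
          rw [← hYN]
          exact mem_iUnion.2 ⟨n + 1, hx.1⟩⟩) ((mk_union_le _ _).trans_lt (add_lt_of_lt hτ0
            (Tm'.card h1) ((mk_le_mk_of_subset inter_subset_left).trans_lt (hYc _))))
      exact ⟨t', ⟨h4, subset_union_right.trans h5, h6⟩, subset_union_left.trans h5⟩)
  refine ⟨t, monotone_nat_of_le_succ htt, fun n => (ht n).1, fun n => (ht n).2.2.trans
    inter_subset_left, subset_antisymm (iUnion_subset fun n => (ht n).2.2.trans
      inter_subset_right) fun x hx => ?_⟩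
  obtain ⟨n, hn⟩ := mem_iUnion.1 (hYN.symm ▸ hx)
  obtain ⟨m, hm⟩ := mem_iUnion.1 (hNR hx)
  exact mem_iUnion.2 ⟨max n m, (ht _).2.1 ⟨hY (le_max_left n m) hn, hR (le_max_right n m) hm⟩⟩

include h₀ hK hunb in
/-- Maps which preserve the tiny pieces of a strong submodel of size `τ` are elementary. -/
theorem EMp.of_let (hτ : BasePt K ℓ κf α τ) (hτθ : τ < θ) (hCc : #C = Order.succ θ)
    {E : Set C} (hE : E ∈ Sm K τ C) {f : C → C}
    (hf : ∀ A ⊆ E, #A < τ → ∃ g ∈ autG L C, ∀ a ∈ A, g a = f a) :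
    EMp L τ E f ∧ f '' E ∈ Sm K τ C := by
  obtain ⟨t, htm, htT, -, htE⟩ := Sm.exists_filt hK hτ (Sm.card hE).le (R := fun _ => univ)
    monotone_const (fun x _ => mem_iUnion.2 ⟨0, mem_univ x⟩) fun _ => by
      obtain ⟨D, h1, -, h3⟩ := hE
      exact ⟨D, h1, by rw [h3, univ_inter]⟩
  have h1 := EMp.of_filt h₀ hK hunb hτ hτθ hCc htm htT (htE.symm ▸ hE) (f := f) fun n =>
    hf (t n) (by
      rw [← htE]
      exact subset_iUnion t n) (Tm'.card (htT n))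
  rwa [htE] at h1

include h₀ hK hunb hst hCm hs hCc in
/-- Strong submodels of size `τ` realize the tiny types. -/
theorem Sm.sat (hτ : BasePt K ℓ κf α τ) (hτθ : τ < θ) {E : Set C} (hE : E ∈ Sm K τ C)
    {A B : Set C} (hA : A ⊆ E) (hAc : #A < τ) (hBc : #B < τ) :
    ∃ g ∈ autG L C, (∀ a ∈ A, g a = a) ∧ ∀ b ∈ B, g b ∈ E := by
  obtain ⟨D, hD, hDc, rfl⟩ := hE
  have hτ0 : ℵ₀ ≤ τ := hK.1.trans hτ.pt.lt.le
  let σ : Cardinal.{u} := max ℓ (#A + #B)
  have hσ : ℓ ≤ σ := le_max_left _ _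
  have hστ : σ < τ := max_lt hτ.pt.lt (add_lt_of_lt hτ0 hAc hBc)
  have hσα : σ ≤ α σ := (hst σ hσ).1
  have hAB : #(A ⊕ B) ≤ σ := by
    rw [mk_sum, lift_id, lift_id]
    exact le_max_right _ _
  have hAσ : #A ≤ σ := (self_le_add_right _ _).trans (le_max_right _ _)
  have hBσ : #B ≤ σ := (self_le_add_left _ _).trans (le_max_right _ _)
  have h1 := H804.refl_of_le hK hunb (hσ.trans hσα) hD
    ((hτ.pt.thr _ (hτ.al σ hστ)).le.trans hDc.ge)
  obtain ⟨y', h2, h3⟩ := h1 A B (hAσ.trans hσα) (hBσ.trans hσα) (fun a => a) (fun a => hA a.2)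
    (fun b => b)
  obtain ⟨g, hg, hg'⟩ := exists_mem_autG h₀ hK hunb hst hCm hs hCc hσ (hστ.trans hτθ) hAB
    (Sum.elim (fun a : A => (a : C)) fun b : B => (b : C))
    (Sum.elim (fun a : A => (a : C)) y') h3.symm
  refine ⟨g, hg, fun a ha => hg' (Sum.inl ⟨a, ha⟩), fun b hb => ?_⟩
  have h4 : g b = y' ⟨b, hb⟩ := hg' (Sum.inr ⟨b, hb⟩)
  rw [h4]
  exact h2 _

end

end Vale.Agent.P307.R2.H541
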