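import Vale.Agent.P307.R2.H287.PartC

set_option linter.unusedSectionVars false

universe u v w

open FirstOrder Cardinal Set

namespace Vale.Agent.P307.R2.H287

open Vale.Agent.P307 Vale.Agent.P307.H304 Language.Structure Language.Substructure

/-- The mirror lemma: a strong extension of `EM(D)` has a counterpart over `EM(D')`. -/
theorem mirror {L : Language.{u, u}} {K : AEC L} {Λ : Type u} {ν h : Cardinal.{u}}
    (hν : ℵ₀ ≤ ν) (hL : L.card ≤ ν) (hΛ : #Λ ≤ ν)
    (hh : hanf (2 ^ ((2 : Cardinal.{u}) ^ ν)) ≤ h) (hνh : ν ≤ h)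
    {M : Type u} [L.Structure M] [(exLang L Λ).Structure M] [(exHom L Λ).IsExpansionOn M]
    [Nonempty M] (hclM : Gr.Cl1 K (exHom L Λ) M) {a : ∀ n : ℕ, Fin n → M}
    (ha : IsTemplate (exLang L Λ) a) (ha2 : a 2 0 ≠ a 2 1)
    {D D' D₁ N P Z : Type u} [LinearOrder D] [LinearOrder D'] [LinearOrder D₁]
    [L.Structure N] [(exLang L Λ).Structure N] [(exHom L Λ).IsExpansionOn N]
    [L.Structure P] [(exLang L Λ).Structure P] [(exHom L Λ).IsExpansionOn P]
    [L.Structure Z] [(exLang L Λ).Structure Z] [(exHom L Λ).IsExpansionOn Z]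
    {cN : D → N} {c' : D' → P} {c₁ : D₁ → Z}
    (hcN : IsEM (exLang L Λ) a cN) (htopN : closure (exLang L Λ) (range cN) = ⊤)
    (hc' : IsEM (exLang L Λ) a c') (htop' : closure (exLang L Λ) (range c') = ⊤)
    (hc₁ : IsEM (exLang L Λ) a c₁) (htop₁ : closure (exLang L Λ) (range c₁) = ⊤)
    {ι : D → D'} (hι : StrictMono ι) (hD : Nice h D) (hD₁ : Nice ν D₁)
    (i : N → P) (hi : ∀ t : (exLang L Λ).Term D, i (t.realize cN) = t.realize fun d => c' (ι d))
    (g : N ↪[L] Z) (hg : K.Emb g) (A : Set N) (hA : #A ≤ ν) (B : Set Z) (hB : #B ≤ ν)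
    (hAB : ∀ x ∈ A, g x ∈ B) :
    ∃ (P₂ : Type u) (_ : L.Structure P₂) (k : P ↪[L] P₂) (b' : Z → P₂), K.Emb k ∧
      (∀ x ∈ A, b' (g x) = k (i x)) ∧ Good L ν (gr b' B) := by
  classical
  have h0 : ℵ₀ ≤ h := hν.trans hνh
  obtain ⟨s, hs, hsA⟩ := exists_cover' hν htopN A hA
  obtain ⟨r, hr, hrB⟩ := exists_cover' hν htop₁ B hB
  obtain ⟨j, hj⟩ := exists_cutSeq h0 hD s (hs.trans hνh)
  let T : Set Z := B ∪ ((fun d => g (cN d)) '' s ∪ c₁ '' r)
  have hT : #T ≤ ν := (mk_union_le _ _).trans (add_le_of_le hν hB ((mk_union_le _ _).trans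
    (add_le_of_le hν (mk_image_le.trans hs) (mk_image_le.trans hr))))
  let tc : s → T := fun t => ⟨g (cN t), Or.inr (Or.inl ⟨t, t.2, rfl⟩)⟩
  let tr : r → T := fun q => ⟨c₁ q, Or.inr (Or.inr ⟨q, q.2, rfl⟩)⟩
  let tb : B → T := fun b => ⟨b, Or.inl b.2⟩
  have hcNinj := hcN.injective ha2
  have hc₁inj := hc₁.injective ha2
  let x : SuccTy h → Z := fun ξ => g (cN (j univ ξ))
  have hjuniv : StrictMono (j univ) := (hj univ fun t _ t' ht' => absurd trivial ht').1
  have hxinj : Function.Injective x := g.injective.comp (hcNinj.comp hjuniv.injective)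
  let Gc : Set s → Z → Z := fun c z => if h : ∃ ξ, x ξ = z then g (cN (j c h.choose)) else z
  have hGc : ∀ c ξ, Gc c (x ξ) = g (cN (j c ξ)) := by
    intro c ξ
    have h1 : ∃ ξ', x ξ' = x ξ := ⟨ξ, rfl⟩
    have h2 : Gc c (x ξ) = g (cN (j c h1.choose)) := dif_pos h1
    rw [h2, hxinj h1.choose_spec]
  obtain ⟨dec, hdec⟩ := exists_dec htop₁
  obtain ⟨ξ₀, -⟩ := exists_gt_of_small h0 (∅ : Set (SuccTy h)) (by simp)
  obtain ⟨st, hexp, hst⟩ := exists_str (Λ := Λ) (T := T) (S := s) (D₁ := D₁) g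
    (fun τ : T => τ.1) Gc dec c₁ (x ξ₀)
  have htc : ∀ t : s, (tc t).1 = g (cN t) := fun _ => rfl
  have hAZ := hst.hA
  have h2ν : ν ≤ 2 ^ ν := (cantor ν).le
  have hcard : (L2 L Λ T s).card ≤ 2 ^ ν := card_L2_le (hν.trans h2ν) (hL.trans h2ν)
    (hΛ.trans h2ν) (hT.trans h2ν) (power_le_power_left two_ne_zero hs)
  have hZne : Nonempty Z := ⟨x ξ₀⟩
  obtain ⟨a₂, ha₂, htmpl⟩ := exists_template (L := L2 L Λ T s) (hν.trans h2ν) hcard x (by
    refine hh.trans ?_
    rw [mk_toType, card_ord]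
    exact Order.le_succ h)
  obtain ⟨P', st', v, hv, htopv⟩ := exists_isEM (L := L2 L Λ T s) (M := Z)
    (a := fun n k => x (a₂ n k)) htmpl D'
  let s1 : L.Structure P' := (Language.LHom.sumInl : L →ᴸ L2 L Λ T s).reduct P'
  have he1 : (Language.LHom.sumInl : L →ᴸ L2 L Λ T s).IsExpansionOn P' :=
    Language.LHom.isExpansionOn_reduct _ _
  let s2 : (exLang L Λ).Structure P' := (homA : exLang L Λ →ᴸ L2 L Λ T s).reduct P'
  have he2 : (homA : exLang L Λ →ᴸ L2 L Λ T s).IsExpansionOn P' :=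
    Language.LHom.isExpansionOn_reduct _ _
  have he3 : (exHom L Λ).IsExpansionOn P' := ⟨fun _ _ => rfl, fun _ _ => rfl⟩
  have hclN : Gr.Cl1 K (exHom L Λ) N := (hclM.transfer fun A => by
    obtain ⟨ρ⟩ := Gr.isEM_local hcN htopN A
    exact ⟨ρ, ρ.injective⟩).2
  have hclZ : Gr.Cl1 K (exHom L Λ) Z := (hclM.transfer fun A => by
    obtain ⟨ρ⟩ := Gr.isEM_local hc₁ htop₁ A
    exact ⟨ρ, ρ.injective⟩).2
  have hclZ2 : Gr.Cl1 K (Language.LHom.sumInl : L →ᴸ L2 L Λ T s) Z := fun S =>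
    hclZ ((homA : exLang L Λ →ᴸ L2 L Λ T s).substructureReduct S)
  have hclP2 : Gr.Cl1 K (Language.LHom.sumInl : L →ᴸ L2 L Λ T s) P' :=
    (hclZ2.transfer fun A => by
      obtain ⟨ρ⟩ := Gr.isEM_local hv htopv A
      exact ⟨ρ, ρ.injective⟩).2
  obtain ⟨lo, hlo, hG, hGtop⟩ := partA (P := P') hc₁ hc₁inj hst he2
    (exists_local hv htopv) hdec
  obtain ⟨k₁, hk₁⟩ := exists_emb_k (P := P) (P' := P') hst htc hGc hι hj ha₂ hcN hc' htop' hv
  have hk₁e : K.Emb k₁ := emb_k hst htc hGc hι hj ha₂ hcN hc' htop' hv hclN hclZ2 hclP2 hg k₁ hk₁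
  obtain ⟨I, hI, σ, hI1, hσ⟩ := exists_nice_ext ν hν (Gp L Λ T s P')
  obtain ⟨P₂, st₂, c₂, hc₂, htop₂⟩ := exists_isEM ha I
  let s3 : L.Structure P₂ := (exHom L Λ).reduct P₂
  have he4 : (exHom L Λ).IsExpansionOn P₂ := Language.LHom.isExpansionOn_reduct _ _
  obtain ⟨k₂, hk₂⟩ := exists_em_map hG hc₂ hGtop σ hσ
  have hk₂e : K.Emb (Gr.embReduct (exHom L Λ) k₂) :=
    emb_em_map (exHom L Λ) hclM hc₂ hGtop htop₂ σ k₂ hk₂
  have hκ : AtEq (L2 L Λ T s) (kap L Λ (S := s) P') (fun τ : T => τ.1) :=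
    atEq_kap hst _ _ (hv 0 (fun k : Fin 0 => k.elim0) fun k => k.elim0)
  obtain ⟨i₀, -⟩ := hI1 ∅ ∅ (by simp) (by simp) (by simp)
  let b' : Z → P₂ := fun z => if hz : z ∈ B then k₂ (kap L Λ (S := s) P' (tb ⟨z, hz⟩)) else c₂ i₀
  have hb' : ∀ b : B, b' b.1 = k₂ (kap L Λ (S := s) P' (tb b)) := fun b => dif_pos b.2
  refine ⟨P₂, s3, (Gr.embReduct (exHom L Λ) k₂).comp k₁, b', AEC.Emb.comp hk₂e hk₁e, ?_, ?_⟩
  · intro y hy
    rw [hb' ⟨g y, hAB y hy⟩]
    change k₂ _ = k₂ (k₁ (i y))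
    congr 1
    obtain ⟨t, rfl⟩ := hsA y hy
    have h1 : i (t.realize fun q : s => cN q) = t.realize fun q : s => c' (ι q) := by
      have h2 := hi (t.relabel Subtype.val)
      rw [Language.Term.realize_relabel, Language.Term.realize_relabel] at h2
      exact h2
    rw [h1, hk₁ s t fun q => ι q, realize_tmB]
    have h3 : (fun q : s => (tm L Λ ι s tc (ι q)).realize (M := P') fun _ => v (ι q)) =
        fun q => kap L Λ (S := s) P' (tc q) := by
      funext q
      exact yv_eq_kap hι tc v q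
    obtain ⟨f, hf⟩ := hst.hB
    have h4 := ((AtEq.dn (homB : exLang L Λ →ᴸ L2 L Λ T s) hκ).1
      (Language.Term.var (tb ⟨g (t.realize fun q : s => cN q), hAB _ hy⟩))
      (t.relabel tc)).2 (by
        refine Eq.trans ?_ (Language.Term.realize_relabel (M := Dn (homB : exLang L Λ →ᴸ L2 L Λ T s) Z)
          (t := t) (g := tc) (v := fun τ : T => τ.1)).symm
        change g (t.realize fun q : s => cN q) = _
        rw [← hf]
        refine (Language.HomClass.realize_term (g := f)).symm.trans ?_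
        congr 1
        funext q
        exact hf _)
    refine h4.trans ((Language.Term.realize_relabel
      (M := Dn (homB : exLang L Λ →ᴸ L2 L Λ T s) P') (t := t) (g := tc)
      (v := kap L Λ (S := s) P')).trans ?_)
    exact (congrArg (fun b => t.realize (M := Dn (homB : exLang L Λ →ᴸ L2 L Λ T s) P') b)
      h3).symm
  · choose tB htB using fun b : B => hrB b.1 b.2
    have hκA : AtEq (exLang L Λ) (kap L Λ (S := s) P') (fun τ : T => τ.1) :=
      AtEq.red (homA : exLang L Λ →ᴸ L2 L Λ T s) hκ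
    have h1 : ∀ b : B, kap L Λ (S := s) P' (tb b) =
        (tB b).realize fun q : r => kap L Λ (S := s) P' (tr q) := by
      intro b
      have h2 := (hκA.1 (Language.Term.var (tb b)) ((tB b).relabel tr)).2 (by
        rw [Language.Term.realize_relabel]
        exact (htB b).symm)
      rw [Language.Term.realize_relabel] at h2
      exact h2
    have h2 : ∀ q : r, RelMap (L := L2 L Λ T s) rSk ![kap L Λ (S := s) P' (tr q)] := by
      intro q
      have h3 := AtEq.rel hκ (rSk : (L2 L Λ T s).Relations 1) ![tr q]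
      have h4 : (fun k => kap L Λ (S := s) P' ((![tr q] : Fin 1 → T) k)) =
          ![kap L Λ (S := s) P' (tr q)] := by
        funext k
        fin_cases k
        rfl
      rw [h4] at h3
      exact h3.2 ((hst.hSk _).2 ⟨q, rfl⟩)
    let γ : r → Gp L Λ T s P' := fun q => ⟨_, h2 q⟩
    have hγ : ∀ q q' : r, γ q < γ q' ↔ q.1 < q'.1 := by
      intro q q'
      have h3 := AtEq.rel hκ (rLt : (L2 L Λ T s).Relations 2) ![tr q, tr q']
      have h4 : (fun k => kap L Λ (S := s) P' ((![tr q, tr q'] : Fin 2 → T) k)) =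
          ![(γ q).1, (γ q').1] := by
        funext k
        fin_cases k <;> rfl
      rw [h4] at h3
      refine (hlo _ _).trans (h3.trans ((hst.hLt _).trans ?_))
      constructor
      · rintro ⟨t, t', h5, h6, h7⟩
        have h8 : t = q.1 := hc₁inj h6
        have h9 : t' = q'.1 := hc₁inj h7
        rw [← h8, ← h9]
        exact h5
      · intro h5
        exact ⟨_, _, h5, rfl, rfl⟩
    have hLc : (exLang L Λ).card ≤ ν := card_exLang_le hν hL hΛ
    have h3 : EqS (exLang L Λ) ν (fun b => (tB b).realize fun q : r => c₁ q.1)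
        (fun b => (tB b).realize fun q : r => c₂ (σ (γ q))) := by
      refine eqS_of_pattern hν hLc hc₁ hc₂ htop₁ htop₂ hD₁ hI1 hr (fun q : r => q.1)
        (fun q => σ (γ q)) (fun q q' => ?_) tB
      rw [← not_lt, ← hγ, hσ.le_iff_le, not_lt]
    have h4 : gr b' B = Set.range fun b : B => ((tB b).realize (fun q : r => c₁ q.1),
        (tB b).realize fun q : r => c₂ (σ (γ q))) := by
      have h5 : ∀ b : B, (b.1, b' b.1) = ((tB b).realize (fun q : r => c₁ q.1),
          (tB b).realize fun q : r => c₂ (σ (γ q))) := by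
        intro b
        refine Prod.ext (htB b).symm ?_
        change b' b.1 = _
        rw [hb' b, h1 b]
        have h6 := hk₂ ((tB b).relabel γ)
        rw [Language.Term.realize_relabel, Language.Term.realize_relabel] at h6
        exact h6
      ext p
      constructor
      · rintro ⟨b, hb, rfl⟩
        exact ⟨⟨b, hb⟩, (h5 ⟨b, hb⟩).symm⟩
      · rintro ⟨b, rfl⟩
        exact ⟨b.1, b.2, h5 b⟩
    rw [h4]
    exact Good.reduct (exHom L Λ) h3

end Vale.Agent.P307.R2.H287
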