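import Vale.Agent.P307.R2.H287.Stretch

set_option linter.unusedSectionVars false

universe u v w

open FirstOrder Cardinal Set

namespace Vale.Agent.P307.R2.H287

open Vale.Agent.P307 Vale.Agent.P307.H304 Language.Structure Language.Substructure

theorem IsEM.eq_of_forall {L : Language.{u, u}} {M N X I : Type u} [L.Structure M]
    [L.Structure N] [LinearOrder I] [Nonempty X] (x : X → M) (a₂ : ∀ n : ℕ, Fin n → X) {c : I → N}
    (hc : IsEM L (fun n k => x (a₂ n k)) c) (S S' : L.Term I)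
    (H : ∀ h : I → X, S.realize (fun i => x (h i)) = S'.realize fun i => x (h i)) :
    S.realize c = S'.realize c := by
  classical
  let w : Finset I := S.varFinset ∪ S'.varFinset
  let idx : w → Fin w.card := fun d => (w.orderIsoOfFin rfl).symm d
  let h : I → X := fun i => if hi : i ∈ w then a₂ w.card (idx ⟨i, hi⟩) else Classical.arbitrary X
  have hh : ∀ d : w, h d.1 = a₂ w.card (idx d) := fun d => dif_pos d.2
  let f : S.varFinset → w := fun a => ⟨a.1, Finset.mem_union_left _ a.2⟩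
  let f' : S'.varFinset → w := fun a => ⟨a.1, Finset.mem_union_right _ a.2⟩
  have h1 := IsEM.finset hc w
  have e1 : (S.restrictVar f).realize (fun d : w => c d.1) = S.realize c :=
    Language.Term.realize_restrictVar (v := fun d : w => c d.1) c fun _ => rfl
  have e2 : (S'.restrictVar f').realize (fun d : w => c d.1) = S'.realize c :=
    Language.Term.realize_restrictVar (v := fun d : w => c d.1) c fun _ => rfl
  have e3 : (S.restrictVar f).realize (fun d : w => x (a₂ w.card (idx d))) =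
      S.realize fun i => x (h i) :=
    Language.Term.realize_restrictVar (v := fun d : w => x (a₂ w.card (idx d)))
      (fun i => x (h i)) fun a => congrArg x (hh (f a)).symm
  have e4 : (S'.restrictVar f').realize (fun d : w => x (a₂ w.card (idx d))) =
      S'.realize fun i => x (h i) :=
    Language.Term.realize_restrictVar (v := fun d : w => x (a₂ w.card (idx d)))
      (fun i => x (h i)) fun a => congrArg x (hh (f' a)).symm
  rw [← e1, ← e2]
  refine (h1.1 _ _).2 ?_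
  refine e3.trans (Eq.trans ?_ e4.symm)
  exact H h

variable {L : Language.{u, u}} {K : AEC L} {ℓ θ ν μ : Cardinal.{u}}

open Classical in
/-- The functions of the expansion. -/
noncomputable def fnM {Λ N Z Idx Γ X D : Type u} [L.Structure N] [L.Structure Z]
    [(exLang L Λ).Structure N] (g : Idx → N ↪[L] Z) (cN : D → N) (p : Γ → X → D) (x : X → Z)
    (z₀ : Z) (n : ℕ) : (Idx × Λ) ⊕ (Idx × Γ) → (Fin n → Z) → Z
  | Sum.inl il, v => if h : ∀ k, ∃ m, g il.1 m = v k then
      g il.1 (funMap (L := exLang L Λ) (Sum.inr il.2) fun k => (h k).choose) else z₀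
  | Sum.inr iγ, v => if h : ∃ (h₀ : 0 < n) (ξ : X), x ξ = v ⟨0, h₀⟩ then
      g iγ.1 (cN (p iγ.2 h.choose_spec.choose)) else z₀

theorem multi_aux {t : Tpl K ν} {t₃ : Tpl K μ} {Idx Γ X D D' : Type u} [LinearOrder D]
    [LinearOrder D'] [LinearOrder X] [Nonempty X] (m : Idx → t.Λ → t₃.Λ) (sG : Idx → Γ → t₃.Λ)
    (N : EM t D) (P : EM t D') (E₂ : EM t₃ D') (γ : D' → Γ) (p : Γ → X → D)
    (hp : ∀ d d' ξ ξ', d < d' → ξ < ξ' → p (γ d) ξ < p (γ d') ξ')
    (g : Idx → N.N ↪[L] t₃.M) (hg : ∀ i, K.Emb (g i)) (x : X → t₃.M) (a₂ : ∀ n : ℕ, Fin n → X)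
    (ha₂ : ∀ n, StrictMono (a₂ n)) (ha : ∀ n, t₃.a n = fun k => x (a₂ n k))
    (hm : ∀ (i : Idx) (n : ℕ) (l : t.Λ) (v : Fin n → N.N),
      funMap (L := exLang L t₃.Λ) (Sum.inr (m i l)) (fun k => g i (v k)) =
        g i (funMap (L := exLang L t.Λ) (Sum.inr l) v))
    (hG : ∀ (i : Idx) (c : Γ) (ξ : X), funMap (L := exLang L t₃.Λ) (Sum.inr (sG i c))
      (fun _ : Fin 1 => x ξ) = g i (N.c (p c ξ))) :
    ∃ k : Idx → P.N ↪[L] E₂.N, (∀ i, K.Emb (k i)) ∧
      ∀ (i i' : Idx) (Q Q' : Type u) (s : (exLang L t.Λ).Term Q) (s' : (exLang L t.Λ).Term Q')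
        (d : Q → D') (d' : Q' → D'),
        (∀ h : D' → X, g i (s.realize fun q => N.c (p (γ (d q)) (h (d q)))) =
          g i' (s'.realize fun q => N.c (p (γ (d' q)) (h (d' q))))) →
        k i (s.realize fun q => P.c (d q)) = k i' (s'.realize fun q => P.c (d' q)) := by
  classical
  have hexp1 : ∀ {n : ℕ} (f : L.Functions n) (v : Fin n → t₃.M),
      funMap (L := exLang L t₃.Λ) (Sum.inl f) v = funMap f v := fun f v =>
    (exHom L t₃.Λ).map_onFunction f v
  have hexp2 : ∀ {n : ℕ} (f : L.Relations n) (v : Fin n → t₃.M),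
      RelMap (L := exLang L t₃.Λ) (Sum.inl f) v = RelMap f v := fun f v =>
    (exHom L t₃.Λ).map_onRelation f v
  have hexp3 : ∀ {n : ℕ} (f : L.Functions n) (v : Fin n → N.N),
      funMap (L := exLang L t.Λ) (Sum.inl f) v = funMap f v := fun f v =>
    (exHom L t.Λ).map_onFunction f v
  have hexp4 : ∀ {n : ℕ} (f : L.Relations n) (v : Fin n → N.N),
      RelMap (L := exLang L t.Λ) (Sum.inl f) v = RelMap f v := fun f v =>
    (exHom L t.Λ).map_onRelation f v
  have hf : ∀ i, ∃ f : N.N ↪[exLang L t.Λ] Dn (exMap L (m i)) t₃.M, ∀ y, f y = g i y := by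
    intro i
    refine ⟨⟨⟨g i, (g i).injective⟩, ?_, ?_⟩, fun _ => rfl⟩
    · rintro n (f | l) v
      · change g i (funMap (L := exLang L t.Λ) (Sum.inl f) v) =
          funMap (L := exLang L t₃.Λ) (M := t₃.M) (Sum.inl f) (fun k => g i (v k))
        rw [hexp3, hexp1]
        exact (g i).map_fun f v
      · exact (hm i n l v).symm
    · rintro n (r | l) v
      · change RelMap (L := exLang L t₃.Λ) (M := t₃.M) (Sum.inl r) (fun k => g i (v k)) ↔
          RelMap (L := exLang L t.Λ) (Sum.inl r) v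
        rw [hexp4, hexp2]
        exact (g i).map_rel r v
      · exact l.elim
  choose f hf using hf
  let sy : Idx → D' → (exLang L t₃.Λ).Functions 1 := fun i d =>
    (Sum.inr (sG i (γ d)) : L.Functions 1 ⊕ t₃.Λ)
  let tm : Idx → D' → (exLang L t₃.Λ).Term (Fin 1) := fun i d =>
    Language.Term.func (sy i d) fun _ => Language.Term.var 0
  have htm : ∀ i d ξ, (tm i d).realize (M := t₃.M) (fun _ => x ξ) = g i (N.c (p (γ d) ξ)) :=
    fun i d ξ => hG i (γ d) ξ
  have hk : ∀ i, ∃ k : P.N ↪[L] E₂.N, K.Emb k ∧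
      ∀ (Q : Type u) (s : (exLang L t.Λ).Term Q) (d : Q → D'),
        k (s.realize fun q => P.c (d q)) = (tmX (m i) (tm i) d s).realize fun q => E₂.c (d q) := by
    intro i
    obtain ⟨k, hk⟩ := exists_k (m i) N P E₂ (g i) (f i) (hf i) x a₂ ha₂ ha (tm i)
      (fun d ξ => p (γ d) ξ) (htm i) (fun d d' ξ ξ' h1 h2 => hp d d' ξ ξ' h1 h2)
    exact ⟨k, emb_kmap (m i) N P E₂ (g i) (f i) (hf i) x a₂ ha₂ ha (tm i)
      (fun d ξ => p (γ d) ξ) (htm i) (fun d d' ξ ξ' h1 h2 => hp d d' ξ ξ' h1 h2) (hg i) k hk, hk⟩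
  choose k hke hk using hk
  refine ⟨k, hke, fun i i' Q Q' s s' d d' H => ?_⟩
  rw [hk, hk]
  have key : ∀ (i : Idx) (Q : Type u) (s : (exLang L t.Λ).Term Q) (d : Q → D') (h : D' → X),
      ((tmX (m i) (tm i) d s).relabel d).realize (M := t₃.M) (fun d => x (h d)) =
        g i (s.realize fun q => N.c (p (γ (d q)) (h (d q)))) := by
    intro i Q s d h
    rw [Language.Term.realize_relabel, realize_tmX, ← hf]
    have h5 : (fun q : Q => (tm i (d q)).realize (M := t₃.M)
        fun _ => ((fun d => x (h d)) ∘ d) q) =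
        fun q => f i (N.c (p (γ (d q)) (h (d q)))) := by
      funext q
      rw [hf]
      exact htm i (d q) (h (d q))
    exact (congrArg (fun b => s.realize (M := Dn (exMap L (m i)) t₃.M) b)
      h5).trans (Language.HomClass.realize_term (g := f i))
  have hem : IsEM (exLang L t₃.Λ) (fun n k => x (a₂ n k)) E₂.c := by
    have h1 := E₂.isEM
    have h2 : t₃.a = fun n k => x (a₂ n k) := funext ha
    rw [h2] at h1
    exact h1
  have h1 := IsEM.eq_of_forall (M := t₃.M) x a₂ hem ((tmX (m i) (tm i) d s).relabel d)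
    ((tmX (m i') (tm i') d' s').relabel d') fun h => by
      rw [key, key]
      exact H h
  rw [Language.Term.realize_relabel, Language.Term.realize_relabel] at h1
  exact h1

/-- Several embeddings are stretched together. -/
theorem multi {t : Tpl K ν} (hK : K.IsLS ℓ) (hℓμ : ℓ ≤ μ) (hνμ : ν ≤ μ) {Z : Type u}
    [L.Structure Z] (hZ : K.mem Z) {Idx Γ X D D' : Type u} [LinearOrder D] [LinearOrder D']
    [LinearOrder X] [WellFoundedLT X] (hIdx : #Idx ≤ μ) (hΓ : #Γ ≤ μ) (hX : hanf (2 ^ μ) ≤ #X)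
    (hX2 : (2 : Cardinal.{u}) ≤ #X)
    (N : EM t D) (P : EM t D') (γ : D' → Γ) (p : Γ → X → D)
    (hp : ∀ d d' ξ ξ', d < d' → ξ < ξ' → p (γ d) ξ < p (γ d') ξ')
    (g : Idx → N.N ↪[L] Z) (hg : ∀ i, K.Emb (g i)) (x : X → Z) (hx : Function.Injective x) :
    ∃ (P₂ : Type u) (_ : L.Structure P₂) (k : Idx → P.N ↪[L] P₂), (∀ i, K.Emb (k i)) ∧
      ∀ (i i' : Idx) (Q Q' : Type u) (s : (exLang L t.Λ).Term Q) (s' : (exLang L t.Λ).Term Q')
        (d : Q → D') (d' : Q' → D'),
        (∀ h : D' → X, g i (s.realize fun q => N.c (p (γ (d q)) (h (d q)))) =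
          g i' (s'.realize fun q => N.c (p (γ (d' q)) (h (d' q))))) →
        k i (s.realize fun q => P.c (d q)) = k i' (s'.realize fun q => P.c (d' q)) := by
  classical
  have hXne : Nonempty X := by
    rw [← mk_ne_zero_iff]
    exact (two_pos.trans_le hX2).ne'
  have hZne : Nonempty Z := ⟨x (Classical.arbitrary X)⟩
  have hμ0 : ℵ₀ ≤ μ := t.hν.trans hνμ
  obtain ⟨Λ₀, sZ, eZ, hΛ₀, hfx, hcl⟩ := exists_expand hK hZ
    (Ξ := (Idx × t.Λ) ⊕ (Idx × Γ)) (fnM (L := L) (Λ := t.Λ) g N.c p x (x (Classical.arbitrary X)))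
  have hΛ : #(Λ₀ ⊕ ((Idx × t.Λ) ⊕ (Idx × Γ))) ≤ μ := by
    simp only [mk_sum, mk_prod, lift_id]
    exact add_le_of_le hμ0 (hΛ₀.trans hℓμ) (add_le_of_le hμ0
      (mul_le_of_le hμ0 hIdx (t.hΛ.trans hνμ)) (mul_le_of_le hμ0 hIdx hΓ))
  have hLc : L.card ≤ μ := t.hL.trans hνμ
  obtain ⟨a₂, ha₂, htmpl⟩ := exists_template (L := exLang L (Λ₀ ⊕ ((Idx × t.Λ) ⊕ (Idx × Γ)))) hμ0
    (card_exLang_le hμ0 hLc hΛ) x hX
  let t₃ : Tpl K μ :=
    { Λ := Λ₀ ⊕ ((Idx × t.Λ) ⊕ (Idx × Γ)), M := Z, a := fun n k => x (a₂ n k), ne := hZne,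
      cl := hcl, ha := htmpl,
      ha2 := fun h => absurd (hx h) (ha₂ 2 (show (0 : Fin 2) < 1 by decide)).ne
      hL := hLc, hΛ := hΛ, hν := hμ0 }
  obtain ⟨E₂⟩ := exists_em t₃ D'
  obtain ⟨k, hk1, hk2⟩ := multi_aux (t := t) (t₃ := t₃) (fun i l => Sum.inr (Sum.inl (i, l)))
    (fun i c => Sum.inr (Sum.inr (i, c))) N P E₂ γ p hp g hg x a₂ ha₂ (fun _ => rfl) (by
      intro i n l v
      have h : ∀ k, ∃ m, g i m = g i (v k) := fun k => ⟨v k, rfl⟩
      have h2 : fnM (L := L) (Λ := t.Λ) g N.c p x (x (Classical.arbitrary X)) n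
          (Sum.inl (i, l)) (fun k => g i (v k)) =
          g i (funMap (L := exLang L t.Λ) (Sum.inr l) fun k => (h k).choose) := dif_pos h
      refine (hfx n _ _).trans (h2.trans ?_)
      congr 2
      funext k
      exact (g i).injective (h k).choose_spec) (by
      intro i c ξ
      have h : ∃ (h₀ : 0 < 1) (ξ' : X), x ξ' = x ξ := ⟨Nat.one_pos, ξ, rfl⟩
      have h2 : fnM (L := L) (Λ := t.Λ) g N.c p x (x (Classical.arbitrary X)) 1
          (Sum.inr (i, c)) (fun _ => x ξ) = g i (N.c (p c h.choose_spec.choose)) := dif_pos h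
      refine (hfx 1 _ _).trans (h2.trans ?_)
      rw [hx h.choose_spec.choose_spec])
  exact ⟨E₂.N, inferInstance, k, hk1, hk2⟩

end Vale.Agent.P307.R2.H287
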