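import Vale.Agent.P307.R2.H287.OpB

set_option linter.unusedSectionVars false

universe u v w

open FirstOrder Cardinal Set

namespace Vale.Agent.P307.R2.H287

open Vale.Agent.P307 Vale.Agent.P307.H304 Language.Structure Language.Substructure

variable {L : Language.{u, u}} {K : AEC L} {ℓ ν τ : Cardinal.{u}}
  {κf : Cardinal.{u} → Cardinal.{u}}

/-- The indiscernible copy of the sequences. -/
theorem op_copy (hK : K.IsLS ℓ) (hunb : ∀ ν, ν < κf ν ∧ K.CategoricalIn (κf ν)) (hℓν : ℓ ≤ ν)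
    {t₃ : Tpl K τ} {X : Type u} [LinearOrder X] {C₀ ι ι' : Type u}
    (hι : #ι ≤ ν) (hι' : #ι' ≤ ν) (hC₀ : #C₀ = thr κf ν) (sC : C₀ → t₃.Λ) (sx : ι → t₃.Λ)
    (sy : ι' → t₃.Λ) (cst : C₀ → t₃.M) (hcst : Function.Injective cst) (ξ : X → t₃.M)
    (x : X → ι → t₃.M) (y : X → ι' → t₃.M)
    (hC : ∀ (c : C₀) (v : Fin 0 → t₃.M), funMap (L := exLang L t₃.Λ) (Sum.inr (sC c)) v = cst c)
    (hx : ∀ (k : ι) (i : X), funMap (L := exLang L t₃.Λ) (Sum.inr (sx k)) (fun _ : Fin 1 => ξ i) =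
      x i k)
    (hy : ∀ (k : ι') (i : X), funMap (L := exLang L t₃.Λ) (Sum.inr (sy k)) (fun _ : Fin 1 => ξ i) =
      y i k)
    (a₂ : ∀ n : ℕ, Fin n → X) (ha₂ : ∀ n, StrictMono (a₂ n))
    (ha : ∀ n, t₃.a n = fun k => ξ (a₂ n k)) {R₀ : Type u} [L.Structure R₀] (r : ι ⊕ ι' → R₀)
    (h : ∀ i j, EqS L ν (Sum.elim (x i) (y j)) r ↔ i < j) {I : Type u} [LinearOrder I]
    (E : EM t₃ I) : ∃ (bx : I → ι → E.N) (by' : I → ι' → E.N),
      ∀ i j, EqS L ν (Sum.elim (bx i) (by' j)) r ↔ i < j := by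
  classical
  have hν0 : ℵ₀ ≤ ν := hK.1.trans hℓν
  let fs : t₃.Λ → (exLang L t₃.Λ).Functions 1 := fun l => (Sum.inr l : L.Functions 1 ⊕ t₃.Λ)
  let fc : C₀ → (exLang L t₃.Λ).Functions 0 := fun c => (Sum.inr (sC c) : L.Functions 0 ⊕ t₃.Λ)
  refine ⟨fun i k => funMap (L := exLang L t₃.Λ) (fs (sx k)) (fun _ : Fin 1 => E.c i),
    fun i k => funMap (L := exLang L t₃.Λ) (fs (sy k)) (fun _ : Fin 1 => E.c i), ?_⟩
  intro i j
  let w : Finset I := {i, j}
  let wi : w := ⟨i, by simp [w]⟩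
  let wj : w := ⟨j, by simp [w]⟩
  let idx : w → Fin w.card := fun d => (w.orderIsoOfFin rfl).symm d
  have hidx : StrictMono idx := (w.orderIsoOfFin rfl).symm.strictMono
  let ξ' : w → X := fun d => a₂ w.card (idx d)
  have hξ' : StrictMono ξ' := (ha₂ _).comp hidx
  have h1 : AtEq (exLang L t₃.Λ) (fun d : w => E.c d.1) (fun d : w => ξ (ξ' d)) := by
    have h2 := IsEM.finset E.isEM w
    rw [ha] at h2
    exact h2
  obtain ⟨ρ, hρ⟩ := AtEq.exists_sub_embedding h1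
  let S := closure (exLang L t₃.Λ) (range fun d : w => E.c d.1)
  let S' := (exHom L t₃.Λ).substructureReduct S
  have hS' : K.le S' := E.cl S
  let ρ' : S' ↪[L] t₃.M := Gr.subEmb (exHom L t₃.Λ) S ρ
  have hρ' : K.Emb ρ' := t₃.cl.emb S ρ
  have hmem : ∀ s : (exLang L t₃.Λ).Term w, s.realize (fun d : w => E.c d.1) ∈ S := fun s =>
    Gr.mem_closure_range.2 ⟨s, rfl⟩
  have hSc : thr κf ν ≤ #S' := by
    rw [← hC₀]
    refine mk_le_of_injective (f := fun c : C₀ => (⟨_, hmem (Language.Term.func (fc c)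
      ![])⟩ : S')) fun c c' hcc' => hcst ?_
    have h2 := congrArg ρ' hcc'
    have h3 : ∀ c : C₀, ρ' ⟨_, hmem (Language.Term.func (fc c) ![])⟩ = cst c := by
      intro c
      refine (hρ (Language.Term.func (fc c) ![]) (hmem _)).trans ?_
      exact hC c _
    exact (h3 c).symm.trans (h2.trans (h3 c'))
  let tz : ι ⊕ ι' → (exLang L t₃.Λ).Term w := Sum.elim
    (fun k => Language.Term.func (fs (sx k)) fun _ => Language.Term.var wi)
    (fun k => Language.Term.func (fs (sy k)) fun _ => Language.Term.var wj)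
  let z : ι ⊕ ι' → S' := fun k => ⟨_, hmem (tz k)⟩
  have hz : #(ι ⊕ ι') ≤ ν := by
    simp only [mk_sum, lift_id]
    exact add_le_of_le hν0 hι hι'
  have h2 := eqS_of_gr S'.subtype z (good_gr_thr hK hunb hℓν S'.subtype (AEC.emb_subtype.2 hS')
    hSc _ (mk_range_le.trans hz))
  have h3 := eqS_of_gr ρ' z (good_gr_thr hK hunb hℓν ρ' hρ' hSc _ (mk_range_le.trans hz))
  have e1 : (fun k => S'.subtype (z k)) =
      Sum.elim (fun k => funMap (L := exLang L t₃.Λ) (fs (sx k)) (fun _ : Fin 1 => E.c i))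
        (fun k => funMap (L := exLang L t₃.Λ) (fs (sy k)) (fun _ : Fin 1 => E.c j)) := by
    funext k
    rcases k with k | k
    · rfl
    · rfl
  have e2 : (fun k => ρ' (z k)) = Sum.elim (x (ξ' wi)) (y (ξ' wj)) := by
    funext k
    refine (hρ (tz k) (hmem _)).trans ?_
    rcases k with k | k
    · exact hx k (ξ' wi)
    · exact hy k (ξ' wj)
  rw [e1] at h2
  rw [e2] at h3
  have h4 : ξ' wi < ξ' wj ↔ i < j := hξ'.lt_iff_lt
  rw [← h4, ← h]
  exact ⟨fun h5 => (h3.symm.trans h2).trans h5, fun h5 => (h2.symm.trans h3).trans h5⟩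

theorem op_false (hK : K.IsLS ℓ) (hunb : ∀ ν, ν < κf ν ∧ K.CategoricalIn (κf ν)) (hℓν : ℓ ≤ ν)
    {t₃ : Tpl K τ} (hτ : thr κf ν ≤ τ) {ι ι' : Type u} (hι : #ι ≤ ν) (hι' : #ι' ≤ ν)
    {R₀ : Type u} [L.Structure R₀] (r : ι ⊕ ι' → R₀)
    (H : ∀ (I : Type u) [LinearOrder I] (E : EM t₃ I),
      ∃ (bx : I → ι → E.N) (by' : I → ι' → E.N),
      ∀ i j, EqS L ν (Sum.elim (bx i) (by' j)) r ↔ i < j) : False := by
  classical
  have hν0 : ℵ₀ ≤ ν := hK.1.trans hℓν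
  have hντ : ν ≤ τ := (lt_thr hunb ν).le.trans hτ
  have hτ0 : ℵ₀ ≤ τ := t₃.hν
  have hχ0 : ℵ₀ ≤ (2 : Cardinal.{u}) ^ τ := hτ0.trans (cantor τ).le
  obtain ⟨G, oG, D, hD, hG, hDG⟩ := exists_dense τ hτ0
  obtain ⟨hκ1, hκ2⟩ := hunb (max #G τ)
  let κ := κf (max #G τ)
  have hGκ : #G ≤ κ := (le_max_left _ _).trans hκ1.le
  have hτκ : τ ≤ κ := (le_max_right _ _).trans hκ1.le
  have hκ0 : ℵ₀ ≤ κ := hτ0.trans hτκ
  let I : Type u := G ⊕ₗ κ.ord.ToType
  have hI : #I = κ := by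
    change #(G ⊕ κ.ord.ToType) = κ
    rw [mk_sum, lift_id, lift_id, mk_ord_toType]
    exact add_eq_right hκ0 hGκ
  obtain ⟨E⟩ := exists_em t₃ I
  obtain ⟨E'⟩ := exists_em t₃ κ.ord.ToType
  obtain ⟨e⟩ := hκ2.2 E.N E'.N E.mem E'.mem (E.card_eq hτκ hI) (E'.card_eq hτκ (mk_ord_toType κ))
  have hE'c : thr κf ν ≤ #E'.N := (hτ.trans hτκ).trans (E'.card_eq hτκ (mk_ord_toType κ)).ge
  obtain ⟨bx, by', hb⟩ := H I E
  let u : G → ι → E'.N := fun f k => e (bx (toLex (Sum.inl f)) k)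
  let v : G → ι' → E'.N := fun f k => e (by' (toLex (Sum.inl f)) k)
  have huv : ∀ f g, EqS L ν (Sum.elim (u f) (v g)) r ↔ f < g := by
    intro f g
    have hz : #(ι ⊕ ι') ≤ ν := by
      simp only [mk_sum, lift_id]
      exact add_le_of_le hν0 hι hι'
    have h1 := eqS_of_gr e (Sum.elim (bx (toLex (Sum.inl f))) (by' (toLex (Sum.inl g))))
      (good_gr_equiv hν0 e (mk_range_le.trans hz))
    have h2 : (fun k => e (Sum.elim (bx (toLex (Sum.inl f))) (by' (toLex (Sum.inl g))) k)) =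
        Sum.elim (u f) (v g) := by
      funext k
      rcases k with k | k <;> rfl
    rw [h2] at h1
    have h3 := hb (toLex (Sum.inl f)) (toLex (Sum.inl g))
    rw [Sum.Lex.inl_lt_inl_iff] at h3
    rw [← h3]
    exact ⟨fun h4 => h1.trans h4, fun h4 => h1.symm.trans h4⟩
  have hne : Nonempty κ.ord.ToType := by
    rw [← mk_ne_zero_iff, mk_ord_toType]
    exact (aleph0_pos.trans_le hκ0).ne'
  obtain ⟨V, hV, hVy⟩ := exists_cover' hχ0 E'.top (⋃ d : D, range (v d.1)) (by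
    refine mk_iUnion_le_of_le hχ0 hD _ fun d => ?_
    exact (mk_range_le.trans hι').trans (hντ.trans (cantor τ).le))
  choose s' hs' using fun (d : D) (k : ι') => hVy (v d.1 k) (mem_iUnion.2 ⟨d, ⟨k, rfl⟩⟩)
  obtain ⟨C, cc, hC, hcc⟩ := exists_cut_code hχ0 V hV
  obtain ⟨Q, hQ⟩ : ∃ Q : Type u, #Q = τ := ⟨τ.out, mk_out τ⟩
  choose s w hsw using fun f : G => E'.exists_terms hτ0 (hι.trans hντ) hQ (u f)
  let code : G → ((ι → (exLang L t₃.Λ).Term Q) × Set (Q × Q)) × (Q → C) := fun f =>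
    ((s f, pat (w f)), fun q => cc (w f q))
  have hcode : #(((ι → (exLang L t₃.Λ).Term Q) × Set (Q × Q)) × (Q → C)) ≤ 2 ^ τ := by
    rw [mk_prod, lift_id, lift_id]
    refine mul_le_of_le hχ0 (mk_codes_le hτ0 t₃.hx (hι.trans hντ) hQ.le hQ.le) ?_
    rw [← power_def, hQ]
    refine (power_le_power_right hC).trans ?_
    rw [← power_mul]
    exact power_le_power_left two_ne_zero (mul_le_of_le hτ0 le_rfl le_rfl)
  have key : ∀ f g, f < g → code f ≠ code g := by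
    intro f g hfg hcfg
    obtain ⟨h1, h2⟩ := Prod.ext_iff.1 hcfg
    obtain ⟨h3, h4⟩ := Prod.ext_iff.1 h1
    change s f = s g at h3
    change pat (w f) = pat (w g) at h4
    obtain ⟨d, hdD, hfd, hdg⟩ := hDG f g hfg
    have h5 := (huv f d).2 hfd
    have h6 : ¬ EqS L ν (Sum.elim (u g) (v d)) r := fun h7 =>
      absurd ((huv g d).1 h7) (not_lt.2 hdg)
    apply h6
    refine EqS.trans ?_ h5
    let ss : ι ⊕ ι' → (exLang L t₃.Λ).Term (Q ⊕ V) := Sum.elim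
      (fun k => (s f k).relabel Sum.inl) (fun k => (s' ⟨d, hdD⟩ k).relabel Sum.inr)
    have hss : ∀ g', s g' = s f → Sum.elim (u g') (v d) = fun k => (ss k).realize fun q =>
        E'.c (Sum.elim (w g') Subtype.val q) := by
      intro g' hg'
      funext k
      rcases k with k | k
      · change u g' k = ((s f k).relabel Sum.inl).realize _
        rw [Language.Term.realize_relabel, hsw g' k, hg']
        rfl
      · change v d k = ((s' ⟨d, hdD⟩ k).relabel Sum.inr).realize _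
        rw [Language.Term.realize_relabel, ← hs' ⟨d, hdD⟩ k]
        rfl
    rw [hss g h3.symm, hss f rfl]
    have hz : #(ι ⊕ ι') ≤ ν := by
      simp only [mk_sum, lift_id]
      exact add_le_of_le hν0 hι hι'
    refine EM.eqS_pattern hK hunb hℓν E' E' hE'c hE'c hz _ _ ?_ ss
    have h7 : ∀ q, cc (w f q) = cc (w g q) := fun q => congrFun h2 q
    rintro (p | p) (q | q)
    · exact (Set.ext_iff.1 h4 (p, q)).symm
    · exact (hcc _ _ (h7 p) q.1 q.2).1.symm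
    · exact (hcc _ _ (h7 q) p.1 p.2).2.symm
    · exact Iff.rfl
  have hinj : Function.Injective code := by
    intro f g hfg
    rcases lt_trichotomy f g with h1 | h1 | h1
    · exact absurd hfg (key f g h1)
    · exact h1
    · exact absurd hfg.symm (key g f h1)
  exact absurd ((mk_le_of_injective hinj).trans hcode) (not_le.2 hG)

open Classical in
/-- The functions which give the members of the sequences. -/
noncomputable def fnO {M C₀ X ι ι' : Type u} (cst : C₀ → M) (ξ : X → M) (x : X → ι → M)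
    (y : X → ι' → M) (z₀ : M) (n : ℕ) : C₀ ⊕ (ι ⊕ ι') → (Fin n → M) → M
  | Sum.inl c, _ => cst c
  | Sum.inr (Sum.inl k), v => if h : ∃ (h₀ : 0 < n) (i : X), ξ i = v ⟨0, h₀⟩ then
      x h.choose_spec.choose k else z₀
  | Sum.inr (Sum.inr k), v => if h : ∃ (h₀ : 0 < n) (i : X), ξ i = v ⟨0, h₀⟩ then
      y h.choose_spec.choose k else z₀

/-- No order property. -/
theorem noOP (hK : K.IsLS ℓ) (hunb : ∀ ν, ν < κf ν ∧ K.CategoricalIn (κf ν)) (hℓν : ℓ ≤ ν)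
    {X : Type u} [LinearOrder X] [WellFoundedLT X] (hX : hanf (2 ^ (thr κf ν)) ≤ #X)
    (hX2 : (2 : Cardinal.{u}) ≤ #X)
    {M : Type u} [L.Structure M] (hM : K.mem M) (hMκ : thr κf ν ≤ #M) (hXM : #X ≤ #M)
    {ι ι' : Type u} (hι : #ι ≤ ν) (hι' : #ι' ≤ ν) (x : X → ι → M) (y : X → ι' → M)
    {R₀ : Type u} [L.Structure R₀] (r : ι ⊕ ι' → R₀)
    (h : ∀ i j, EqS L ν (Sum.elim (x i) (y j)) r ↔ i < j) : False := by
  classical
  have hν0 : ℵ₀ ≤ ν := hK.1.trans hℓν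
  have hντ := (lt_thr hunb ν).le
  have hτ0 : ℵ₀ ≤ thr κf ν := hν0.trans hντ
  obtain ⟨ξ⟩ := (Cardinal.le_def _ _).1 hXM
  have hXne : Nonempty X := by
    rw [← mk_ne_zero_iff]
    exact (two_pos.trans_le hX2).ne'
  have hMne : Nonempty M := ⟨ξ (Classical.arbitrary X)⟩
  obtain ⟨C₀, hC₀⟩ := le_mk_iff_exists_set.1 hMκ
  obtain ⟨Λ₀, sZ, eZ, hΛ₀, hfx, hcl⟩ := exists_expand hK hM
    (Ξ := C₀ ⊕ (ι ⊕ ι')) (fnO (Subtype.val : C₀ → M) ξ x y (ξ (Classical.arbitrary X)))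
  have hΛ : #(Λ₀ ⊕ (C₀ ⊕ (ι ⊕ ι'))) ≤ thr κf ν := by
    simp only [mk_sum, lift_id]
    exact add_le_of_le hτ0 (hΛ₀.trans (hℓν.trans hντ)) (add_le_of_le hτ0 hC₀.le
      (add_le_of_le hτ0 (hι.trans hντ) (hι'.trans hντ)))
  have hLc : L.card ≤ thr κf ν := hK.2.1.trans (hℓν.trans hντ)
  obtain ⟨a₂, ha₂, htmpl⟩ := exists_template (L := exLang L (Λ₀ ⊕ (C₀ ⊕ (ι ⊕ ι')))) hτ0
    (card_exLang_le hτ0 hLc hΛ) ξ hX
  let t₃ : Tpl K (thr κf ν) :=
    { Λ := Λ₀ ⊕ (C₀ ⊕ (ι ⊕ ι')), M := M, a := fun n k => ξ (a₂ n k), ne := hMne,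
      cl := hcl, ha := htmpl,
      ha2 := fun h => absurd (ξ.injective h) (ha₂ 2 (show (0 : Fin 2) < 1 by decide)).ne
      hL := hLc, hΛ := hΛ, hν := hτ0 }
  refine op_false hK hunb hℓν (t₃ := t₃) le_rfl hι hι' r fun I _ E => ?_
  refine op_copy hK hunb hℓν (t₃ := t₃) hι hι' hC₀ (fun c => Sum.inr (Sum.inl c))
    (fun k => Sum.inr (Sum.inr (Sum.inl k))) (fun k => Sum.inr (Sum.inr (Sum.inr k)))
    (fun c : C₀ => (c.1 : M)) Subtype.val_injective ξ x y ?_ ?_ ?_ a₂ ha₂ (fun _ => rfl) r h E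
  · intro c v
    exact hfx 0 _ _
  · intro k i
    have h1 : ∃ (h₀ : 0 < 1) (i' : X), ξ i' = ξ i := ⟨Nat.one_pos, i, rfl⟩
    have h2 : fnO (Subtype.val : C₀ → M) ξ x y (ξ (Classical.arbitrary X)) 1
        (Sum.inr (Sum.inl k)) (fun _ => ξ i) = x h1.choose_spec.choose k := dif_pos h1
    refine (hfx 1 _ _).trans (h2.trans ?_)
    rw [ξ.injective h1.choose_spec.choose_spec]
  · intro k i
    have h1 : ∃ (h₀ : 0 < 1) (i' : X), ξ i' = ξ i := ⟨Nat.one_pos, i, rfl⟩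
    have h2 : fnO (Subtype.val : C₀ → M) ξ x y (ξ (Classical.arbitrary X)) 1
        (Sum.inr (Sum.inr k)) (fun _ => ξ i) = y h1.choose_spec.choose k := dif_pos h1
    refine (hfx 1 _ _).trans (h2.trans ?_)
    rw [ξ.injective h1.choose_spec.choose_spec]

end Vale.Agent.P307.R2.H287
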