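import Vale.Agent.P307.R2.H287.Multi

set_option linter.unusedSectionVars false

universe u v w

open FirstOrder Cardinal Set

namespace Vale.Agent.P307.R2.H287

open Vale.Agent.P307 Vale.Agent.P307.H304 Language.Structure Language.Substructure

variable {L : Language.{u, u}} {K : AEC L} {ℓ ν μ : Cardinal.{u}}
  {κf : Cardinal.{u} → Cardinal.{u}}

theorem lt_thr (hunb : ∀ ν, ν < κf ν ∧ K.CategoricalIn (κf ν)) (ν : Cardinal.{u}) :
    ν < thr κf ν :=
  ((Order.lt_succ ν).trans_le (le_max_right _ _)).trans (hunb (max (tau ν) (Order.succ ν))).1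

theorem eqS_of_gr {M N : Type u} [L.Structure M] [L.Structure N] {ι : Type u} (f : M → N)
    (y : ι → M) (h : Good L ν (gr f (range y))) : EqS L ν y (fun i => f (y i)) := by
  have h1 : (range fun i => (y i, f (y i))) ⊆ gr f (range y) := by
    rintro _ ⟨i, rfl⟩
    exact ⟨y i, ⟨i, rfl⟩, rfl⟩
  exact h.subset h1

/-- Order patterns in arbitrary orders. -/
theorem EM.eqS_pattern (hK : K.IsLS ℓ) (hunb : ∀ ν, ν < κf ν ∧ K.CategoricalIn (κf ν))
    (hℓν : ℓ ≤ ν) {t : Tpl K μ} {I I' : Type u} [LinearOrder I] [LinearOrder I'] (E : EM t I)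
    (E' : EM t I') (hI : thr κf ν ≤ #E.N) (hI' : thr κf ν ≤ #E'.N) {Q ι : Type u} (hι : #ι ≤ ν)
    (w : Q → I) (w' : Q → I') (hw : ∀ p q, w p ≤ w q ↔ w' p ≤ w' q)
    (s : ι → (exLang L t.Λ).Term Q) :
    EqS L ν (fun i => (s i).realize fun q => E.c (w q))
      (fun i => (s i).realize fun q => E'.c (w' q)) := by
  let ρ := max (max ν μ) #Q
  have hρ0 : ℵ₀ ≤ ρ := (t.hν.trans (le_max_right _ _)).trans (le_max_left _ _)
  obtain ⟨I₁, oI₁, σ, hI₁, hσ⟩ := exists_nice_ext ρ hρ0 I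
  obtain ⟨I₂, oI₂, σ', hI₂, hσ'⟩ := exists_nice_ext ρ hρ0 I'
  obtain ⟨E₁⟩ := exists_em t I₁
  obtain ⟨E₂⟩ := exists_em t I₂
  obtain ⟨f, hf1, hf2⟩ := E.exists_map E₁ σ hσ
  obtain ⟨f', hf1', hf2'⟩ := E'.exists_map E₂ σ' hσ'
  have h1 := eqS_of_gr f (fun i => (s i).realize fun q => E.c (w q))
    (good_gr_thr hK hunb hℓν f hf1 hI _ (mk_range_le.trans hι))
  have h2 := eqS_of_gr f' (fun i => (s i).realize fun q => E'.c (w' q))
    (good_gr_thr hK hunb hℓν f' hf1' hI' _ (mk_range_le.trans hι))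
  have h3 : EqS (exLang L t.Λ) ρ (fun i => (s i).realize fun q => E₁.c (σ (w q)))
      (fun i => (s i).realize fun q => E₂.c (σ' (w' q))) := by
    refine eqS_of_pattern hρ0 (t.hx.trans ((le_max_right _ _).trans (le_max_left _ _))) E₁.isEM
      E₂.isEM E₁.top E₂.top hI₁ hI₂ (le_max_right _ _) (fun q => σ (w q)) (fun q => σ' (w' q))
      (fun p q => ?_) s
    rw [hσ.le_iff_le, hσ'.le_iff_le]
    exact hw p q
  have h3' : EqS L ρ (fun i => (s i).realize fun q => E₁.c (σ (w q)))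
      (fun i => (s i).realize fun q => E₂.c (σ' (w' q))) := Good.reduct (exHom L t.Λ) h3
  have h4 := EqS.mono (hK.1.trans hℓν) ((le_max_left _ _).trans (le_max_left _ _)) h3' hι
  have e1 : ∀ i, f ((s i).realize fun q => E.c (w q)) = (s i).realize fun q => E₁.c (σ (w q)) := by
    intro i
    have h5 := hf2 ((s i).relabel w)
    rw [Language.Term.realize_relabel, Language.Term.realize_relabel] at h5
    exact h5
  have e2 : ∀ i, f' ((s i).realize fun q => E'.c (w' q)) =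
      (s i).realize fun q => E₂.c (σ' (w' q)) := by
    intro i
    have h5 := hf2' ((s i).relabel w')
    rw [Language.Term.realize_relabel, Language.Term.realize_relabel] at h5
    exact h5
  simp only [e1] at h1
  simp only [e2] at h2
  exact (h1.trans h4).trans h2.symm

/-- The positions over a small set of a well-order. -/
theorem exists_cut_code {W : Type u} [LinearOrder W] [WellFoundedLT W] {χ : Cardinal.{u}}
    (hχ : ℵ₀ ≤ χ) (V : Set W) (hV : #V ≤ χ) : ∃ (C : Type u) (c : W → C), #C ≤ χ ∧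
      ∀ z z', c z = c z' → ∀ v ∈ V, (z ≤ v ↔ z' ≤ v) ∧ (v ≤ z ↔ v ≤ z') := by
  classical
  have hmin : ∀ z, (∃ v : V, z ≤ v.1) → ∃ v : V, z ≤ v.1 ∧ ∀ v' : V, z ≤ v'.1 → v.1 ≤ v'.1 := by
    intro z hz
    obtain ⟨v, hv1, hv2⟩ := WellFounded.has_min (wellFounded_lt (α := W))
      {v : W | v ∈ V ∧ z ≤ v} (by
        obtain ⟨v, hv⟩ := hz
        exact ⟨v.1, v.2, hv⟩)
    exact ⟨⟨v, hv1.1⟩, hv1.2, fun v' hv' => not_lt.1 (hv2 v'.1 ⟨v'.2, hv'⟩)⟩
  let c : W → Option V × ULift.{u} Bool := fun z =>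
    (if h : ∃ v : V, z ≤ v.1 then some (hmin z h).choose else none, ULift.up (decide (z ∈ V)))
  have hc : ∀ z (v : W) (hv : v ∈ V), z ≤ v ↔ ∃ m, (c z).1 = some m ∧ m.1 ≤ v := by
    intro z v hv
    constructor
    · intro hz
      have h : ∃ v : V, z ≤ v.1 := ⟨⟨v, hv⟩, hz⟩
      refine ⟨(hmin z h).choose, ?_, (hmin z h).choose_spec.2 ⟨v, hv⟩ hz⟩
      exact dif_pos h
    · rintro ⟨m, hm1, hm2⟩
      by_cases h : ∃ v : V, z ≤ v.1
      · have h1 : (c z).1 = some (hmin z h).choose := dif_pos h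
        rw [h1] at hm1
        rw [← Option.some.inj hm1] at hm2
        exact (hmin z h).choose_spec.1.trans hm2
      · have h1 : (c z).1 = none := dif_neg h
        rw [h1] at hm1
        exact absurd hm1 (by simp)
  refine ⟨Option V × ULift.{u} Bool, c, ?_, ?_⟩
  · rw [mk_prod, lift_id, lift_id, mk_option]
    refine mul_le_of_le hχ (add_le_of_le hχ hV (one_le_aleph0.trans hχ)) ?_
    exact mk_le_aleph0.trans hχ
  · intro z z' hzz' v hv
    have h1 : z ≤ v ↔ z' ≤ v := by rw [hc z v hv, hc z' v hv, hzz']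
    refine ⟨h1, ?_⟩
    have h2 : z ∈ V ↔ z' ∈ V := by
      have h3 : (c z).2 = (c z').2 := by rw [hzz']
      have h4 : decide (z ∈ V) = decide (z' ∈ V) := congrArg ULift.down h3
      exact decide_eq_decide.1 h4
    have h3 : z = v ↔ z' = v := by
      have key : ∀ a b, c a = c b → (a ∈ V ↔ b ∈ V) → a = v → b = v := by
        intro a b hab hVab ha
        have hbV : b ∈ V := hVab.1 (ha ▸ hv)
        have h4 : b ≤ v := by
          rw [hc b v hv, ← hab, ← hc a v hv]
          exact ha.le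
        have h5 : a ≤ b := by
          rw [hc a b hbV, hab, ← hc b b hbV]
        exact le_antisymm h4 (ha ▸ h5)
      exact ⟨key z z' hzz' h2, key z' z hzz'.symm h2.symm⟩
    rw [← not_lt, ← not_lt, lt_iff_le_and_ne, lt_iff_le_and_ne, h1, Ne, Ne, h3]

end Vale.Agent.P307.R2.H287
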