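import Vale.Agent.P307.R2.H287.OpA

set_option linter.unusedSectionVars false

universe u v w

open FirstOrder Cardinal Set

namespace Vale.Agent.P307.R2.H287

open Vale.Agent.P307 Vale.Agent.P307.H304 Language.Structure Language.Substructure

/-- A linear order with a small dense set. -/
theorem exists_dense (τ : Cardinal.{u}) (hτ : ℵ₀ ≤ τ) : ∃ (G : Type u) (_ : LinearOrder G)
    (D : Set G), #D ≤ 2 ^ τ ∧ 2 ^ τ < #G ∧ ∀ f g : G, f < g → ∃ d ∈ D, f < d ∧ d ≤ g := by
  classical
  have h1 : ∃ c : Cardinal.{u}, (2 : Cardinal.{u}) ^ τ < (2 : Cardinal.{u}) ^ c :=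
    ⟨2 ^ τ, cantor _⟩
  obtain ⟨c, hc1, hc2⟩ := WellFounded.has_min (wellFounded_lt (α := Cardinal.{u}))
    {c | (2 : Cardinal.{u}) ^ τ < (2 : Cardinal.{u}) ^ c} h1
  have hc1' : (2 : Cardinal.{u}) ^ τ < 2 ^ c := hc1
  have hc3 : ∀ b < c, (2 : Cardinal.{u}) ^ b ≤ 2 ^ τ := fun b hb => not_lt.1 fun h => hc2 b h hb
  have hc4 : c ≤ 2 ^ τ := not_lt.1 fun h => hc2 (2 ^ τ) (cantor _) h
  have hc0 : ℵ₀ ≤ c := by
    by_contra hcon
    rw [not_le] at hcon
    have h2 : (2 : Cardinal.{u}) ^ c ≤ 2 ^ τ := power_le_power_left two_ne_zero (hcon.le.trans hτ)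
    exact absurd hc1' (not_lt.2 h2)
  have hlt : ∀ f g : Lex (c.ord.ToType → Bool), f < g ↔
      ∃ i, (∀ j < i, (ofLex f) j = (ofLex g) j) ∧ (ofLex f) i < (ofLex g) i := fun _ _ => Iff.rfl
  refine ⟨Lex (c.ord.ToType → Bool), inferInstance,
    {f | ∃ β, ∀ γ, β ≤ γ → (ofLex f) γ = false}, ?_, ?_, ?_⟩
  · have h2 : ({f | ∃ β, ∀ γ, β ≤ γ → (ofLex f) γ = false} : Set (Lex (c.ord.ToType → Bool))) =
        ⋃ β : c.ord.ToType, {f | ∀ γ, β ≤ γ → (ofLex f) γ = false} := by
      ext f
      simp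
    rw [h2]
    refine mk_iUnion_le_of_le (hτ.trans (cantor τ).le) ?_ _ fun β => ?_
    · rw [mk_ord_toType]
      exact hc4
    · have h3 : #(Iio β) < c := mk_Iio_toType_ord_lt β
      refine le_trans ?_ (hc3 _ h3)
      have h4 : #(Iio β → Bool) = 2 ^ #(Iio β) := by simp
      rw [← h4]
      refine mk_le_of_injective (f := fun f (i : Iio β) => (ofLex f.1) i.1) ?_
      intro f g hfg
      apply Subtype.ext
      apply ofLex.injective
      funext γ
      rcases lt_or_ge γ β with h5 | h5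
      · exact congrFun hfg ⟨γ, h5⟩
      · rw [f.2 γ h5, g.2 γ h5]
  · have h4 : #(Lex (c.ord.ToType → Bool)) = 2 ^ c := by
      change #(c.ord.ToType → Bool) = 2 ^ c
      simp
    rw [h4]
    exact hc1'
  · intro f g hfg
    obtain ⟨i, hi1, hi2⟩ := (hlt f g).1 hfg
    have hnomax : ∃ β, i < β := by
      by_contra hcon
      push Not at hcon
      have h5 : #(c.ord.ToType) ≤ #(Iic i) := by
        refine mk_le_of_injective (f := fun x => (⟨x, hcon x⟩ : Iic i)) fun x y hxy =>
          congrArg Subtype.val hxy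
      have h6 : #(Iic i) < c := by
        have h7 : (Iic i : Set c.ord.ToType) = insert i (Iio i) := by
          ext x
          simp [le_iff_lt_or_eq, or_comm]
        rw [h7]
        refine (mk_insert_le).trans_lt (add_lt_of_lt hc0 (mk_Iio_toType_ord_lt i) ?_)
        exact one_lt_aleph0.trans_le hc0
      rw [mk_ord_toType] at h5
      exact absurd h6 (not_lt.2 h5)
    obtain ⟨β, hβ⟩ := hnomax
    refine ⟨toLex fun j => if j ≤ i then (ofLex g) j else false, ⟨β, fun γ hγ => ?_⟩, ?_, ?_⟩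
    · exact if_neg (not_le.2 (hβ.trans_le hγ))
    · refine (hlt _ _).2 ⟨i, fun j hj => ?_, ?_⟩
      · have h5 : (ofLex (toLex fun j => if j ≤ i then (ofLex g) j else false)) j = (ofLex g) j :=
          if_pos hj.le
        rw [h5]
        exact hi1 j hj
      · have h5 : (ofLex (toLex fun j => if j ≤ i then (ofLex g) j else false)) i = (ofLex g) i :=
          if_pos le_rfl
        rw [h5]
        exact hi2
    · have h5 : toLex (fun j => if j ≤ i then (ofLex g) j else false) ≤ toLex (ofLex g) := by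
        apply Pi.toLex_monotone
        intro j
        dsimp only
        split_ifs
        · exact le_rfl
        · exact Bool.false_le _
      exact h5

end Vale.Agent.P307.R2.H287
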