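import Vale.Agent.P307.H304.Unif

universe u

open FirstOrder Cardinal Set

namespace Vale.Agent.P307.R2.H287

open Vale.Agent.P307

/-- Lexicographic products of a directed well order with a nice order. -/
theorem nice_lex {h : Cardinal.{u}} {U E : Type u} [LinearOrder U] [WellFoundedLT U]
    [LinearOrder E] (hE : Nice h E) (hU : ∀ s : Set U, #s ≤ h → ∃ u, ∀ x ∈ s, x ≤ u) :
    Nice h (U ×ₗ E) := by
  intro A B hA hB hAB
  rcases B.eq_empty_or_nonempty with rfl | hne
  · obtain ⟨u, hu⟩ := hU ((fun p => (ofLex p).1) '' A) (mk_image_le.trans hA)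
    obtain ⟨e, he, -⟩ := hE ((fun p => (ofLex p).2) '' A) ∅ (mk_image_le.trans hA) (by simp)
      (by simp)
    refine ⟨toLex (u, e), fun a ha => ?_, by simp⟩
    rw [Prod.Lex.lt_iff]
    rcases (hu _ ⟨a, ha, rfl⟩).eq_or_lt with h | h
    · exact Or.inr ⟨h, he _ ⟨a, ha, rfl⟩⟩
    · exact Or.inl h
  · obtain ⟨u, ⟨b₀, hb₀, rfl⟩, hmin⟩ := WellFounded.has_min (wellFounded_lt (α := U))
      ((fun p => (ofLex p).1) '' B) (hne.image _)
    have hinj : Function.Injective (fun e : E => toLex ((ofLex b₀).1, e)) := by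
      intro e e' h
      have h1 : ((ofLex b₀).1, e) = ((ofLex b₀).1, e') := toLex.injective h
      exact (Prod.ext_iff.1 h1).2
    obtain ⟨e, he1, he2⟩ := hE ((fun e : E => toLex ((ofLex b₀).1, e)) ⁻¹' A)
      ((fun e : E => toLex ((ofLex b₀).1, e)) ⁻¹' B)
      ((mk_preimage_of_injective _ _ hinj).trans hA)
      ((mk_preimage_of_injective _ _ hinj).trans hB) (fun a ha b hb => by
        have h1 := hAB _ ha _ hb
        rw [Prod.Lex.lt_iff] at h1
        rcases h1 with h1 | h1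
        · exact absurd h1 (lt_irrefl _)
        · exact h1.2)
    refine ⟨toLex ((ofLex b₀).1, e), fun a ha => ?_, fun b hb => ?_⟩
    · have h1 := hAB a ha b₀ hb₀
      rw [Prod.Lex.lt_iff] at h1 ⊢
      rcases h1 with h1 | h1
      · exact Or.inl h1
      · refine Or.inr ⟨h1.1, he1 _ ?_⟩
        have h2 : toLex ((ofLex b₀).1, (ofLex a).2) = a := by
          rw [← h1.1]
          rfl
        exact (congrArg (· ∈ A) h2).mpr ha
    · rw [Prod.Lex.lt_iff]
      rcases lt_trichotomy (ofLex b₀).1 (ofLex b).1 with h1 | h1 | h1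
      · exact Or.inl h1
      · refine Or.inr ⟨h1, he2 _ ?_⟩
        have h2 : toLex ((ofLex b₀).1, (ofLex b).2) = b := by
          rw [h1]
          rfl
        exact (congrArg (· ∈ B) h2).mpr hb
      · exact absurd h1 (hmin _ ⟨b, hb, rfl⟩)

/-- Long increasing sequences in small cuts of a nice order. -/
theorem exists_seq {h : Cardinal.{u}} (hh : ℵ₀ ≤ h) {D : Type u} [LinearOrder D] (hD : Nice h D)
    (A B : Set D) (hA : #A ≤ h) (hB : #B ≤ h) (hAB : ∀ a ∈ A, ∀ b ∈ B, a < b) :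
    ∃ x : SuccTy h → D, StrictMono x ∧ ∀ i, (∀ a ∈ A, a < x i) ∧ ∀ b ∈ B, x i < b := by
  classical
  let d : D := (hD A B hA hB hAB).choose
  let x : SuccTy h → D := WellFounded.fix (r := (· < ·)) wellFounded_lt (fun i rec =>
    if hx : ∃ z, (∀ a ∈ A, a < z) ∧ (∀ b ∈ B, z < b) ∧ ∀ j : Iio i, rec j.1 j.2 < z then hx.choose
    else d)
  have hx : ∀ i, x i = if hx : ∃ z, (∀ a ∈ A, a < z) ∧ (∀ b ∈ B, z < b) ∧
      ∀ j : Iio i, x j.1 < z then hx.choose else d := fun i => WellFounded.fix_eq _ _ i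
  have key : ∀ i, (∀ a ∈ A, a < x i) ∧ (∀ b ∈ B, x i < b) ∧ ∀ j : Iio i, x j.1 < x i := by
    intro i
    induction i using WellFoundedLT.induction with
    | ind i ih =>
    have hex : ∃ z, (∀ a ∈ A, a < z) ∧ (∀ b ∈ B, z < b) ∧ ∀ j : Iio i, x j.1 < z := by
      obtain ⟨z, hz1, hz2⟩ := hD (A ∪ Set.range fun j : Iio i => x j.1) B
        ((mk_union_le _ _).trans (add_le_of_le hh hA (mk_range_le.trans (mk_Iio_succTy i)))) hB
        (by
          rintro a (ha | ⟨j, rfl⟩) b hb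
          · exact hAB a ha b hb
          · exact (ih j.1 j.2).2.1 b hb)
      exact ⟨z, fun a ha => hz1 a (Or.inl ha), hz2, fun j => hz1 _ (Or.inr ⟨j, rfl⟩)⟩
    have h1 : x i = hex.choose := (hx i).trans (dif_pos hex)
    rw [h1]
    exact hex.choose_spec
  exact ⟨x, fun j i hj => (key i).2.2 ⟨j, hj⟩, fun i => ⟨(key i).1, (key i).2.1⟩⟩

end Vale.Agent.P307.R2.H287
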