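import Vale.Agent.P307.R2.H287.Op

set_option linter.unusedSectionVars false

universe u v w

open FirstOrder Cardinal Set

namespace Vale.Agent.P307.R2.H287

open Vale.Agent.P307 Vale.Agent.P307.H304

theorem exists_strictMono_toType {H : Type u} [LinearOrder H] [WellFoundedLT H] {κ : Cardinal.{u}}
    (hκ : κ ≤ #H) : ∃ h : κ.ord.ToType → H, StrictMono h := by
  have h1 : κ.ord ≤ Ordinal.type ((· < ·) : H → H → Prop) :=
    (ord_le_ord.2 hκ).trans (ord_le_type _)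
  rw [← Ordinal.type_toType κ.ord, Ordinal.type_le_iff'] at h1
  obtain ⟨f⟩ := h1
  exact ⟨f, fun _ _ hab => f.map_rel_iff.2 hab⟩

section evc

variable {Y : Type u} [LinearOrder Y]

/-- The property is eventually constant. -/
def EvC (p : Y → Prop) : Prop := ∃ j₀, ∀ j, j₀ ≤ j → (p j ↔ p j₀)

theorem evC_of_mono [Nonempty Y] {p : Y → Prop} (h : ∀ i j, i < j → p i → p j) : EvC p := by
  by_cases hp : ∃ j, p j
  · obtain ⟨j₀, hj₀⟩ := hp
    refine ⟨j₀, fun j hj => ⟨fun _ => hj₀, fun _ => ?_⟩⟩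
    rcases eq_or_lt_of_le hj with rfl | h1
    · exact hj₀
    · exact h _ _ h1 hj₀
  · push Not at hp
    exact ⟨Classical.arbitrary Y, fun j _ => ⟨fun h1 => absurd h1 (hp j), fun h1 =>
      absurd h1 (hp _)⟩⟩

theorem EvC.not {p : Y → Prop} (h : EvC p) : EvC fun j => ¬ p j := by
  obtain ⟨j₀, hj₀⟩ := h
  exact ⟨j₀, fun j hj => not_congr (hj₀ j hj)⟩

theorem evC_of_anti [Nonempty Y] {p : Y → Prop} (h : ∀ i j, i < j → p j → p i) : EvC p := by
  have h1 : EvC fun j => ¬ p j := evC_of_mono fun i k hij hi hj => hi (h i k hij hj)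
  obtain ⟨j₀, hj₀⟩ := h1
  exact ⟨j₀, fun j hj => not_iff_not.1 (hj₀ j hj)⟩

theorem evC_const [Nonempty Y] {p : Y → Prop} (h : ∀ i j, p i ↔ p j) : EvC p :=
  ⟨Classical.arbitrary Y, fun j _ => h _ _⟩

/-- Comparison with a fixed point. -/
theorem evC_le [Nonempty Y] {J : Type u} [LinearOrder J] (g : Y → J)
    (h1 : ∀ i j i' j', i < j → i' < j' → (g i ≤ g j ↔ g i' ≤ g j'))
    (t : J) : EvC (fun j => g j ≤ t) ∧ EvC (fun j => t ≤ g j) := by
  by_cases h3 : ∃ i j, i < j ∧ g i ≤ g j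
  · obtain ⟨i₀, j₀, h4, h5⟩ := h3
    have h6 : ∀ i j, i < j → g i ≤ g j := fun i j hij => (h1 i₀ j₀ i j h4 hij).1 h5
    exact ⟨evC_of_anti fun i j hij hj => (h6 i j hij).trans hj,
      evC_of_mono fun i j hij hi => hi.trans (h6 i j hij)⟩
  · push Not at h3
    exact ⟨evC_of_mono fun i j hij hi => (h3 i j hij).le.trans hi,
      evC_of_anti fun i j hij hj => hj.trans (h3 i j hij).le⟩

end evc

/-- Realization of a total preorder. -/
theorem exists_realize_preorder {θ : Cardinal.{u}} (hθ : ℵ₀ ≤ θ) {J : Type u} [LinearOrder J]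
    (hJ : Nice θ J) {T Q : Type u} (hT : #T ≤ θ) (hQ : #Q ≤ θ) (val : T → J)
    (le : T ⊕ Q → T ⊕ Q → Prop) (hrefl : ∀ z, le z z)
    (htrans : ∀ x y z, le x y → le y z → le x z) (htot : ∀ x y, le x y ∨ le y x)
    (hval : ∀ t t', le (Sum.inl t) (Sum.inl t') ↔ val t ≤ val t') :
    ∃ w : Q → J, ∀ z z', Sum.elim val w z ≤ Sum.elim val w z' ↔ le z z' := by
  classical
  let _ : Preorder (T ⊕ Q) :=
    { le := le
      le_refl := hrefl
      le_trans := htrans }
  have _ : Std.Total (α := T ⊕ Q) (· ≤ ·) := ⟨htot⟩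
  let _ : LinearOrder (Antisymmetrization (T ⊕ Q) (· ≤ ·)) := inferInstance
  let f : T ⊕ Q → Antisymmetrization (T ⊕ Q) (· ≤ ·) := toAntisymmetrization _
  have hf : ∀ z z', f z ≤ f z' ↔ le z z' := fun z z' =>
    toAntisymmetrization_le_toAntisymmetrization_iff
  let W : Set (Antisymmetrization (T ⊕ Q) (· ≤ ·) × J) := range fun t => (f (Sum.inl t), val t)
  have hW : OrdPat W := by
    rintro _ ⟨t, rfl⟩ _ ⟨t', rfl⟩
    exact (hf _ _).trans (hval t t')
  obtain ⟨W', h1, h2, -, h3⟩ := OrdPat.exists_extend hθ hJ hW (mk_range_le.trans hT) univ (by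
    rw [mk_univ]
    refine (mk_le_of_surjective (f := f) ?_).trans ?_
    · intro z
      obtain ⟨z, rfl⟩ := Quotient.exists_rep z
      exact ⟨z, rfl⟩
    · rw [mk_sum, lift_id, lift_id]
      exact add_le_of_le hθ hT hQ)
  choose F hF using fun z => h3 z trivial
  have hF1 : ∀ z z', F z ≤ F z' ↔ z ≤ z' := fun z z' => (h2 _ (hF z) _ (hF z')).symm
  have hF2 : ∀ t, F (f (Sum.inl t)) = val t := by
    intro t
    have h4 := h2 _ (hF (f (Sum.inl t))) _ (h1 ⟨t, rfl⟩)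
    have h5 := h2 _ (h1 ⟨t, rfl⟩) _ (hF (f (Sum.inl t)))
    exact le_antisymm (h4.1 le_rfl) (h5.1 le_rfl)
  refine ⟨fun q => F (f (Sum.inr q)), ?_⟩
  have h4 : ∀ z, Sum.elim val (fun q => F (f (Sum.inr q))) z = F (f z) := by
    rintro (t | q)
    · exact (hF2 t).symm
    · rfl
  intro z z'
  rw [h4, h4, hF1, hf]

theorem exists_rec {X : Type u} {β : Type v} [LinearOrder X] [WellFoundedLT X]
    (Φ : (j : X) → (Iio j → β) → β) : ∃ e : X → β, ∀ j, e j = Φ j fun i => e i.1 := by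
  refine ⟨WellFounded.fix (C := fun _ => β) (wellFounded_lt (α := X))
    (fun j prev => Φ j fun i => prev i.1 i.2), fun j => ?_⟩
  rw [WellFounded.fix_eq]

end Vale.Agent.P307.R2.H287
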