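import Vale.Agent.P307.R2.H287.Bdd
import Vale.Agent.P307.R2.H74.Spread2

/-!
A variant of packs where only the pieces of small models which are isolated over `X` are treated.
-/

universe u v

open Set Cardinal Function

namespace Vale.Agent.P307.R2.H541

namespace PG

variable {C : Type u}

/-- Isolated small models, from the density of the isolated types. -/
theorem exists_isol_mem {M : PG C} {X : Set C} (hT : ∀ g ∈ M.G, ∀ R ∈ M.T, (g : C → C) '' R ∈ M.T)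
    (hL : ∀ A : Set C, #A < M.χ → ∃ R ∈ M.T, A ⊆ R)
    (hdens : ∀ s ⊆ X, #s < M.χ → ∀ E : Set C, #E < M.χ →
      ∃ g ∈ M.G, (∀ a ∈ s, g a = a) ∧ ∃ B ⊆ X, #B < M.χ ∧ M.Isol B X (g '' E))
    {s E : Set C} (hs : s ⊆ X) (hsc : #s < M.χ) (hE : #E < M.χ) :
    ∃ g ∈ M.G, (∀ a ∈ s, g a = a) ∧ ∃ R ∈ M.T, g '' E ⊆ R ∧
      (∃ B ⊆ X, #B < M.χ ∧ M.Isol B X R) ∧ ∃ B ⊆ X ∩ R, M.Isol B X (g '' E) := by
  obtain ⟨g₀, hg₀, h1, B₀, h2, h3, h4⟩ := hdens s hs hsc E hE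
  obtain ⟨R, hR, hER⟩ := hL (g₀ '' E ∪ B₀) (small_union (small_image _ hE) h3)
  obtain ⟨g₁, hg₁, h5, B₁, h6, h7, h8⟩ := hdens (s ∪ B₀) (union_subset hs h2)
    (small_union hsc h3) R (M.T_card hR)
  have h9 : ((g₁ * g₀ : Equiv.Perm C) : C → C) '' E = g₁ '' (g₀ '' E) := by
    rw [← image_comp]
    rfl
  refine ⟨g₁ * g₀, M.G.mul_mem hg₁ hg₀, fun a ha => ?_, (g₁ : C → C) '' R, hT g₁ hg₁ R hR, ?_,
    ⟨B₁, h6, h7, h8⟩, B₀, subset_inter h2 fun b hb => ?_, ?_⟩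
  · rw [Equiv.Perm.mul_apply, h1 a ha, h5 a (Or.inl ha)]
  · rw [h9]
    exact image_mono (subset_union_left.trans hER)
  · exact ⟨b, hER (Or.inr hb), h5 b (Or.inr hb)⟩
  · rw [h9]
    exact h4.smul hg₁ fun b hb => h5 b (Or.inr hb)

/-- A sequence of isolated small models, with the isolating sets in the next models. -/
theorem exists_bdd_of_dense' {M : PG C} {X : Set C} (hX : #X = M.χ)
    (hT : ∀ g ∈ M.G, ∀ R ∈ M.T, (g : C → C) '' R ∈ M.T)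
    (hL : ∀ A : Set C, #A < M.χ → ∃ R ∈ M.T, A ⊆ R)
    (hU : ∀ R : ℕ → Set C, Monotone R → (∀ n, R n ∈ M.T) → #(⋃ n, R n : Set C) = M.χ →
      (⋃ n, R n) ∈ M.S)
    (hdens : ∀ s ⊆ X, #s < M.χ → ∀ E : Set C, #E < M.χ →
      ∃ g ∈ M.G, (∀ a ∈ s, g a = a) ∧ ∃ B ⊆ X, #B < M.χ ∧ M.Isol B X (g '' E)) :
    ∃ R : ℕ → Set C, Monotone R ∧ (∀ n, R n ∈ M.T) ∧ X ⊆ ⋃ n, R n ∧ (⋃ n, R n) ∈ M.S ∧
      (∀ n, ∃ B ⊆ X, #B < M.χ ∧ M.Isol B X (R n)) ∧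
      ∀ n, ∃ B ⊆ X ∩ R (n + 1), M.Isol B X (R n) := by
  obtain ⟨Y, hY, hYc, hYX⟩ := M.cof X hX.le
  have hYs : ∀ n, Y n ⊆ X := fun n => by
    rw [← hYX]
    exact subset_iUnion Y n
  obtain ⟨R, hR, hRR⟩ := exists_seq (fun n (R : Set C) => R ∈ M.T ∧ Y n ⊆ R ∧
      ∃ B ⊆ X, #B < M.χ ∧ M.Isol B X R)
    (fun _ R R' => R ⊆ R' ∧ ∃ B ⊆ X ∩ R', M.Isol B X R) (by
      obtain ⟨R', hR', hYR⟩ := hL (Y 0) (hYc 0)
      obtain ⟨g, hg, hg1, B, h1, h2, h3⟩ := hdens (Y 0) (hYs 0) (hYc 0) R' (M.T_card hR')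
      exact ⟨(g : C → C) '' R', hT g hg R' hR', fun y hy => ⟨y, hYR hy, hg1 y hy⟩, B, h1, h2, h3⟩)
    (by
      rintro n R ⟨hR, hYR, B, hB, hBc, hBi⟩
      obtain ⟨R', hR', hRR'⟩ := hL (R ∪ (B ∪ Y (n + 1)))
        (small_union (M.T_card hR) (small_union hBc (hYc _)))
      obtain ⟨g, hg, hg1, B', h1, h2, h3⟩ := hdens (B ∪ Y (n + 1)) (union_subset hB (hYs _))
        (small_union hBc (hYc _)) R' (M.T_card hR')
      obtain ⟨h, hh, h4, h5⟩ := hBi g hg (fun b hb => hg1 b (Or.inl hb)) (B' ∪ (B ∪ Y (n + 1)))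
        (union_subset h1 (union_subset hB (hYs _))) (small_union h2 (small_union hBc (hYc _)))
      have h6 := h3.smul (M.G.inv_mem hh) fun b hb => fix_inv (h4 b (Or.inl hb))
      have h7 : ∀ y ∈ B ∪ Y (n + 1), y ∈ ((h⁻¹ : Equiv.Perm C) : C → C) '' (g '' R') := by
        intro y hy
        refine ⟨g y, ⟨y, hRR' (Or.inr hy), rfl⟩, ?_⟩
        rw [hg1 y hy]
        exact fix_inv (h4 y (Or.inr hy))
      refine ⟨((h⁻¹ : Equiv.Perm C) : C → C) '' (g '' R'),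
        ⟨hT _ (M.G.inv_mem hh) _ (hT g hg R' hR'), fun y hy => h7 y (Or.inr hy), B', h1, h2, h6⟩,
        fun x hx => ?_, B, subset_inter hB fun b hb => h7 b (Or.inl hb), hBi⟩
      exact ⟨h x, ⟨x, hRR' (Or.inl hx), by
        rw [← h5 x hx]⟩, inv_ap h x⟩)
  have hRm : Monotone R := monotone_nat_of_le_succ fun n => (hRR n).1
  have hXR : X ⊆ ⋃ n, R n := by
    rw [← hYX]
    exact iUnion_mono fun n => (hR n).2.1
  have hc : #(⋃ n, R n : Set C) = M.χ := by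
    refine le_antisymm ?_ (hX.ge.trans (mk_le_mk_of_subset hXR))
    have h1 := mk_iUnion_le_sum_mk_lift (f := R)
    have h2 : (Cardinal.sum fun n => #(R n)) ≤ Cardinal.sum fun _ : ℕ => M.χ :=
      Cardinal.sum_le_sum _ _ fun n => (M.T_card (hR n).1).le
    rw [Cardinal.sum_const, Cardinal.mk_nat] at h2
    simp only [Cardinal.lift_uzero, Cardinal.lift_aleph0] at h1 h2
    exact (h1.trans h2).trans (aleph0_mul_eq M.hχ).le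
  exact ⟨R, hRm, fun n => (hR n).1, hXR, hU R hRm (fun n => (hR n).1) hc, fun n => (hR n).2.2,
    fun n => (hRR n).2⟩

/-- The data of a pack, with the step in place of density and shrinking. -/
structure PackR (M : PG C) (τ : Cardinal.{u}) (X N : Set C) where
  S : Set (Set C)
  Z : Set (Set C)
  hτ : ℵ₀ ≤ τ
  hτM : τ < M.χ
  mem : N ∈ M.S
  sub : X ⊆ N
  cl : ∀ D : Set C, #D ≤ τ → ∃ z ∈ Z, D ⊆ z
  SU : ∀ (ι : Type u) [LinearOrder ι] [WellFoundedLT ι] [Nonempty ι], #ι ≤ τ →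
    ∀ F : ι → Set C, Monotone F → (∀ i, F i ∈ S) → (⋃ i, F i) ∈ S
  ZU : ∀ (ι : Type u) [LinearOrder ι] [WellFoundedLT ι] [Nonempty ι], #ι ≤ τ →
    ∀ z : ι → Set C, Monotone z → (∀ i, z i ∈ Z) → (⋃ i, z i) ∈ Z
  inN : ∀ z ∈ Z, N ∩ z ∈ S
  im : ∀ E ∈ S, ∀ f : C → C, (∀ A ⊆ E, #A < τ → ∃ g ∈ M.G, ∀ a ∈ A, g a = f a) → f '' E ∈ S
  amal : ∀ E ∈ S, ∀ E' ∈ S, E ⊆ E' → ∀ f : C → C,
    (∀ A ⊆ E, #A < τ → ∃ g ∈ M.G, ∀ a ∈ A, g a = f a) → ∃ f' : C → C, (∀ a ∈ E, f' a = f a) ∧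
      ∀ A ⊆ E', #A < τ → ∃ g ∈ M.G, ∀ a ∈ A, g a = f' a
  back : ∀ z ∈ Z, ∀ F ∈ S, ∀ f : C → C,
    (∀ A ⊆ X ∩ z, #A < τ → ∃ g ∈ M.G, ∀ a ∈ A, g a = f a) → (∀ a ∈ X ∩ z, f a ∈ F) →
    ∃ E ∈ S, X ∩ z ⊆ E ∧ ∃ f' : C → C, (∀ a ∈ X ∩ z, f' a = f a) ∧
      (∀ A ⊆ E, #A < τ → ∃ g ∈ M.G, ∀ a ∈ A, g a = f' a) ∧ f' '' E = F
  lim : ∀ (ι : Type u) [LinearOrder ι] [WellFoundedLT ι] [Nonempty ι], #ι ≤ τ →
    ∀ z : ι → Set C, Monotone z → (∀ i, z i ∈ Z) → ∀ f : C → C,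
      (∀ i, ∀ A ⊆ X ∩ z i, #A < τ → ∃ g ∈ M.G, ∀ a ∈ A, g a = f a) →
      ∀ A ⊆ X ∩ ⋃ i, z i, #A < τ → ∃ g ∈ M.G, ∀ a ∈ A, g a = f a
  step : ∀ z ∈ Z, ∀ E ∈ S, X ∩ z ⊆ E → ∃ g ∈ M.G, (∀ a ∈ X ∩ z, g a = a) ∧ ∃ z' ∈ Z, z ⊆ z' ∧
    g '' E ⊆ N ∩ z' ∧ ∀ e ⊆ E, #e < τ → ∃ B ⊆ X ∩ z', #B < τ ∧ M.Isol B X (g '' e)

variable {M : PG C} {τ : Cardinal.{u}} {X N : Set C}

theorem PackR.exists_bdd (K : PackR M τ X N) {ν : Cardinal.{u}} (hν : ℵ₀ ≤ ν) (hντ : ν < τ)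
    {z₀ : Set C} (hz₀ : z₀ ∈ K.Z) :
    ∃ z ∈ K.Z, z₀ ⊆ z ∧ ∃ E ∈ K.S, X ∩ z ⊆ E ∧
      ∀ e ⊆ E, #e ≤ ν → ∃ B ⊆ X ∩ z, #B < τ ∧ M.Isol B X e := by
  have hs : Order.succ ν ≤ τ := Order.succ_le_of_lt hντ
  obtain ⟨z, hz, hz₀z, E, hE, hzE, -, h⟩ := exists_spread_of_tiny (X := X) hν hντ K.Z K.S K.im
    K.amal K.back (fun ι _ _ _ hι => K.SU ι (hι.trans hs)) (fun ι _ _ _ hι => K.ZU ι (hι.trans hs))
    (fun ι _ _ _ hι => K.lim ι (hι.trans hs)) (fun z hz E hE hzE => by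
      obtain ⟨g, hg, h1, z', hz', h2, h3, h4⟩ := K.step z hz E hE hzE
      exact ⟨g, hg, h1, z', hz', h2, N ∩ z', K.inN z' hz', inter_subset_inter_left z' K.sub, h3,
        fun e he hec => h4 e he (hec.trans_lt hντ)⟩) hz₀ (K.inN z₀ hz₀)
    (inter_subset_inter_left z₀ K.sub)
  exact ⟨z, hz, hz₀z, E, hE, hzE, h⟩

/-- The traces of `N` are unions of sequences of tiny models, whose pieces are isolated over `X` by
tiny sets. -/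
structure PackR.Filt (K : PackR M τ X N) where
  R : ℕ → Set C
  T : Set (Set C)
  iso : ∀ z ∈ K.Z, ∀ n, ∀ e ⊆ R n ∩ z, #e < τ → ∃ B ⊆ X ∩ z, #B < τ ∧ M.Isol B X e
  T_card : ∀ t ∈ T, #t < τ
  filt : ∀ z ∈ K.Z, ∃ t : ℕ → Set C, Monotone t ∧ (∀ n, t n ∈ T) ∧ (∀ n, t n ⊆ R n) ∧
    ⋃ n, t n = N ∩ z
  glue : ∀ t : ℕ → Set C, Monotone t → (∀ n, t n ∈ T) → (⋃ n, t n) ∈ K.S → ∀ f : C → C,
    (∀ n, ∃ g ∈ M.G, ∀ a ∈ t n, g a = f a) →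
    ∀ A ⊆ ⋃ n, t n, #A < τ → ∃ g ∈ M.G, ∀ a ∈ A, g a = f a
  sat : ∀ E ∈ K.S, ∀ A ⊆ E, #A < τ → ∀ D : Set C, #D < τ →
    ∃ g ∈ M.G, (∀ a ∈ A, g a = a) ∧ ∀ d ∈ D, g d ∈ E

theorem PackR.small_union {A B : Set C} (K : PackR M τ X N) (hA : #A < τ) (hB : #B < τ) :
    #(A ∪ B : Set C) < τ :=
  (mk_union_le A B).trans_lt (add_lt_of_lt K.hτ hA hB)

/-- The trace of `N` is embedded over the trace of `X` into every model over the trace of `X`. -/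
theorem PackR.exists_embed (K : PackR M τ X N) (F : K.Filt) {z : Set C} (hz : z ∈ K.Z) {E : Set C}
    (hE : E ∈ K.S) (hzE : X ∩ z ⊆ E) :
    ∃ h : C → C, (∀ a ∈ X ∩ z, h a = a) ∧ (∀ a ∈ N ∩ z, h a ∈ E) ∧
      ∀ A ⊆ N ∩ z, #A < τ → ∃ g ∈ M.G, ∀ a ∈ A, g a = h a := by
  obtain ⟨t, htm, htT, htR, htN⟩ := F.filt z hz
  have htc : ∀ n, #(t n) < τ := fun n => F.T_card _ (htT n)
  have htz : ∀ n, t n ⊆ N ∩ z := fun n => by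
    rw [← htN]
    exact subset_iUnion t n
  have hB : ∀ n, ∃ B ⊆ X ∩ z, #B < τ ∧ M.Isol B X (t n) := fun n =>
    F.iso z hz n (t n) (subset_inter (htR n) ((htz n).trans inter_subset_right)) (htc n)
  choose B hBX hBc hBi using hB
  have step : ∀ n (g : Equiv.Perm C) (D : Set C), g ∈ M.G → #D < τ → (∀ a ∈ D, g a ∈ E) →
      (∀ A ⊆ X, #A < M.χ → ∃ h ∈ M.G, (∀ a ∈ A, h a = a) ∧ ∀ e ∈ D, h e = g e) →
      ∃ g' : Equiv.Perm C, (g' ∈ M.G ∧ (∀ a ∈ t n, g' a ∈ E) ∧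
        ∀ A ⊆ X, #A < M.χ → ∃ h ∈ M.G, (∀ a ∈ A, h a = a) ∧ ∀ e ∈ t n, h e = g' e) ∧
        ∀ a ∈ D, g' a = g a := by
    intro n g D hg hDc hgD hgA
    obtain ⟨h, hh, h1, h2⟩ := hgA (B n) ((hBX n).trans inter_subset_left) ((hBc n).trans K.hτM)
    obtain ⟨k, hk, hk1, hk2⟩ := F.sat E hE (B n ∪ (h : C → C) '' D) (by
      rintro a (ha | ⟨d, hd, rfl⟩)
      · exact hzE (hBX n ha)
      · rw [h2 d hd]
        exact hgD d hd) (K.small_union (hBc n) (mk_image_le.trans_lt hDc))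
      ((h : C → C) '' t n) (mk_image_le.trans_lt (htc n))
    refine ⟨k * h, ⟨M.G.mul_mem hk hh, fun a ha => hk2 _ ⟨a, ha, rfl⟩, fun A hA hAc =>
      hBi n (k * h) (M.G.mul_mem hk hh) (fun b hb => ?_) A hA hAc⟩, fun a ha => ?_⟩
    · rw [Equiv.Perm.mul_apply, h1 b hb, hk1 b (Or.inl hb)]
    · rw [Equiv.Perm.mul_apply, hk1 _ (Or.inr ⟨a, ha, rfl⟩), h2 a ha]
  obtain ⟨g, hg, hgg⟩ := exists_seq (fun n (g : Equiv.Perm C) => g ∈ M.G ∧ (∀ a ∈ t n, g a ∈ E) ∧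
      ∀ A ⊆ X, #A < M.χ → ∃ h ∈ M.G, (∀ a ∈ A, h a = a) ∧ ∀ e ∈ t n, h e = g e)
    (fun n g g' => ∀ a ∈ t n, g' a = g a) (by
      obtain ⟨g', h1, -⟩ := step 0 1 ∅ M.G.one_mem (by
        rw [mk_eq_zero]
        exact (zero_lt_one.trans_le (one_le_aleph0.trans K.hτ))) (by simp)
        fun A _ _ => ⟨1, M.G.one_mem, by simp, by simp⟩
      exact ⟨g', h1⟩)
    fun n g hg => step (n + 1) g (t n) hg.1 (htc n) hg.2.1 hg.2.2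
  have hgm : ∀ n m, n ≤ m → ∀ a ∈ t n, g m a = g n a := by
    intro n m hnm
    induction m, hnm using Nat.le_induction with
    | base => exact fun a _ => rfl
    | succ m hnm ih => exact fun a ha => by rw [hgg m a (htm hnm ha), ih a ha]
  obtain ⟨f, hf⟩ := exists_glue_fun (z := t) (ψ := fun n => (g n : C → C))
    fun k i hki a ha => hgm k i hki.le a ha
  have hex : ∀ a ∈ N ∩ z, ∃ n, a ∈ t n := fun a ha => by
    rw [← htN] at ha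
    exact mem_iUnion.1 ha
  refine ⟨f, fun a ha => ?_, fun a ha => ?_, fun A hA hAc => ?_⟩
  · obtain ⟨n, hn⟩ := hex a ⟨K.sub ha.1, ha.2⟩
    rw [hf n a hn]
    obtain ⟨h, -, h1, h2⟩ := (hg n).2.2 {a} (singleton_subset_iff.2 ha.1)
      (by
        rw [mk_singleton]
        exact one_lt_aleph0.trans_le M.hχ)
    rw [← h2 a hn, h1 a rfl]
  · obtain ⟨n, hn⟩ := hex a ha
    rw [hf n a hn]
    exact (hg n).2.1 a hn
  · refine F.glue t htm htT (by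
      rw [htN]
      exact K.inN z hz) f (fun n => ⟨g n, (hg n).1, fun a ha => (hf n a ha).symm⟩) A (by
      rw [htN]
      exact hA) hAc

/-- The pieces of `N` of size at most `ν < τ` are isolated over `X` by tiny sets. -/
theorem PackR.exists_isol (K : PackR M τ X N) (F : K.Filt) {ν : Cardinal.{u}} (hν : ℵ₀ ≤ ν)
    (hντ : ν < τ) {e : Set C} (he : e ⊆ N) (hec : #e ≤ ν) :
    ∃ B ⊆ X, #B < τ ∧ M.Isol B X e := by
  obtain ⟨z₀, hz₀, hez₀⟩ := K.cl e (hec.trans hντ.le)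
  obtain ⟨z, hz, hz₀z, E, hE, hzE, hiso⟩ := K.exists_bdd hν hντ hz₀
  obtain ⟨h, h1, h2, h3⟩ := K.exists_embed F hz hE hzE
  have hez : e ⊆ N ∩ z := subset_inter he (hez₀.trans hz₀z)
  obtain ⟨B, hBX, hBc, hB⟩ := hiso (h '' e) (by
    rintro _ ⟨a, ha, rfl⟩
    exact h2 a (hez ha)) (mk_image_le.trans hec)
  have hBz : B ⊆ N ∩ z := hBX.trans (inter_subset_inter_left z K.sub)
  obtain ⟨g, hg, hgA⟩ := h3 (e ∪ B) (union_subset hez hBz)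
    (K.small_union (hec.trans_lt hντ) hBc)
  have hgB : ∀ b ∈ B, g b = b := fun b hb => by rw [hgA b (Or.inr hb), h1 b (hBX hb)]
  have hge : (g : C → C) '' e = h '' e := image_congr fun a ha => hgA a (Or.inl ha)
  rw [← hge] at hB
  have h4 := hB.smul (M.G.inv_mem hg) fun b hb => fix_inv (hgB b hb)
  have h5 : ((g⁻¹ : Equiv.Perm C) : C → C) '' (g '' e) = e := by
    rw [← image_comp]
    have : ((g⁻¹ : Equiv.Perm C) : C → C) ∘ (g : C → C) = id := funext fun a => inv_ap g a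
    rw [this, image_id]
  rw [h5] at h4
  exact ⟨B, hBX.trans inter_subset_left, hBc, h4⟩

/-- **Boundedly atomic models are atomic.** -/
theorem atomic_of_packsR (hχ : ℵ₀ < M.χ) (hN : N ∈ M.S) (hXN : X ⊆ N)
    (h : ∀ ν, ℵ₀ ≤ ν → ν < M.χ → ∃ τ, ν < τ ∧ ∃ K : PackR M τ X N, Nonempty K.Filt) :
    M.Atomic N X := by
  refine ⟨hN, hXN, fun E hE hEc => ?_⟩
  obtain ⟨τ, hτ, K, ⟨F⟩⟩ := h (max ℵ₀ #E) (le_max_left _ _) (max_lt hχ hEc)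
  obtain ⟨B, h1, h2, h3⟩ := K.exists_isol F (le_max_left _ _) hτ hE (le_max_right _ _)
  exact ⟨B, h1, h2.trans K.hτM, h3⟩

end PG

end Vale.Agent.P307.R2.H541
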