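import Vale.Agent.P307.R2.H287.EmEx

set_option linter.unusedSectionVars false

universe u v w

open FirstOrder Cardinal Set

namespace Vale.Agent.P307.R2.H287

open Vale.Agent.P307 Vale.Agent.P307.H304 Language.Structure Language.Substructure

variable {L : Language.{u, u}} {K : AEC L} {ν : Cardinal.{u}}

theorem exists_pair (t : Tpl K ν) {κ₁ κ₂ : Cardinal.{u}} (hν : ν ≤ κ₁) (hτ : tau ν ≤ κ₁)
    (h12 : κ₁ ≤ κ₂) (hcat : K.CategoricalIn κ₂) (P₀ : Type u) [L.Structure P₀] (hP₀ : K.mem P₀)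
    (hP₀c : #P₀ = κ₂) (X : Set P₀) (hX : #X ≤ κ₁) :
    ∃ (p : Pair t κ₁) (e : p.P.N ≃[L] P₀), X ⊆ range fun n => e (p.i n) := by
  classical
  obtain ⟨E, oE, hE, hEτ, hsτ⟩ := (exists_E ν).choose_spec
  change #E ≤ tau ν at hEτ
  change Order.succ (hFn ν) ≤ tau ν at hsτ
  have hκ0 : ℵ₀ ≤ κ₁ := t.hν.trans hν
  have hh0 : ℵ₀ ≤ hFn ν := t.hν.trans (le_max_left _ _)
  have hEne : Nonempty E := by
    obtain ⟨x, -⟩ := hE ∅ ∅ (by simp) (by simp) (by simp)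
    exact ⟨x⟩
  have hE1 : 1 ≤ #E := by
    rw [Cardinal.one_le_iff_ne_zero]
    exact mk_ne_zero E
  let U₂ : Type u := κ₂.ord.ToType ⊕ₗ SuccTy (hFn ν)
  have wf2 : WellFoundedLT U₂ := ⟨Sum.lex_wf wellFounded_lt wellFounded_lt⟩
  have hU₂ : #U₂ = κ₂ := by
    change #(κ₂.ord.ToType ⊕ SuccTy (hFn ν)) = κ₂
    rw [mk_sum, lift_id, lift_id, mk_ord_toType, mk_toType, card_ord]
    exact add_eq_left (hκ0.trans h12) (hsτ.trans (hτ.trans h12))
  have hmul : ∀ κ : Cardinal.{u}, κ₁ ≤ κ → κ * #E = κ := fun κ hκ =>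
    mul_eq_left (hκ0.trans hκ) ((hEτ.trans hτ).trans hκ) (mk_ne_zero E)
  let D' : Type u := U₂ ×ₗ E
  have hD' : #D' = κ₂ := by
    change #(U₂ × E) = κ₂
    rw [mk_prod, lift_id, lift_id, hU₂]
    exact hmul κ₂ h12
  obtain ⟨P⟩ := exists_em t D'
  obtain ⟨e⟩ := hcat.2 P.N P₀ P.mem hP₀ (P.card_eq (hν.trans h12) hD') hP₀c
  obtain ⟨V, hV, hVX⟩ := exists_cover' hκ0 P.top (e.symm '' X) (mk_image_le.trans hX)
  obtain ⟨W₁, hW₁⟩ := le_mk_iff_exists_set.1 (h12.trans hU₂.ge)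
  let Us : Set U₂ := ((fun p : D' => (ofLex p).1) '' V ∪ W₁) ∪
    range fun x : SuccTy (hFn ν) => (toLex (Sum.inr x) : U₂)
  have hUs : #Us = κ₁ := by
    apply le_antisymm
    · refine (mk_union_le _ _).trans (add_le_of_le hκ0 ((mk_union_le _ _).trans
        (add_le_of_le hκ0 (mk_image_le.trans hV) hW₁.le)) (mk_range_le.trans ?_))
      rw [mk_toType, card_ord]
      exact hsτ.trans hτ
    · rw [← hW₁]
      exact mk_le_mk_of_subset fun x hx => Or.inl (Or.inr hx)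
  let D : Type u := Us ×ₗ E
  have hD : #D = κ₁ := by
    change #(Us × E) = κ₁
    rw [mk_prod, lift_id, lift_id, hUs]
    exact hmul κ₁ le_rfl
  have hdir : ∀ s : Set U₂, #s ≤ hFn ν → ∃ x : SuccTy (hFn ν), ∀ y ∈ s,
      y ≤ (toLex (Sum.inr x) : U₂) := by
    intro s hs
    obtain ⟨x, hx⟩ := exists_gt_of_small hh0
      ((fun x : SuccTy (hFn ν) => (toLex (Sum.inr x) : U₂)) ⁻¹' s)
      ((mk_preimage_of_injective _ _ (fun x y h => Sum.inr_injective (toLex.injective h))).trans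
        hs)
    refine ⟨x, fun y hy => ?_⟩
    rcases hy' : (ofLex y : κ₂.ord.ToType ⊕ SuccTy (hFn ν)) with z | z
    · have h1 : y = toLex (Sum.inl z) := hy'
      rw [h1]
      exact (Sum.Lex.inl_lt_inr z x).le
    · have h1 : y = toLex (Sum.inr z) := hy'
      rw [h1]
      refine (Sum.Lex.inr_lt_inr_iff.2 (hx z ?_)).le
      rw [mem_preimage, ← h1]
      exact hy
  have hniceD' : Nice (hFn ν) D' := nice_lex hE fun s hs => by
    obtain ⟨x, hx⟩ := hdir s hs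
    exact ⟨_, hx⟩
  have hniceD : Nice (hFn ν) D := nice_lex hE fun s hs => by
    obtain ⟨x, hx⟩ := hdir (Subtype.val '' s) (mk_image_le.trans hs)
    exact ⟨⟨toLex (Sum.inr x), Or.inr ⟨x, rfl⟩⟩, fun y hy => hx y.1 ⟨y, hy, rfl⟩⟩
  obtain ⟨N⟩ := exists_em t D
  let ι : D → D' := fun d => toLex ((ofLex d).1.1, (ofLex d).2)
  have hι : StrictMono ι := by
    intro d d' hd
    rw [Prod.Lex.lt_iff] at hd ⊢
    rcases hd with hd | hd
    · exact Or.inl hd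
    · exact Or.inr ⟨congrArg Subtype.val hd.1, hd.2⟩
  obtain ⟨i, hi1, hi2⟩ := N.exists_map P ι hι
  refine ⟨⟨D, D', N, P, ι, hι, hniceD, hniceD', i, hi1, hi2, N.card_eq hν hD⟩, e, ?_⟩
  intro x hx
  obtain ⟨s, hs⟩ := hVX (e.symm x) ⟨x, hx, rfl⟩
  let δ : V → D := fun v => toLex (⟨(ofLex v.1).1, Or.inl (Or.inl ⟨v.1, v.2, rfl⟩)⟩, (ofLex v.1).2)
  refine ⟨(s.relabel δ).realize N.c, ?_⟩
  change e (i _) = x
  rw [hi2, Language.Term.realize_relabel]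
  have h1 : s.realize ((fun d => P.c (ι d)) ∘ δ) = e.symm x := hs
  rw [h1, e.apply_symm_apply]

end Vale.Agent.P307.R2.H287
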