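import Vale.Agent.P307.R2.H287.Lang

universe u v w

open FirstOrder Cardinal Set

namespace Vale.Agent.P307.R2.H287

open Vale.Agent.P307 Language.Structure Language.Substructure

section general

variable {L : Language.{u, u}} {M N : Type u} [L.Structure M] [L.Structure N]

theorem AtEq.rel {Q : Type w} {b : Q → M} {b' : Q → N} (h : AtEq L b b') {n : ℕ}
    (r : L.Relations n) (f : Fin n → Q) :
    RelMap r (fun k => b (f k)) ↔ RelMap r (fun k => b' (f k)) :=
  h.2 n r fun k => Language.Term.var (f k)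

theorem AtEq.eq_iff {Q : Type w} {b : Q → M} {b' : Q → N} (h : AtEq L b b') (p q : Q) :
    b p = b q ↔ b' p = b' q :=
  h.1 (Language.Term.var p) (Language.Term.var q)

theorem exists_local {I : Type u} [LinearOrder I] {a : ∀ n : ℕ, Fin n → M} {c : I → N}
    (hc : IsEM L a c) (htop : closure L (range c) = ⊤) (n : ℕ) (y : Fin n → N) :
    ∃ z : Fin n → M, AtEq L y z := by
  classical
  obtain ⟨ρ⟩ := Gr.isEM_local hc htop (Finset.univ.image y)
  let y' : Fin n → closure L ((Finset.univ.image y : Finset N) : Set N) := fun k =>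
    ⟨y k, subset_closure (Finset.mem_coe.2 (Finset.mem_image_of_mem y (Finset.mem_univ k)))⟩
  exact ⟨fun k => ρ (y' k), (AtEq.of_sub y').symm.trans (AtEq.of_embedding ρ y')⟩

end general

section partA

variable {L : Language.{u, u}} {Λ T S Z P D₁ M N : Type u} [(L2 L Λ T S).Structure Z]
  [(exLang L Λ).Structure Z] [(L2 L Λ T S).Structure P] [(exLang L Λ).Structure P]
  [(exLang L Λ).Structure M] [(exLang L Λ).Structure N] [L.Structure N] [L.Structure Z]

/-- The skeleton of `P`. -/
abbrev Gp (L : Language.{u, u}) (Λ T S P : Type u) [(L2 L Λ T S).Structure P] : Type u :=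
  {y : P // RelMap (L := L2 L Λ T S) rSk ![y]}

theorem exists_skel [LinearOrder D₁] {c₁ : D₁ → Z} (hinj : Function.Injective c₁) {g : N ↪[L] Z}
    {tv : T → Z} {Gc : Set S → Z → Z} {dec : Z → ℕ → Z} (hst : IsStr (Λ := Λ) g tv Gc dec c₁)
    (hloc : ∀ (n : ℕ) (y : Fin n → P), ∃ z : Fin n → Z, AtEq (L2 L Λ T S) y z)
    (n : ℕ) (y : Fin n → Gp L Λ T S P) :
    ∃ t : Fin n → D₁, AtEq (L2 L Λ T S) (fun k => (y k).1) (fun k => c₁ (t k)) ∧
      (∀ i j, RelMap (L := L2 L Λ T S) rLt ![(y i).1, (y j).1] ↔ t i < t j) ∧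
      ∀ i j, y i = y j ↔ t i = t j := by
  obtain ⟨z, hz⟩ := hloc n fun k => (y k).1
  have h1 : ∀ k, ∃ t, c₁ t = z k := by
    intro k
    have h2 := (AtEq.rel hz (rSk : (L2 L Λ T S).Relations 1) ![k])
    have h3 : (fun i => (fun k => (y k).1) (![k] i)) = ![(y k).1] := by
      funext i
      fin_cases i
      rfl
    rw [h3] at h2
    exact (hst.hSk _).1 (h2.1 (y k).2)
  choose t ht using h1
  obtain rfl : z = fun k => c₁ (t k) := funext fun k => (ht k).symm
  refine ⟨t, hz, fun i j => ?_, fun i j => ?_⟩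
  · have h2 := (AtEq.rel hz (rLt : (L2 L Λ T S).Relations 2) ![i, j])
    have h3 : (fun k => (fun k => (y k).1) (![i, j] k)) = ![(y i).1, (y j).1] := by
      funext k
      fin_cases k <;> rfl
    rw [h3] at h2
    rw [h2, hst.hLt]
    constructor
    · rintro ⟨s, s', h4, h5, h6⟩
      have h7 : s = t i := hinj h5
      have h8 : s' = t j := hinj h6
      rw [← h7, ← h8]
      exact h4
    · intro h4
      exact ⟨_, _, h4, rfl, rfl⟩
  · rw [Subtype.ext_iff, AtEq.eq_iff hz i j, hinj.eq_iff]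

theorem partA [LinearOrder D₁] {a : ∀ n : ℕ, Fin n → M} {c₁ : D₁ → Z}
    (hc₁ : IsEM (exLang L Λ) a c₁) (hinj : Function.Injective c₁) {g : N ↪[L] Z}
    {tv : T → Z} {Gc : Set S → Z → Z} {dec : Z → ℕ → Z} (hst : IsStr (Λ := Λ) g tv Gc dec c₁)
    (hA : (homA : exLang L Λ →ᴸ L2 L Λ T S).IsExpansionOn P)
    (hloc : ∀ (n : ℕ) (y : Fin n → P), ∃ z : Fin n → Z, AtEq (L2 L Λ T S) y z)
    (hdec : ∀ z, ∃ (m : ℕ) (t : (exLang L Λ).Term (Fin m)) (w : Fin m → D₁),
      z = t.realize (fun i => c₁ (w i)) ∧ ∀ i : Fin m, dec z i = c₁ (w i)) :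
    ∃ lo : LinearOrder (Gp L Λ T S P),
      (∀ y y' : Gp L Λ T S P, lo.lt y y' ↔ RelMap (L := L2 L Λ T S) rLt ![y.1, y'.1]) ∧
      IsEM (exLang L Λ) a (Subtype.val : Gp L Λ T S P → P) ∧
      closure (exLang L Λ) (range (Subtype.val : Gp L Λ T S P → P)) = ⊤ := by
  have key := exists_skel (P := P) hinj hst hloc
  have hA' := hst.hA
  let r : Gp L Λ T S P → Gp L Λ T S P → Prop := fun y y' =>
    RelMap (L := L2 L Λ T S) rLt ![y.1, y'.1]
  have htri : ∀ y y', r y y' ∨ y = y' ∨ r y' y := by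
    intro y y'
    obtain ⟨t, -, h1, h2⟩ := key 2 ![y, y']
    rcases lt_trichotomy (t 0) (t 1) with h | h | h
    · exact Or.inl ((h1 0 1).2 h)
    · exact Or.inr (Or.inl ((h2 0 1).2 h))
    · exact Or.inr (Or.inr ((h1 1 0).2 h))
  have hirr : ∀ y, ¬ r y y := by
    intro y h
    obtain ⟨t, -, h1, -⟩ := key 1 ![y]
    exact lt_irrefl _ ((h1 0 0).1 h)
  have htrans : ∀ x y z, r x y → r y z → r x z := by
    intro x y z hxy hyz
    obtain ⟨t, -, h1, -⟩ := key 3 ![x, y, z]
    exact (h1 0 2).2 (((h1 0 1).1 hxy).trans ((h1 1 2).1 hyz))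
  have hsto : IsStrictTotalOrder (Gp L Λ T S P) r :=
    { trichotomous := fun a b h1 h2 => by
        rcases htri a b with h | h | h
        · exact absurd h h1
        · exact h
        · exact absurd h h2
      irrefl := hirr
      trans := htrans }
  classical
  let lo : LinearOrder (Gp L Λ T S P) := linearOrderOfSTO r
  refine ⟨lo, fun y y' => Iff.rfl, ?_, ?_⟩
  · intro n i hi
    obtain ⟨t, h1, h2, -⟩ := key n i
    have h3 : StrictMono t := fun k k' hk => (h2 k k').1 (hi hk)
    exact (AtEq.red (homA : exLang L Λ →ᴸ L2 L Λ T S) h1).trans (hc₁ n t h3)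
  · rw [eq_top_iff]
    intro y _
    obtain ⟨z, hz⟩ := hloc 1 ![y]
    obtain ⟨m, t, w, h1, h2⟩ := hdec (z 0)
    let tf : Fin m → (L2 L Λ T S).Term (Fin 1) := fun i =>
      Language.Term.func (sF (i : ℕ)) ![Language.Term.var 0]
    have h3 : ∀ (M : Type u) [(L2 L Λ T S).Structure M] (b : Fin 1 → M) (i : Fin m),
        (tf i).realize b = funMap (L := L2 L Λ T S) (sF (i : ℕ)) ![b 0] := by
      intro M _ b i
      change funMap (L := L2 L Λ T S) (sF (i : ℕ)) _ = _
      congr 1
      funext k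
      fin_cases k
      rfl
    have h4 : ∀ i, (tf i).realize z = c₁ (w i) := by
      intro i
      rw [h3, hst.hF]
      exact h2 i
    have h5 : ∀ i, RelMap (L := L2 L Λ T S) rSk ![(tf i).realize ![y] ] := by
      intro i
      have h6 := hz.2 1 rSk ![tf i]
      have h7 : ∀ (M : Type u) [(L2 L Λ T S).Structure M] (b : Fin 1 → M),
          (fun k => ((![tf i] : Fin 1 → _) k).realize b) = ![(tf i).realize b] := by
        intro M _ b
        funext k
        fin_cases k
        rfl
      rw [h7, h7] at h6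
      refine h6.2 ((hst.hSk _).2 ⟨w i, ?_⟩)
      exact (h4 i).symm
    have h6 : y = t.realize (fun i => (tf i).realize ![y]) := by
      have h7 := (hz.1 (Language.Term.var 0)
        (((homA : exLang L Λ →ᴸ L2 L Λ T S).onTerm t).subst tf)).2 (by
          rw [Language.Term.realize_subst, Language.LHom.realize_onTerm]
          change z 0 = _
          rw [h1]
          congr 1
          funext i
          exact (h4 i).symm)
      rw [Language.Term.realize_subst, Language.LHom.realize_onTerm] at h7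
      exact h7
    rw [h6]
    exact Language.Term.realize_mem t _ fun i => subset_closure ⟨⟨_, h5 i⟩, rfl⟩

end partA

end Vale.Agent.P307.R2.H287
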