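import Vale.Agent.P307.R2.H287.PartA

set_option linter.unusedSectionVars false

universe u v w

open FirstOrder Cardinal Set

namespace Vale.Agent.P307.R2.H287

open Vale.Agent.P307 Language.Structure Language.Substructure

section pos

variable {D D' X : Type u} [LinearOrder D] [LinearOrder D'] [LinearOrder X]

open Classical in
/-- The point of `D` which represents `d` with the index `ξ`. -/
noncomputable def pos (ι : D → D') (s : Set D) (j : Set s → X → D) (d : D') (ξ : X) : D :=
  if h : ∃ t : s, ι t = d then h.choose.1 else j {t : s | ι t < d} ξ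

/-- The sequences in the cuts of `s`. -/
def IsCutSeq (s : Set D) (j : Set s → X → D) : Prop :=
  ∀ c : Set s, (∀ t ∈ c, ∀ t' ∉ c, t < t') → StrictMono (j c) ∧
    ∀ ξ, (∀ t ∈ c, (t : D) < j c ξ) ∧ ∀ t ∉ c, j c ξ < (t : D)

theorem pos_lt {ι : D → D'} (hι : StrictMono ι) {s : Set D} {j : Set s → X → D}
    (hj : IsCutSeq s j) {d d' : D'} (hd : d < d') {ξ ξ' : X} (hξ : ξ < ξ') :
    pos ι s j d ξ < pos ι s j d' ξ' := by
  have hcut : ∀ d : D', (¬ ∃ t : s, ι t = d) → ∀ t ∈ {t : s | ι t < d},
      ∀ t' ∉ {t : s | ι t < d}, t < t' := by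
    intro d _ t ht t' ht'
    have h1 : ι t < ι t' := lt_of_lt_of_le ht (not_lt.1 ht')
    exact hι.lt_iff_lt.1 h1
  unfold pos
  by_cases h : ∃ t : s, ι t = d
  · rw [dif_pos h]
    by_cases h' : ∃ t : s, ι t = d'
    · rw [dif_pos h']
      rw [← hι.lt_iff_lt, h.choose_spec, h'.choose_spec]
      exact hd
    · rw [dif_neg h']
      refine ((hj _ (hcut d' h')).2 ξ').1 _ ?_
      change ι h.choose < d'
      rw [h.choose_spec]
      exact hd
  · rw [dif_neg h]
    by_cases h' : ∃ t : s, ι t = d'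
    · rw [dif_pos h']
      refine ((hj _ (hcut d h)).2 ξ).2 _ ?_
      change ¬ ι h'.choose < d
      rw [h'.choose_spec]
      exact not_lt.2 hd.le
    · rw [dif_neg h']
      by_cases he : ∃ t : s, d < ι t ∧ ι t < d'
      · obtain ⟨t, h1, h2⟩ := he
        exact (((hj _ (hcut d h)).2 ξ).2 t (not_lt.2 h1.le)).trans
          (((hj _ (hcut d' h')).2 ξ').1 t h2)
      · have h1 : {t : s | ι t < d} = {t : s | ι t < d'} := by
          ext t
          constructor
          · intro ht
            exact lt_trans ht hd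
          · intro ht
            rcases lt_trichotomy (ι t) d with h2 | h2 | h2
            · exact h2
            · exact absurd ⟨t, h2⟩ h
            · exact absurd ⟨t, h2, ht⟩ he
        rw [h1]
        exact (hj _ (hcut d' h')).1 hξ

end pos

section general

variable {L L₁ : Language.{u, u}} {M N : Type u}

theorem exists_finset_term [L.Structure N] {I : Type u} {c : I → N}
    (htop : closure L (range c) = ⊤) (p : N) :
    ∃ (w : Finset I) (t : L.Term w), t.realize (fun d : w => c d) = p := by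
  classical
  have h1 : p ∈ closure L (range c) := by rw [htop]; trivial
  obtain ⟨t, rfl⟩ := Gr.mem_closure_range.1 h1
  exact ⟨t.varFinset, t.restrictVar fun d => d,
    Language.Term.realize_restrictVar (v := fun d : t.varFinset => c d) c fun _ => rfl⟩

theorem AtEq.exists_sub_embedding [L.Structure M] [L.Structure N] {Q : Type u} {b : Q → M}
    {b' : Q → N} (h : AtEq L b b') : ∃ ρ : closure L (range b) ↪[L] N,
      ∀ (t : L.Term Q) (ht : t.realize b ∈ closure L (range b)),
        ρ ⟨t.realize b, ht⟩ = t.realize b' := by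
  obtain ⟨e, he⟩ := Gr.exists_closure_equiv h
  exact ⟨(closure L (range b')).subtype.comp e.toEmbedding, fun t ht => he t ht⟩

end general

section terms

variable {L : Language.{u, u}} {Λ T D D' X : Type u} [LinearOrder D] [LinearOrder D']

open Classical in
/-- The term for the point `d` in the point number `d` of the skeleton. -/
noncomputable def tm (L : Language.{u, u}) (Λ : Type u) (ι : D → D') (s : Set D) (tc : s → T)
    (d : D') : (L2 L Λ T s).Term (Fin 1) :=
  if h : ∃ t : s, ι t = d then Language.Term.func (sT (tc h.choose)) ![]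
  else Language.Term.func (sG {t : s | ι t < d}) ![Language.Term.var 0]

variable {N Z D₁ : Type u} [L.Structure N] [L.Structure Z] [(exLang L Λ).Structure N]
  [(exLang L Λ).Structure Z]

omit [LinearOrder D] in
theorem realize_tm_Z [LT D₁] {s : Set D} [(L2 L Λ T s).Structure Z] {g : N ↪[L] Z} {tv : T → Z}
    {Gc : Set s → Z → Z} {dec : Z → ℕ → Z} {c₁ : D₁ → Z} (hst : IsStr (Λ := Λ) g tv Gc dec c₁)
    (ι : D → D') (tc : s → T) {cN : D → N} (htc : ∀ t : s, tv (tc t) = g (cN t)) {x : X → Z}
    {j : Set s → X → D} (hGc : ∀ c ξ, Gc c (x ξ) = g (cN (j c ξ))) (d : D') (ξ : X) :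
    (tm L Λ ι s tc d).realize (fun _ => x ξ) = g (cN (pos ι s j d ξ)) := by
  unfold tm pos
  by_cases h : ∃ t : s, ι t = d
  · rw [dif_pos h, dif_pos h]
    change funMap (L := L2 L Λ T s) (sT (tc h.choose)) _ = _
    rw [hst.hT, htc]
  · rw [dif_neg h, dif_neg h]
    change funMap (L := L2 L Λ T s) (sG _) _ = _
    rw [hst.hG, ← hGc]
    rfl

/-- The term of `L2` for a term of the second Skolem structure. -/
noncomputable def tmB {s : Set D} (ι : D → D') (tc : s → T) {Q : Type w} (d : Q → D')
    (t : (exLang L Λ).Term Q) : (L2 L Λ T s).Term Q :=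
  ((homB : exLang L Λ →ᴸ L2 L Λ T s).onTerm t).subst
    fun q => (tm L Λ ι s tc (d q)).relabel fun _ => q

omit [LinearOrder D] in
theorem realize_tmB {s : Set D} (ι : D → D') (tc : s → T) {Q : Type w} (d : Q → D')
    (t : (exLang L Λ).Term Q) {M : Type u} [(L2 L Λ T s).Structure M] (b : Q → M) :
    (tmB ι tc d t).realize b = (t.realize (M := Dn (homB : exLang L Λ →ᴸ L2 L Λ T s) M)
      fun q => (tm L Λ ι s tc (d q)).realize (M := M) fun _ => b q) := by
  unfold tmB
  rw [Language.Term.realize_subst, realize_dn]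
  congr 1
  funext q
  rw [Language.Term.realize_relabel]
  rfl

end terms

section partB

variable {L : Language.{u, u}} {K : AEC L} {Λ T D D' D₁ X M N Z P P' : Type u} [LinearOrder D]
  [LinearOrder D'] [LinearOrder X] {s : Set D}
  [(exLang L Λ).Structure M]
  [L.Structure N] [(exLang L Λ).Structure N] [(exHom L Λ).IsExpansionOn N]
  [L.Structure Z] [(exLang L Λ).Structure Z] [(exHom L Λ).IsExpansionOn Z]
  [(L2 L Λ T s).Structure Z] [(Language.LHom.sumInl : L →ᴸ L2 L Λ T s).IsExpansionOn Z]
  [L.Structure P] [(exLang L Λ).Structure P] [(exHom L Λ).IsExpansionOn P]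
  [L.Structure P'] [(L2 L Λ T s).Structure P']
  [(Language.LHom.sumInl : L →ᴸ L2 L Λ T s).IsExpansionOn P']
  {a : ∀ n : ℕ, Fin n → M} {ι : D → D'} {tc : s → T} {cN : D → N} {c' : D' → P} {v : D' → P'}
  {x : X → Z} {a₂ : ∀ n : ℕ, Fin n → X} {j : Set s → X → D} {g : N ↪[L] Z} {tv : T → Z}
  {Gc : Set s → Z → Z} {dec : Z → ℕ → Z} {c₁ : D₁ → Z}

/-- The new skeleton. -/
noncomputable def yv (L : Language.{u, u}) (Λ : Type u) {P' : Type u} [(L2 L Λ T s).Structure P']
    (ι : D → D') (tc : s → T) (v : D' → P') (d : D') : P' :=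
  (tm L Λ ι s tc d).realize fun _ => v d

omit [LinearOrder X] [(exHom L Λ).IsExpansionOn N] [(exHom L Λ).IsExpansionOn Z]
  [(Language.LHom.sumInl : L →ᴸ L2 L Λ T s).IsExpansionOn Z] [L.Structure P']
  [(Language.LHom.sumInl : L →ᴸ L2 L Λ T s).IsExpansionOn P'] in
theorem atEq_yv [LT D₁] (hst : IsStr (Λ := Λ) g tv Gc dec c₁)
    (htc : ∀ t : s, tv (tc t) = g (cN t)) (hGc : ∀ c ξ, Gc c (x ξ) = g (cN (j c ξ)))
    {Q : Type w} (d : Q → D') (ξ : Q → X)
    (h : AtEq (L2 L Λ T s) (fun q => v (d q)) (fun q => x (ξ q))) :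
    AtEq (exLang L Λ) (M := Dn (homB : exLang L Λ →ᴸ L2 L Λ T s) P')
      (fun q => yv L Λ (P' := P') ι tc v (d q)) (fun q => cN (pos ι s j (d q) (ξ q))) := by
  obtain ⟨f, hf⟩ := hst.hB
  have h1 := AtEq.dn (homB : exLang L Λ →ᴸ L2 L Λ T s)
    (AtEq.map_terms h fun q => (tm L Λ ι s tc (d q)).relabel fun _ => q)
  have h2 : (fun q => ((tm L Λ ι s tc (d q)).relabel fun _ => q).realize (M := P')
      fun q => v (d q)) = fun q => yv L Λ ι tc v (d q) := by
    funext q
    rw [Language.Term.realize_relabel]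
    rfl
  have h3 : (fun q => ((tm L Λ ι s tc (d q)).relabel fun _ => q).realize (M := Z)
      fun q => x (ξ q)) = fun q => f (cN (pos ι s j (d q) (ξ q))) := by
    funext q
    rw [Language.Term.realize_relabel, hf]
    exact realize_tm_Z hst ι tc htc hGc (d q) (ξ q)
  rw [h2, h3] at h1
  exact h1.trans (AtEq.of_embedding f fun q => cN (pos ι s j (d q) (ξ q))).symm

variable {c₁ : D₁ → Z}

/-- `EM(D')` is a substructure of the new model. -/
theorem exists_emb_k [LT D₁] (hst : IsStr (Λ := Λ) g tv Gc dec c₁)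
    (htc : ∀ t : s, tv (tc t) = g (cN t)) (hGc : ∀ c ξ, Gc c (x ξ) = g (cN (j c ξ)))
    (hι : StrictMono ι) (hj : IsCutSeq s j) (ha₂ : ∀ n, StrictMono (a₂ n))
    (hcN : IsEM (exLang L Λ) a cN) (hc' : IsEM (exLang L Λ) a c')
    (htop' : closure (exLang L Λ) (range c') = ⊤)
    (hv : IsEM (L2 L Λ T s) (fun n k => x (a₂ n k)) v) :
    ∃ k : P ↪[L] P', ∀ (Q : Type u) (t : (exLang L Λ).Term Q) (d : Q → D'),
      k (t.realize fun q => c' (d q)) = (tmB ι tc d t).realize fun q => v (d q) := by
  have hy : IsEM (exLang L Λ) (N := Dn (homB : exLang L Λ →ᴸ L2 L Λ T s) P') a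
      (yv L Λ (P' := P') ι tc v) := by
    intro n i hi
    refine (atEq_yv hst htc hGc i (a₂ n) (hv n i hi)).trans (hcN n _ fun k k' hk => ?_)
    exact pos_lt hι hj (hi hk) (ha₂ n hk)
  obtain ⟨k₀, hk₀⟩ := AtEq.exists_embedding (hc'.pattern hy id id fun _ _ => Iff.rfl) htop'
  refine ⟨{ toFun := k₀, inj' := k₀.injective, map_fun' := ?_, map_rel' := ?_ }, ?_⟩
  · intro n f b
    have h1 := k₀.map_fun (Sum.inl f : (exLang L Λ).Functions n) b
    have h2 := (exHom L Λ).map_onFunction f b
    have h3 := (Language.LHom.sumInl : L →ᴸ L2 L Λ T s).map_onFunction (M := P') f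
      fun i => k₀ (b i)
    exact ((congrArg k₀ h2.symm).trans h1).trans h3
  · intro n r b
    have h1 := k₀.map_rel (Sum.inl r : (exLang L Λ).Relations n) b
    have h2 := (exHom L Λ).map_onRelation r b
    have h3 := (Language.LHom.sumInl : L →ᴸ L2 L Λ T s).map_onRelation (M := P') r
      fun i => k₀ (b i)
    exact ((iff_of_eq h3).symm.trans h1).trans (iff_of_eq h2)
  · intro Q t d
    have h1 := hk₀ (t.relabel d)
    have h2 : (t.relabel d).realize (fun i => c' (id i)) = t.realize fun q => c' (d q) := by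
      rw [Language.Term.realize_relabel]
      rfl
    have h3 := (Language.Term.realize_relabel (M := Dn (homB : exLang L Λ →ᴸ L2 L Λ T s) P')
      (t := t) (g := d) (v := fun i => yv L Λ (P' := P') ι tc v (id i))).trans
      (realize_tmB ι tc d t (M := P') fun q => v (d q)).symm
    exact (congrArg k₀ h2.symm).trans (h1.trans h3)

/-- This embedding is strong. -/
theorem emb_k [LT D₁] (hst : IsStr (Λ := Λ) g tv Gc dec c₁)
    (htc : ∀ t : s, tv (tc t) = g (cN t)) (hGc : ∀ c ξ, Gc c (x ξ) = g (cN (j c ξ)))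
    (hι : StrictMono ι) (hj : IsCutSeq s j) (ha₂ : ∀ n, StrictMono (a₂ n))
    (hcN : IsEM (exLang L Λ) a cN) (hc' : IsEM (exLang L Λ) a c')
    (htop' : closure (exLang L Λ) (range c') = ⊤)
    (hv : IsEM (L2 L Λ T s) (fun n k => x (a₂ n k)) v)
    (hclN : Gr.Cl1 K (exHom L Λ) N) (hclZ : Gr.Cl1 K (Language.LHom.sumInl : L →ᴸ L2 L Λ T s) Z)
    (hclP : Gr.Cl1 K (Language.LHom.sumInl : L →ᴸ L2 L Λ T s) P') (hg : K.Emb g) (k : P ↪[L] P')
    (hk : ∀ (Q : Type u) (t : (exLang L Λ).Term Q) (d : Q → D'),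
      k (t.realize fun q => c' (d q)) = (tmB ι tc d t).realize fun q => v (d q)) :
    K.Emb k := by
  classical
  obtain ⟨f, hf⟩ := hst.hB
  have key : ∀ w : Finset D', K.Emb (k.comp ((exHom L Λ).substructureReduct
      (closure (exLang L Λ) (range fun d : w => c' d))).subtype) := by
    intro w
    let idx : w → Fin w.card := fun d => (w.orderIsoOfFin rfl).symm d
    have hidx : StrictMono idx := (w.orderIsoOfFin rfl).symm.strictMono
    have hpos : StrictMono fun d : w => pos ι s j d.1 (a₂ w.card (idx d)) := fun d d' hd =>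
      pos_lt hι hj hd (ha₂ _ (hidx hd))
    have h1 : AtEq (L2 L Λ T s) (fun d : w => v d.1) (fun d : w => x (a₂ w.card (idx d))) :=
      IsEM.finset hv w
    have h2 : AtEq (exLang L Λ) (fun d : w => c' d.1)
        (fun d : w => cN (pos ι s j d.1 (a₂ w.card (idx d)))) :=
      hc'.pattern hcN (fun d : w => d.1) _ fun d d' => hpos.le_iff_le.symm
    obtain ⟨ρ₂, hρ₂⟩ := AtEq.exists_sub_embedding h1
    obtain ⟨ρN, hρN⟩ := AtEq.exists_sub_embedding h2
    have hkw : ∀ t : (exLang L Λ).Term w, k (t.realize fun d : w => c' d.1) =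
        (tmB ι tc (fun d : w => d.1) t).realize fun d : w => v d.1 := fun t =>
      hk w t fun d => d.1
    have hmem : ∀ p : ((exHom L Λ).substructureReduct
        (closure (exLang L Λ) (range fun d : w => c' d))),
        (k.comp ((exHom L Λ).substructureReduct
          (closure (exLang L Λ) (range fun d : w => c' d))).subtype) p ∈
        ((Language.LHom.sumInl : L →ᴸ L2 L Λ T s).substructureReduct
          (closure (L2 L Λ T s) (range fun d : w => v d.1))) := by
      rintro ⟨p, hp⟩
      obtain ⟨t, rfl⟩ := Gr.mem_closure_range.1 hp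
      have h3 : k (t.realize fun d : w => c' d.1) ∈
          closure (L2 L Λ T s) (range fun d : w => v d.1) := by
        rw [hkw]
        exact Gr.mem_closure_range.2 ⟨_, rfl⟩
      exact h3
    have hcomp : (Gr.subEmb (Language.LHom.sumInl : L →ᴸ L2 L Λ T s) _ ρ₂).comp
        (Language.Embedding.codRestrict _ _ hmem) = g.comp (Gr.subEmb (exHom L Λ) _ ρN) := by
      apply Language.Embedding.ext
      rintro ⟨p, hp⟩
      obtain ⟨t, rfl⟩ := Gr.mem_closure_range.1 hp
      have h3 : ρN ⟨t.realize (fun d : w => c' d.1), hp⟩ = _ := hρN t hp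
      change ρ₂ ⟨k (t.realize fun d : w => c' d.1), _⟩ = g (ρN ⟨t.realize _, hp⟩)
      rw [h3]
      have h4 : ∀ (z : P') (hz : z ∈ closure (L2 L Λ T s) (range fun d : w => v d.1)),
          z = (tmB ι tc (fun d : w => d.1) t).realize (fun d : w => v d.1) →
          ρ₂ ⟨z, hz⟩ = (tmB ι tc (fun d : w => d.1) t).realize
            fun d : w => x (a₂ w.card (idx d)) := by
        rintro z hz rfl
        exact hρ₂ _ hz
      refine (h4 _ _ (hkw t)).trans ?_
      rw [realize_tmB, ← hf]
      have h5 : (fun q : w => (tm L Λ ι s tc q.1).realize (M := Z)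
          fun _ => x (a₂ w.card (idx q))) =
          fun q : w => f (cN (pos ι s j q.1 (a₂ w.card (idx q)))) := by
        funext q
        rw [hf]
        exact realize_tm_Z hst ι tc htc hGc q.1 (a₂ w.card (idx q))
      exact (congrArg (fun b => t.realize (M := Dn (homB : exLang L Λ →ᴸ L2 L Λ T s) Z) b)
        h5).trans (Language.HomClass.realize_term (g := f))
    have h6 : K.Emb (Language.Embedding.codRestrict _ _ hmem) := by
      refine AEC.Emb.of_comp (hclZ.emb _ ρ₂) ?_
      rw [hcomp]
      exact AEC.Emb.comp hg (hclN.emb _ ρN)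
    have h7 := AEC.Emb.comp (AEC.emb_subtype.2 (hclP (closure (L2 L Λ T s)
      (range fun d : w => v d.1)))) h6
    have h8 : (((Language.LHom.sumInl : L →ᴸ L2 L Λ T s).substructureReduct
        (closure (L2 L Λ T s) (range fun d : w => v d.1))).subtype).comp
        (Language.Embedding.codRestrict _ _ hmem) = (k.comp ((exHom L Λ).substructureReduct
      (closure (exLang L Λ) (range fun d : w => c' d))).subtype) := by
      apply Language.Embedding.ext
      intro p
      rfl
    rw [← h8]
    exact h7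
  have h1 := AEC.le_iSup_finset (K := K) (X := D') (fun w => (k.comp ((exHom L Λ).substructureReduct
      (closure (exLang L Λ) (range fun d : w => c' d))).subtype).toHom.range) ?_ key
  · unfold AEC.Emb
    convert h1 using 1
    apply le_antisymm
    · rintro _ ⟨p, rfl⟩
      obtain ⟨w, t, rfl⟩ := exists_finset_term htop' p
      refine (le_iSup (fun w : Finset D' => (k.comp ((exHom L Λ).substructureReduct
        (closure (exLang L Λ) (range fun d : w => c' d))).subtype).toHom.range) w) ?_
      exact ⟨⟨_, Gr.mem_closure_range.2 ⟨t, rfl⟩⟩, rfl⟩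
    · refine iSup_le fun w => ?_
      rintro _ ⟨p, rfl⟩
      exact ⟨p.1, rfl⟩
  · rintro w w' hw _ ⟨⟨p, hp⟩, rfl⟩
    refine ⟨⟨p, ?_⟩, rfl⟩
    refine closure_mono ?_ hp
    rintro _ ⟨d, rfl⟩
    exact ⟨⟨d.1, hw d.2⟩, rfl⟩

end partB

end Vale.Agent.P307.R2.H287
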