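import Vale.Agent.P307.R2.H287.PartB

set_option linter.unusedSectionVars false

universe u v w

open FirstOrder Cardinal Set

namespace Vale.Agent.P307.R2.H287

open Vale.Agent.P307 Language.Structure Language.Substructure

theorem exists_cutSeq {h : Cardinal.{u}} (hh : ℵ₀ ≤ h) {D : Type u} [LinearOrder D]
    (hD : Nice h D) (s : Set D) (hs : #s ≤ h) : ∃ j : Set s → SuccTy h → D, IsCutSeq s j := by
  classical
  have h1 : ∀ c : Set s, ∃ j : SuccTy h → D, (∀ t ∈ c, ∀ t' ∉ c, t < t') → StrictMono j ∧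
      ∀ ξ, (∀ t ∈ c, (t : D) < j ξ) ∧ ∀ t ∉ c, j ξ < (t : D) := by
    intro c
    by_cases hc : ∀ t ∈ c, ∀ t' ∉ c, t < t'
    · obtain ⟨j, h2, h3⟩ := exists_seq hh hD (Subtype.val '' c) (Subtype.val '' cᶜ)
        (mk_image_le.trans ((mk_set_le _).trans hs)) (mk_image_le.trans ((mk_set_le _).trans hs))
        (by
          rintro _ ⟨t, ht, rfl⟩ _ ⟨t', ht', rfl⟩
          exact hc t ht t' ht')
      exact ⟨j, fun _ => ⟨h2, fun ξ => ⟨fun t ht => (h3 ξ).1 _ ⟨t, ht, rfl⟩,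
        fun t ht => (h3 ξ).2 _ ⟨t, ht, rfl⟩⟩⟩⟩
    · obtain ⟨d, -⟩ := hD ∅ ∅ (by simp) (by simp) (by simp)
      exact ⟨fun _ => d, fun h => absurd h hc⟩
  choose j hj using h1
  exact ⟨j, fun c hc => hj c hc⟩

theorem exists_cover' {L : Language.{u, u}} {N I : Type u} [LinearOrder I] [L.Structure N]
    {c : I → N}
    {μ : Cardinal.{u}} (hμ : ℵ₀ ≤ μ) (hctop : closure L (range c) = ⊤) (A : Set N) (hA : #A ≤ μ) :
    ∃ V : Set I, #V ≤ μ ∧ ∀ x ∈ A, ∃ t : L.Term V, t.realize (fun v : V => c v) = x := by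
  classical
  obtain ⟨V, h1, h2⟩ := exists_cover hμ hctop A hA
  refine ⟨V, h1, fun x hx => ?_⟩
  obtain ⟨t, h3, h4⟩ := h2 x hx
  refine ⟨t.restrictVar fun v => ⟨v.1, h4 v.1 (by convert v.2)⟩, ?_⟩
  rw [← h3]
  exact Language.Term.realize_restrictVar (v := fun v : V => c v) c fun _ => rfl

theorem exists_dec {L : Language.{u, u}} {Z D₁ : Type u} [L.Structure Z] {c₁ : D₁ → Z}
    (htop : closure L (range c₁) = ⊤) : ∃ dec : Z → ℕ → Z, ∀ z, ∃ (m : ℕ) (t : L.Term (Fin m))
      (w : Fin m → D₁), z = t.realize (fun i => c₁ (w i)) ∧ ∀ i : Fin m, dec z i = c₁ (w i) := by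
  classical
  have h1 : ∀ z : Z, ∃ (d : ℕ → Z) (m : ℕ) (t : L.Term (Fin m)) (w : Fin m → D₁),
      z = t.realize (fun i => c₁ (w i)) ∧ ∀ i : Fin m, d i = c₁ (w i) := by
    intro z
    obtain ⟨w, t, ht⟩ := exists_finset_term htop z
    refine ⟨fun i => if h : i < w.card then c₁ (w.equivFin.symm ⟨i, h⟩) else z, w.card,
      t.relabel w.equivFin, fun i => w.equivFin.symm i, ?_, fun i => ?_⟩
    · rw [Language.Term.realize_relabel, ← ht]
      congr 1
      funext d
      simp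
    · exact dif_pos i.2
  choose dec h2 using h1
  exact ⟨dec, h2⟩

theorem exists_nice_ext (μ : Cardinal.{u}) (hμ : ℵ₀ ≤ μ) (G : Type u) [LinearOrder G] :
    ∃ (I : Type u) (_ : LinearOrder I) (σ : G → I), Nice μ I ∧ StrictMono σ := by
  obtain ⟨I, hI, h1, -⟩ := exists_nice (max μ #G) 0
  obtain ⟨W, -, h2, -, h3⟩ := OrdPat.exists_extend (I := G) (I' := I) (μ := max μ #G)
    (hμ.trans (le_max_left _ _)) h1 (W := ∅) (by
      intro p hp
      exact absurd hp (by simp)) (by simp) Set.univ (by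
      rw [mk_univ]
      exact le_max_right _ _)
  choose σ hσ using fun v : G => h3 v trivial
  exact ⟨I, hI, σ, h1.mono (le_max_left _ _), fun v v' hv => (h2.lt_iff (hσ v) (hσ v')).1 hv⟩

section consts

variable {L : Language.{u, u}} {Λ T D D' D₁ N Z P' X : Type u} {s : Set D}

/-- The values of the constants. -/
def kap (L : Language.{u, u}) (Λ : Type u) {T S : Type u} (P' : Type u)
    [(L2 L Λ T S).Structure P'] (τ : T) : P' :=
  funMap (L := L2 L Λ T S) (sT τ) ![]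

theorem atEq_kap [L.Structure N] [L.Structure Z] [(exLang L Λ).Structure N]
    [(exLang L Λ).Structure Z] [(L2 L Λ T s).Structure Z] [(L2 L Λ T s).Structure P'] [LT D₁]
    {g : N ↪[L] Z} {tv : T → Z} {Gc : Set s → Z → Z} {dec : Z → ℕ → Z} {c₁ : D₁ → Z}
    (hst : IsStr (Λ := Λ) g tv Gc dec c₁) (y : Fin 0 → P') (z : Fin 0 → Z)
    (h : AtEq (L2 L Λ T s) y z) : AtEq (L2 L Λ T s) (kap L Λ (S := s) P') tv := by
  have h1 := AtEq.map_terms h fun τ : T =>
    (Language.Term.func (sT τ) ![] : (L2 L Λ T s).Term (Fin 0))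
  have h2 : (fun τ : T => (Language.Term.func (sT τ) ![] : (L2 L Λ T s).Term (Fin 0)).realize y) =
      kap L Λ (S := s) P' := by
    funext τ
    change funMap (L := L2 L Λ T s) (sT τ) _ = funMap (L := L2 L Λ T s) (sT τ) _
    congr 1
    exact Subsingleton.elim _ _
  have h3 : (fun τ : T => (Language.Term.func (sT τ) ![] : (L2 L Λ T s).Term (Fin 0)).realize z) =
      tv := by
    funext τ
    exact hst.hT τ _
  rw [h2, h3] at h1
  exact h1

theorem yv_eq_kap [(L2 L Λ T s).Structure P'] [LinearOrder D] [LinearOrder D'] {ι : D → D'}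
    (hι : StrictMono ι) (tc : s → T) (v : D' → P') (t : s) :
    yv L Λ (P' := P') ι tc v (ι t) = kap L Λ (S := s) P' (tc t) := by
  have h : ∃ t' : s, ι t' = ι t := ⟨t, rfl⟩
  have h1 : h.choose = t := Subtype.ext (hι.injective h.choose_spec)
  unfold yv tm
  rw [dif_pos h, h1]
  change funMap (L := L2 L Λ T s) (sT (tc t)) _ = funMap (L := L2 L Λ T s) (sT (tc t)) _
  congr 1
  exact Subsingleton.elim _ _

end consts

end Vale.Agent.P307.R2.H287
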