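import Vale.Agent.P307.R2.H287.Rep

set_option linter.unusedSectionVars false

universe u v w

open FirstOrder Cardinal Set

namespace Vale.Agent.P307.R2.H287

open Vale.Agent.P307 Vale.Agent.P307.H304 Language.Structure Language.Substructure

variable {L : Language.{u, u}} {K : AEC L} {ℓ θ : Cardinal.{u}} {α κf : Cardinal.{u} → Cardinal.{u}}
  {M N P : Type u} [L.Structure M] [L.Structure N] [L.Structure P]

theorem EM.exists_hom {t : Tpl K ℓ} {J : Type u} [LinearOrder J] [Nonempty J] (E : EM t J)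
    {χ : Cardinal.{u}} (hℓχ : ℓ ≤ χ) {σ Q : Type u} (hσ : #σ ≤ χ) (hQ : #Q = χ)
    {a μ₁ : Cardinal.{u}} (h2a : 2 ^ χ ≤ a) (hμa : Order.succ μ₁ ≤ a) (hμ₁ : ℵ₀ ≤ μ₁)
    {X : Type u} [LinearOrder X] [WellFoundedLT X] (hX : arrowFn 2 a a ≤ #X) (e : X → σ → E.N) :
    ∃ (hm : SuccTy μ₁ → X) (s : σ → (exLang L t.Λ).Term Q) (w : SuccTy μ₁ → Q → J),
      StrictMono hm ∧ (∀ j k, e (hm j) k = (s k).realize fun q => E.c (w j q)) ∧
      ∀ i j i' j', i < j → i' < j' →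
        pat (Sum.elim (w i) (w j)) = pat (Sum.elim (w i') (w j')) := by
  classical
  have hχ0 : ℵ₀ ≤ χ := t.hν.trans hℓχ
  have h2χ0 : ℵ₀ ≤ (2 : Cardinal.{u}) ^ χ := hχ0.trans (cantor χ).le
  choose s₀ w₀ hsw using fun j => E.exists_terms hχ0 hσ hQ (e j)
  let f : (Fin 2 → X) → ((σ → (exLang L t.Λ).Term Q) × Set (Q × Q)) ×
      ((σ → (exLang L t.Λ).Term Q) × Set ((Q ⊕ Q) × (Q ⊕ Q))) := fun b =>
    ((s₀ (b 0), ∅), (s₀ (b 1), pat (Sum.elim (w₀ (b 0)) (w₀ (b 1)))))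
  have hcol : #(((σ → (exLang L t.Λ).Term Q) × Set (Q × Q)) ×
      ((σ → (exLang L t.Λ).Term Q) × Set ((Q ⊕ Q) × (Q ⊕ Q)))) ≤ a := by
    refine le_trans ?_ h2a
    rw [mk_prod, lift_id, lift_id]
    refine mul_le_of_le h2χ0 (mk_codes_le hχ0 (t.hx.trans hℓχ) hσ hQ.le hQ.le)
      (mk_codes_le hχ0 (t.hx.trans hℓχ) hσ hQ.le ?_)
    simp only [mk_sum, lift_id]
    exact add_le_of_le hχ0 hQ.le hQ.le
  obtain ⟨H, hH1, hH2⟩ := arrowFn_spec 2 a a _ hcol X hX f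
  obtain ⟨hm₀, hhm₀⟩ := exists_strictMono_toType (H := H) (κ := Order.succ μ₁) (hμa.trans hH1)
  have hst : ∀ i j : SuccTy μ₁, i < j → StrictMono ![(hm₀ i).1, (hm₀ j).1] := by
    intro i j hij p q hpq
    fin_cases p <;> fin_cases q
    · exact absurd hpq (lt_irrefl _)
    · exact hhm₀ hij
    · exact absurd hpq (by decide)
    · exact absurd hpq (lt_irrefl _)
  have hin : ∀ (i j : SuccTy μ₁) (p : Fin 2), (![(hm₀ i).1, (hm₀ j).1] : Fin 2 → X) p ∈ H := by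
    intro i j p
    fin_cases p
    · exact (hm₀ i).2
    · exact (hm₀ j).2
  have key : ∀ i j i' j' : SuccTy μ₁, i < j → i' < j' →
      s₀ (hm₀ i).1 = s₀ (hm₀ i').1 ∧ pat (Sum.elim (w₀ (hm₀ i).1) (w₀ (hm₀ j).1)) =
        pat (Sum.elim (w₀ (hm₀ i').1) (w₀ (hm₀ j').1)) := by
    intro i j i' j' hij hij'
    have h1 := hH2 _ _ (hst i j hij) (hst i' j' hij') (hin i j) (hin i' j')
    exact ⟨congrArg (fun z => z.1.1) h1, congrArg (fun z => z.2.2) h1⟩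
  obtain ⟨j₀, -⟩ := exists_gt_of_small hμ₁ (∅ : Set (SuccTy μ₁)) (by simp)
  have hgt : ∀ j : SuccTy μ₁, ∃ k, j < k ∧ j₀ < k := by
    intro j
    obtain ⟨k, hk⟩ := exists_gt_of_small hμ₁ ({j, j₀} : Set (SuccTy μ₁))
      ((Set.Finite.lt_aleph0 (by simp)).le.trans hμ₁)
    exact ⟨k, hk j (by simp), hk j₀ (by simp)⟩
  refine ⟨fun j => (hm₀ j).1, s₀ (hm₀ j₀).1, fun j => w₀ (hm₀ j).1, fun i j hij => hhm₀ hij,
    fun j k => ?_, fun i j i' j' h1 h2 => (key i j i' j' h1 h2).2⟩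
  obtain ⟨k', h1, h2⟩ := hgt j
  rw [hsw, (key j k' j₀ k' h1 h2).1]


theorem mk_Ici_succTy {μ : Cardinal.{u}} (hμ : ℵ₀ ≤ μ) (i : SuccTy μ) : μ < #(Ici i) := by
  by_contra hcon
  rw [not_lt] at hcon
  have h1 : #(SuccTy μ) ≤ μ := by
    rw [← mk_univ, ← Iio_union_Ici (a := i)]
    exact (mk_union_le _ _).trans (add_le_of_le hμ (mk_Iio_succTy i) hcon)
  rw [mk_toType, card_ord] at h1
  exact absurd (Order.lt_succ μ) (not_lt.2 h1)

namespace Clo

variable (h : Clo K ℓ α κf θ)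
include h

/-- Realization of small pieces of a type over a set of size `θ`. -/
theorem rChi_main (hM : K.mem M) (hMθ : θ ≤ #M) {t : Tpl K ℓ} {J : Type u} [LinearOrder J]
    (hJ : Nice θ J) (E : EM t J) (G : Set (M × E.N)) (hG : #G ≤ θ)
    (hLG : ∀ R ⊆ G, #R < θ → SG L ℓ θ R) {χ : Cardinal.{u}} (hℓχ : ℓ ≤ χ) (hχ : χ < θ)
    {σ Q : Type u} (hσ : #σ ≤ χ) (hQ : #Q = χ) (c : σ → M) :
    ∃ c' : σ → E.N, ∀ b : Q → M × E.N, (∀ k, b k ∈ G) →
      SG L ℓ θ (range fun k : Q ⊕ σ => (Sum.elim (fun k => (b k).1) c k,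
        Sum.elim (fun k => (b k).2) c' k)) := by
  classical
  have hχ0 : ℵ₀ ≤ χ := h.h0.trans hℓχ
  have hJne : Nonempty J := h.nonempty_nice hJ
  have hEθ : θ ≤ #E.N := (h.le_mk_nice hJ).trans E.le_card
  have hχν : χ ≤ α χ := (h.stab χ hℓχ).1
  have hν : α χ < θ := h.hα χ hχ
  have hhf : hanf (2 ^ (thr κf (α χ))) < θ := h.hh _ (h.hp _ (h.hκ _ hν))
  let μ₁ := max χ (hanf (2 ^ (thr κf (α χ))))
  have hμ₁ : μ₁ < θ := max_lt hχ hhf
  have hμ₁0 : ℵ₀ ≤ μ₁ := hχ0.trans (le_max_left _ _)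
  have hsucc : Order.succ μ₁ < θ := (Order.succ_le_of_lt (cantor μ₁)).trans_lt (h.hp _ hμ₁)
  let a := max (2 ^ χ) (Order.succ μ₁)
  have ha : a < θ := max_lt (h.hp χ hχ) hsucc
  let X : Type u := (arrowFn 2 a a).ord.ToType
  have hX : #X = arrowFn 2 a a := mk_ord_toType _
  have hXθ : #X < θ := hX.trans_lt (h.harr a ha)
  let ρ := max χ #X
  have hρ : ρ < θ := max_lt hχ hXθ
  have hℓρ : ℓ ≤ ρ := hℓχ.trans (le_max_left _ _)
  obtain ⟨e, A, hA1, hA2, hA3⟩ := h.exists_approx hM E.mem hMθ hEθ G hLG hℓρ hρ (ι := Q) (X := X)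
    (hQ.le.trans (le_max_left _ _)) (hσ.trans (le_max_left _ _)) (le_max_right _ _) c
  obtain ⟨hm, s, w, hm1, hm2, hm3⟩ := E.exists_hom hℓχ hσ hQ (a := a) (μ₁ := μ₁) (le_max_left _ _)
    (le_max_right _ _) hμ₁0 hX.ge e
  obtain ⟨y₀, -⟩ := exists_gt_of_small hμ₁0 (∅ : Set (SuccTy μ₁)) (by simp)
  have hYne : Nonempty (SuccTy μ₁) := ⟨y₀⟩
  have hgt : ∀ i j : SuccTy μ₁, ∃ k, i < k ∧ j < k := by
    intro i j
    obtain ⟨k, hk⟩ := exists_gt_of_small hμ₁0 ({i, j} : Set (SuccTy μ₁))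
      ((Set.Finite.lt_aleph0 (by simp)).le.trans hμ₁0)
    exact ⟨k, hk i (by simp), hk j (by simp)⟩
  have hQQ : ∀ q q' i j, w i q ≤ w i q' ↔ w j q ≤ w j q' := by
    intro q q' i j
    obtain ⟨k, hk1, hk2⟩ := hgt i j
    exact Set.ext_iff.1 (hm3 i k j k hk1 hk2) (Sum.inl q, Sum.inl q')
  have hqt : ∀ q t, EvC (fun j => w j q ≤ t) ∧ EvC (fun j => t ≤ w j q) := fun q t =>
    evC_le (fun j => w j q) (fun i j i' j' h1 h2 =>
      Set.ext_iff.1 (hm3 i j i' j' h1 h2) (Sum.inl q, Sum.inr q)) t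
  -- the support
  choose wf tf hwf using fun x : E.N => exists_finset_term E.top x
  let T : Set J := ⋃ x : (Prod.snd '' G : Set E.N), (wf x.1 : Set J)
  have hT : #T ≤ θ := mk_iUnion_le_of_le h.hθ0 (mk_image_le.trans hG) _ fun x =>
    ((wf x.1).finite_toSet.lt_aleph0.le).trans h.hθ0
  let vj : SuccTy μ₁ → T ⊕ Q → J := fun j => Sum.elim Subtype.val (w j)
  have hev : ∀ z z', EvC fun j => vj j z ≤ vj j z' := by
    rintro (z | z) (z' | z')
    · exact evC_const fun i j => Iff.rfl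
    · exact (hqt z' z.1).2
    · exact (hqt z z'.1).1
    · exact evC_const fun i j => hQQ z z' i j
  let le : T ⊕ Q → T ⊕ Q → Prop := fun z z' => ∃ j₀, ∀ j, j₀ ≤ j → vj j z ≤ vj j z'
  obtain ⟨ws, hws⟩ := exists_realize_preorder h.hθ0 hJ (T := T) (Q := Q) hT
    (hQ.le.trans hχ.le) Subtype.val le (fun z => ⟨y₀, fun j _ => le_rfl⟩)
    (fun x y z ⟨j₀, h1⟩ ⟨j₁, h2⟩ => ⟨max j₀ j₁, fun j hj =>
      (h1 j ((le_max_left _ _).trans hj)).trans (h2 j ((le_max_right _ _).trans hj))⟩)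
    (fun x y => by
      obtain ⟨j₀, h1⟩ := hev x y
      by_cases h2 : vj j₀ x ≤ vj j₀ y
      · exact Or.inl ⟨j₀, fun j hj => (h1 j hj).2 h2⟩
      · exact Or.inr ⟨j₀, fun j hj => (not_le.1 fun h3 => h2 ((h1 j hj).1 h3)).le⟩)
    (fun x y => ⟨fun ⟨j₀, h1⟩ => h1 j₀ le_rfl, fun h1 => ⟨y₀, fun j _ => h1⟩⟩)
  let vs : T ⊕ Q → J := Sum.elim Subtype.val ws
  refine ⟨fun k => (s k).realize fun q => E.c (ws q), fun b hb => ?_⟩
  -- the small support
  have hbT : ∀ (k : Q) (d : wf (b k).2), d.1 ∈ T := fun k d =>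
    mem_iUnion.2 ⟨⟨(b k).2, ⟨b k, hb k, rfl⟩⟩, d.2⟩
  let Tb : Set T := ⋃ k : Q, {d | d.1 ∈ wf (b k).2}
  have hTb : #Tb ≤ χ := mk_iUnion_le_of_le hχ0 hQ.le _ fun k => by
    refine le_trans ?_ hχ0
    refine (Set.Finite.lt_aleph0 ?_).le
    exact (wf (b k).2).finite_toSet.preimage Subtype.val_injective.injOn
  have hTbm : ∀ (k : Q) (d : wf (b k).2), (⟨d.1, hbT k d⟩ : T) ∈ Tb := fun k d =>
    mem_iUnion.2 ⟨k, d.2⟩
  let emb : Tb ⊕ Q → T ⊕ Q := Sum.map Subtype.val id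
  have hTbQ : #(Tb ⊕ Q) ≤ χ := by
    simp only [mk_sum, lift_id]
    exact add_le_of_le hχ0 hTb hQ.le
  choose j₀ hj₀ using fun z : (Tb ⊕ Q) × (Tb ⊕ Q) => hev (emb z.1) (emb z.2)
  obtain ⟨js, hjs⟩ := exists_gt_of_small hμ₁0 (range j₀) (mk_range_le.trans (by
    rw [mk_prod]
    simp only [lift_id]
    exact (mul_le_of_le hχ0 hTbQ hTbQ).trans (le_max_left _ _)))
  have hpat : ∀ j, js ≤ j → ∀ z z' : Tb ⊕ Q, vj j (emb z) ≤ vj j (emb z') ↔
      vs (emb z) ≤ vs (emb z') := by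
    intro j hj z z'
    have h1 : j₀ (z, z') ≤ j := (hjs _ ⟨(z, z'), rfl⟩).le.trans hj
    have h2 : ∀ j, j₀ (z, z') ≤ j → (vj j (emb z) ≤ vj j (emb z') ↔
        vj (j₀ (z, z')) (emb z) ≤ vj (j₀ (z, z')) (emb z')) := hj₀ (z, z')
    rw [h2 j h1, hws]
    constructor
    · intro h3
      exact ⟨_, fun j' hj' => (h2 j' hj').2 h3⟩
    · rintro ⟨j₁, h3⟩
      exact (h2 _ (le_max_left _ _)).1 (h3 (max (j₀ (z, z')) j₁) (le_max_right _ _))
  have claim1 : ∀ j, js ≤ j → SG L ℓ θ (range fun k : Q ⊕ σ =>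
      (Sum.elim (fun k => (b k).2) (e (hm j)) k, Sum.elim (fun k => (b k).2)
        (fun k => (s k).realize fun q => E.c (ws q)) k)) := by
    intro j hj
    let ss : Q ⊕ σ → (exLang L t.Λ).Term (Tb ⊕ Q) := Sum.elim
      (fun k => (tf (b k).2).relabel fun d => Sum.inl ⟨⟨d.1, hbT k d⟩, hTbm k d⟩)
      (fun k => (s k).relabel Sum.inr)
    have h1 := h.sg_pattern E E hJ hJ (hTbQ.trans_lt hχ) (fun z => vj j (emb z))
      (fun z => vs (emb z)) (hpat j hj) ss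
    convert h1 using 3 with k
    rcases k with k | k
    · refine Prod.ext ?_ ?_
      · change (b k).2 = ((tf (b k).2).relabel _).realize _
        rw [Language.Term.realize_relabel]
        exact (hwf (b k).2).symm
      · change (b k).2 = ((tf (b k).2).relabel _).realize _
        rw [Language.Term.realize_relabel]
        exact (hwf (b k).2).symm
    · refine Prod.ext ?_ ?_
      · change e (hm j) k = ((s k).relabel _).realize _
        rw [Language.Term.realize_relabel, hm2]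
        rfl
      · change (s k).realize _ = ((s k).relabel _).realize _
        rw [Language.Term.realize_relabel]
        rfl
  have hQσ : #(Q ⊕ σ) ≤ χ := by
    simp only [mk_sum, lift_id]
    exact add_le_of_le hχ0 hQ.le hσ
  have claim2 : ∃ j, js ≤ j ∧ SG L ℓ θ (range fun k : Q ⊕ σ =>
      (Sum.elim (fun k => (b k).1) c k, Sum.elim (fun k => (b k).2) (e (hm j)) k)) := by
    by_contra hcon
    push Not at hcon
    choose bj hbj1 hbj2 hbj3 using fun j : Ici js => hA3 b hb (hm j.1)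
    have hlev : ∀ {M' N' : Type u} [L.Structure M'] [L.Structure N'] (x : Q ⊕ σ → M')
        (y : Q ⊕ σ → N'), SG L ℓ θ (range fun k => (x k, y k)) → EqS L (α χ) x y := by
      intro M' N' _ _ x y hxy
      exact hxy.2 (α χ) (hℓχ.trans hχν) (mk_range_le.trans (hQσ.trans hχν)) hν
    refine noOP h.hK h.hunb (hℓχ.trans hχν) (X := Ici js)
      ((le_max_right _ _).trans (mk_Ici_succTy hμ₁0 js).le) ?_ E.mem ((h.hκ _ hν).le.trans hEθ) ?_
      (hQ.le.trans hχν) (hσ.trans hχν) (fun j k => (bj j k).2) (fun j => e (hm j.1))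
      (Sum.elim (fun k => (b k).1) c) ?_
    · exact ((ofNat_lt_aleph0.le).trans hμ₁0).trans (mk_Ici_succTy hμ₁0 js).le
    · refine (mk_set_le _).trans ?_
      rw [mk_toType, card_ord]
      exact hsucc.le.trans hEθ
    · intro i j
      constructor
      · intro h1
        by_contra hij
        rw [not_lt] at hij
        apply hcon j.1 j.2
        have h2 := hbj3 i (hm j.1) (hm1.monotone hij)
        have h3 := (hlev _ _ h2).trans h1
        exact h.sg_of_good hM E.mem hMθ hEθ hℓχ hχ (mk_range_le.trans hQσ) h3.symm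
      · intro hij
        have h2 : SG L ℓ θ (range fun k : Q ⊕ σ => (Sum.elim (fun k => (bj i k).1) c k,
            Sum.elim (fun k => (bj i k).2) (e (hm j.1)) k)) := by
          refine h.sg_subset (hA2 (hm j.1)) ?_
          rintro _ ⟨k, rfl⟩
          rcases k with k | k
          · exact Or.inl (hbj1 i k _ (hm1 hij))
          · exact Or.inr ⟨k, rfl⟩
        exact ((hlev _ _ (hbj2 i)).trans (hlev _ _ h2)).symm
  obtain ⟨j, hj1, hj2⟩ := claim2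
  refine h.sg_subset (h.sg_comp hj2 (claim1 j hj1)) ?_
  rintro _ ⟨k, rfl⟩
  exact ⟨_, ⟨k, rfl⟩, ⟨k, rfl⟩⟩

end Clo

end Vale.Agent.P307.R2.H287
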