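import Vale.Agent.P307.R2.H287.RChi

set_option linter.unusedSectionVars false

universe u v w

open FirstOrder Cardinal Set

namespace Vale.Agent.P307.R2.H287

open Vale.Agent.P307 Vale.Agent.P307.H304 Language.Structure Language.Substructure

variable {L : Language.{u, u}} {K : AEC L} {ℓ θ : Cardinal.{u}} {α κf : Cardinal.{u} → Cardinal.{u}}
  {M N P : Type u} [L.Structure M] [L.Structure N] [L.Structure P]

/-- All small pieces are good. -/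
def LG (L : Language.{u, u}) (ℓ θ : Cardinal.{u}) {M N : Type u} [L.Structure M] [L.Structure N]
    (G : Set (M × N)) : Prop :=
  ∀ R ⊆ G, #R < θ → SG L ℓ θ R

theorem LG.subset {G G' : Set (M × N)} (h : LG L ℓ θ G') (hG : G ⊆ G') : LG L ℓ θ G :=
  fun R hR => h R (hR.trans hG)

theorem LG.swap {G : Set (M × N)} (h : LG L ℓ θ G) : LG L ℓ θ (Prod.swap ⁻¹' G : Set (N × M)) := by
  intro R hR hRθ
  have h1 := (h (Prod.swap ⁻¹' R) (fun p hp => hR hp) ((mk_swap R).trans_lt hRθ)).swap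
  exact h1

namespace Clo

variable (h : Clo K ℓ α κf θ)
include h

theorem rChi (hM : K.mem M) (hMθ : θ ≤ #M) {t : Tpl K ℓ} {J : Type u} [LinearOrder J]
    (hJ : Nice θ J) (E : EM t J) (G : Set (M × E.N)) (hG : #G ≤ θ)
    (hLG : LG L ℓ θ G) {χ : Cardinal.{u}} (hχ : χ < θ)
    {σ : Type u} (hσ : #σ < θ) (c : σ → M) :
    ∃ c' : σ → E.N, ∀ R ⊆ G, #R ≤ χ → SG L ℓ θ (R ∪ range fun k => (c k, c' k)) := by
  classical
  let χ' := max χ (max ℓ #σ)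
  have hχ' : χ' < θ := max_lt hχ (max_lt h.hℓ hσ)
  have hχ'0 : ℵ₀ ≤ χ' := h.h0.trans ((le_max_left _ _).trans (le_max_right _ _))
  obtain ⟨Q, hQ⟩ : ∃ Q : Type u, #Q = χ' := ⟨χ'.out, mk_out χ'⟩
  have hQne : Nonempty Q := by
    rw [← mk_ne_zero_iff, hQ]
    exact (aleph0_pos.trans_le hχ'0).ne'
  have hEθ : θ ≤ #E.N := (h.le_mk_nice hJ).trans E.le_card
  by_cases hGne : G.Nonempty
  swap
  · obtain ⟨c', hc'⟩ := h.exists_tuple hM E.mem hMθ hEθ (h.sg_empty hM E.mem hMθ hEθ) hσ c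
    refine ⟨c', fun R hR _ => h.sg_subset hc' ?_⟩
    have h1 : R = ∅ := by
      rw [not_nonempty_iff_eq_empty] at hGne
      rw [hGne] at hR
      exact subset_empty_iff.1 hR
    rw [h1]
  · obtain ⟨g₀, hg₀⟩ := hGne
    obtain ⟨c', hc'⟩ := h.rChi_main hM hMθ hJ E G hG hLG (χ := χ')
      ((le_max_left _ _).trans (le_max_right _ _)) hχ'
      ((le_max_right _ _).trans (le_max_right _ _)) hQ c
    refine ⟨c', fun R hR hRχ => ?_⟩
    obtain ⟨i⟩ := (Cardinal.le_def R Q).1 ((hRχ.trans (le_max_left _ _)).trans hQ.ge)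
    let b : Q → M × E.N := fun q => if hq : ∃ r, i r = q then hq.choose.1 else g₀
    have hb : ∀ r, b (i r) = r.1 := by
      intro r
      have hq : ∃ r', i r' = i r := ⟨r, rfl⟩
      have h1 : b (i r) = hq.choose.1 := dif_pos hq
      rw [h1, i.injective hq.choose_spec]
    have hbG : ∀ q, b q ∈ G := by
      intro q
      by_cases hq : ∃ r, i r = q
      · have h1 : b q = hq.choose.1 := dif_pos hq
        rw [h1]
        exact hR hq.choose.2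
      · have h1 : b q = g₀ := dif_neg hq
        rw [h1]
        exact hg₀
    refine h.sg_subset (hc' b hbG) ?_
    rintro p (hp | ⟨k, rfl⟩)
    · refine ⟨Sum.inl (i ⟨p, hp⟩), ?_⟩
      change ((b (i ⟨p, hp⟩)).1, (b (i ⟨p, hp⟩)).2) = p
      rw [hb]
    · exact ⟨Sum.inr k, rfl⟩

theorem sg_of_good_top {R R' : Set (M × N)} (hR' : Good L θ R') (hR : R ⊆ R') (hRθ : #R < θ) :
    SG L ℓ θ R :=
  ⟨hRθ, fun _ h1 h2 h3 => Good.mono (h.h0.trans h1) h3.le (hR'.subset hR) h2⟩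

/-- The same for an arbitrary large member. -/
theorem rChi' (hM : K.mem M) (hMθ : θ ≤ #M) (hN : K.mem N) (hNθ : thr κf θ ≤ #N)
    (G : Set (M × N)) (hG : #G ≤ θ) (hLG : LG L ℓ θ G) {χ : Cardinal.{u}} (hχ : χ < θ)
    {σ : Type u} (hσ : #σ < θ) (c : σ → M) :
    ∃ c' : σ → N, ∀ R ⊆ G, #R ≤ χ → SG L ℓ θ (R ∪ range fun k => (c k, c' k)) := by
  classical
  obtain ⟨t⟩ := h.tpl
  obtain ⟨J, oJ, hJ, hJc⟩ := exists_nice θ (thr κf θ)
  obtain ⟨E⟩ := exists_em t J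
  have hEc : thr κf θ ≤ #E.N := hJc.trans E.le_card
  have h1 : Good L θ (∅ : Set (N × E.N)) := good_empty_thr h.hK h.hunb h.hℓ.le hN E.mem hNθ hEc
  obtain ⟨R₁, -, h2, h3⟩ := h1.exists_left (Prod.snd '' G) (mk_image_le.trans hG)
  let G' : Set (M × E.N) := relComp G R₁
  have hG' : #G' ≤ θ := (h2.1.mk_comp_le).trans hG
  have hLG' : LG L ℓ θ G' := by
    intro R hR hRθ
    choose y hy1 hy2 using fun p : R => hR p.2
    have h4 : SG L ℓ θ (range fun p : R => (p.1.1, y p)) :=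
      hLG _ (by rintro _ ⟨p, rfl⟩; exact hy1 p) (mk_range_le.trans_lt hRθ)
    have h5 : SG L ℓ θ (range fun p : R => (y p, p.1.2)) :=
      h.sg_of_good_top h2 (by rintro _ ⟨p, rfl⟩; exact hy2 p) (mk_range_le.trans_lt hRθ)
    refine h.sg_subset (h.sg_comp h4 h5) fun p hp => ?_
    exact ⟨y ⟨p, hp⟩, ⟨⟨p, hp⟩, rfl⟩, ⟨⟨p, hp⟩, rfl⟩⟩
  obtain ⟨c₁, hc₁⟩ := h.rChi hM hMθ hJ E G' hG' hLG' hχ hσ c
  obtain ⟨R₂, h4, h5, h6⟩ := h2.exists_right (range c₁) (mk_range_le.trans hσ.le)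
  choose c' hc' using fun k => h6 (c₁ k) ⟨k, rfl⟩
  refine ⟨c', fun R hR hRχ => ?_⟩
  choose y hy using fun p : R => h3 p.1.2 ⟨p.1, hR p.2, rfl⟩
  have hRθ : #R < θ := hRχ.trans_lt hχ
  have h7 := hc₁ (range fun p : R => (p.1.1, y p)) (by
    rintro _ ⟨p, rfl⟩
    exact ⟨p.1.2, hR p.2, hy p⟩) (mk_range_le.trans hRχ)
  have h8 : SG L ℓ θ ((range fun p : R => (p.1.2, y p)) ∪ range fun k => (c' k, c₁ k)) := by
    refine h.sg_of_good_top h5 (union_subset ?_ ?_) ?_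
    · rintro _ ⟨p, rfl⟩
      exact h4 (hy p)
    · rintro _ ⟨k, rfl⟩
      exact hc' k
    · exact (mk_union_le _ _).trans_lt (h.add_lt (mk_range_le.trans_lt hRθ)
        (mk_range_le.trans_lt hσ))
  refine h.sg_subset (h.sg_comp h7 h8.swap) ?_
  rintro p (hp | ⟨k, rfl⟩)
  · exact ⟨y ⟨p, hp⟩, Or.inl ⟨⟨p, hp⟩, rfl⟩, Or.inl ⟨⟨p, hp⟩, rfl⟩⟩
  · exact ⟨c₁ k, Or.inr ⟨k, rfl⟩, Or.inr ⟨k, rfl⟩⟩

end Clo

end Vale.Agent.P307.R2.H287
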