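import Vale.Agent.P307.R2.H287.OrdB

set_option linter.unusedSectionVars false

universe u v w

open FirstOrder Cardinal Set

namespace Vale.Agent.P307.R2.H287

open Vale.Agent.P307 Vale.Agent.P307.H304 Language.Structure Language.Substructure

variable {L : Language.{u, u}} {K : AEC L} {ℓ θ : Cardinal.{u}} {α κf : Cardinal.{u} → Cardinal.{u}}
  {M N P : Type u} [L.Structure M] [L.Structure N] [L.Structure P]

namespace Clo

variable (h : Clo K ℓ α κf θ)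
include h

/-- Representatives of the types of tuples in `G`. -/
theorem exists_rep (hM : K.mem M) (hN : K.mem N) (hMθ : θ ≤ #M) (hNθ : θ ≤ #N)
    (G : Set (M × N)) {ρ : Cardinal.{u}} (hℓρ : ℓ ≤ ρ) (hρ : ρ < θ) {ι σ : Type u} (hι : #ι ≤ ρ)
    (hσ : #σ ≤ ρ) (c : σ → M) (T : Set N) (hT : #T ≤ ρ) :
    ∃ A ⊆ G, #A ≤ 2 ^ ρ ∧ ∀ b : ι → M × N, (∀ k, b k ∈ G) → ∃ b' : ι → M × N,
      (∀ k, b' k ∈ A) ∧
      SG L ℓ θ (range fun k : ι ⊕ σ => (Sum.elim (fun k => (b k).1) c k,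
        Sum.elim (fun k => (b' k).1) c k)) ∧
      SG L ℓ θ (range fun k : ι ⊕ T => (Sum.elim (fun k => (b k).2) Subtype.val k,
        Sum.elim (fun k => (b' k).2) Subtype.val k)) := by
  classical
  have hρ0 : ℵ₀ ≤ ρ := h.h0.trans hℓρ
  have h1 : #(ι ⊕ σ) ≤ ρ := by
    simp only [mk_sum, lift_id]
    exact add_le_of_le hρ0 hι hσ
  have h2 : #(ι ⊕ T) ≤ ρ := by
    simp only [mk_sum, lift_id]
    exact add_le_of_le hρ0 hι hT
  obtain ⟨C₁, f₁, hC₁, hf₁⟩ := h.exists_tpf hM hMθ hℓρ hρ h1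
  obtain ⟨C₂, f₂, hC₂, hf₂⟩ := h.exists_tpf hN hNθ hℓρ hρ h2
  let code : (ι → G) → C₁ × C₂ := fun b =>
    (f₁ (Sum.elim (fun k => (b k).1.1) c), f₂ (Sum.elim (fun k => (b k).1.2) Subtype.val))
  let A : Set (M × N) := ⋃ z : C₁ × C₂, if hz : ∃ b, code b = z then
    range (fun k => (hz.choose k).1) else ∅
  refine ⟨A, ?_, ?_, ?_⟩
  · refine iUnion_subset fun z => ?_
    split_ifs with hz
    · rintro _ ⟨k, rfl⟩
      exact (hz.choose k).2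
    · exact empty_subset _
  · have hχ0 : ℵ₀ ≤ (2 : Cardinal.{u}) ^ ρ := hρ0.trans (cantor ρ).le
    refine mk_iUnion_le_of_le hχ0 ?_ _ fun z => ?_
    · rw [mk_prod, lift_id, lift_id]
      exact mul_le_of_le hχ0 hC₁ hC₂
    · split_ifs with hz
      · exact mk_range_le.trans (hι.trans (cantor ρ).le)
      · simp
  · intro b hb
    let b₀ : ι → G := fun k => ⟨b k, hb k⟩
    have hz : ∃ b', code b' = code b₀ := ⟨b₀, rfl⟩
    have h3 : code hz.choose = code b₀ := hz.choose_spec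
    obtain ⟨h4, h5⟩ := Prod.ext_iff.1 h3
    refine ⟨fun k => (hz.choose k).1, fun k => ?_, ?_, ?_⟩
    · refine mem_iUnion.2 ⟨code b₀, ?_⟩
      rw [dif_pos hz]
      exact ⟨k, rfl⟩
    · exact hf₁ _ _ h4.symm
    · exact hf₂ _ _ h5.symm

/-- The sequence of approximations. -/
theorem exists_approx (hM : K.mem M) (hN : K.mem N) (hMθ : θ ≤ #M) (hNθ : θ ≤ #N)
    (G : Set (M × N)) (hLG : ∀ R ⊆ G, #R < θ → SG L ℓ θ R) {ρ : Cardinal.{u}} (hℓρ : ℓ ≤ ρ)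
    (hρ : ρ < θ) {ι σ X : Type u} [LinearOrder X] [WellFoundedLT X] (hι : #ι ≤ ρ) (hσ : #σ ≤ ρ)
    (hX : #X ≤ ρ) (c : σ → M) :
    ∃ (e : X → σ → N) (A : X → Set (M × N)), (∀ j, A j ⊆ G) ∧
      (∀ j, SG L ℓ θ (A j ∪ range fun k => (c k, e j k))) ∧
      ∀ (b : ι → M × N), (∀ k, b k ∈ G) → ∀ j, ∃ b' : ι → M × N,
        (∀ k, ∀ j', j < j' → b' k ∈ A j') ∧
        SG L ℓ θ (range fun k : ι ⊕ σ => (Sum.elim (fun k => (b k).1) c k,
          Sum.elim (fun k => (b' k).1) c k)) ∧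
        ∀ i ≤ j, SG L ℓ θ (range fun k : ι ⊕ σ => (Sum.elim (fun k => (b k).2) (e i) k,
          Sum.elim (fun k => (b' k).2) (e i) k)) := by
  classical
  have hρ0 : ℵ₀ ≤ ρ := h.h0.trans hℓρ
  have hχθ : (2 : Cardinal.{u}) ^ ρ < θ := h.hp ρ hρ
  have hχ0 : ℵ₀ ≤ (2 : Cardinal.{u}) ^ ρ := hρ0.trans (cantor ρ).le
  -- representatives
  choose Rp hR1 hR2 hR3 using fun T : {T : Set N // #T ≤ ρ} =>
    h.exists_rep hM hN hMθ hNθ G hℓρ hρ hι hσ c T.1 T.2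
  let Rep : Set N → Set (M × N) := fun T => if hT : #T ≤ ρ then Rp ⟨T, hT⟩ else ∅
  have hRep1 : ∀ T, Rep T ⊆ G := by
    intro T
    by_cases hT : #T ≤ ρ
    · have h1 : Rep T = Rp ⟨T, hT⟩ := dif_pos hT
      rw [h1]
      exact hR1 _
    · have h1 : Rep T = ∅ := dif_neg hT
      rw [h1]
      exact empty_subset _
  have hRep2 : ∀ T, #(Rep T) ≤ 2 ^ ρ := by
    intro T
    by_cases hT : #T ≤ ρ
    · have h1 : Rep T = Rp ⟨T, hT⟩ := dif_pos hT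
      rw [h1]
      exact hR2 _
    · have h1 : Rep T = ∅ := dif_neg hT
      rw [h1]
      simp
  -- choice of the realization
  have hch : ∀ A : Set (M × N), ∃ e : σ → N, A ⊆ G → #A ≤ 2 ^ ρ →
      SG L ℓ θ (A ∪ range fun k => (c k, e k)) := by
    intro A
    by_cases hA : A ⊆ G ∧ #A ≤ 2 ^ ρ
    · obtain ⟨e, he⟩ := h.exists_tuple hM hN hMθ hNθ (hLG A hA.1 (hA.2.trans_lt hχθ))
        (hσ.trans_lt hρ) c
      exact ⟨e, fun _ _ => he⟩
    · have hNne : Nonempty N := by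
        rw [← mk_ne_zero_iff]
        exact (aleph0_pos.trans_le (h.hθ0.trans hNθ)).ne'
      exact ⟨fun _ => Classical.arbitrary N, fun h1 h2 => absurd ⟨h1, h2⟩ hA⟩
  choose ch hch using hch
  obtain ⟨e, he⟩ := exists_rec (X := X) (β := σ → N) fun j prev =>
    ch (⋃ i : Iio j, Rep (⋃ i' : Iic i.1, range (prev ⟨i'.1, lt_of_le_of_lt i'.2 i.2⟩)))
  let T : X → Set N := fun i => ⋃ i' : Iic i, range (e i'.1)
  let A : X → Set (M × N) := fun j => ⋃ i : Iio j, Rep (T i.1)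
  have he' : ∀ j, e j = ch (A j) := he
  have hTc : ∀ i, #(T i) ≤ ρ := fun i =>
    mk_iUnion_le_of_le hρ0 ((mk_set_le _).trans hX) _ fun _ => mk_range_le.trans hσ
  have hA1 : ∀ j, A j ⊆ G := fun j => iUnion_subset fun i => hRep1 _
  have hA2 : ∀ j, #(A j) ≤ 2 ^ ρ := fun j =>
    mk_iUnion_le_of_le hχ0 (((mk_set_le _).trans hX).trans (cantor ρ).le) _ fun i => hRep2 _
  refine ⟨e, A, hA1, fun j => ?_, fun b hb j => ?_⟩
  · rw [he' j]
    exact hch _ (hA1 j) (hA2 j)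
  · have h1 : Rep (T j) = Rp ⟨T j, hTc j⟩ := dif_pos (hTc j)
    obtain ⟨b', h2, h3, h4⟩ := hR3 ⟨T j, hTc j⟩ b hb
    refine ⟨b', fun k j' hj' => ?_, h3, fun i hi => ?_⟩
    · refine mem_iUnion.2 ⟨⟨j, hj'⟩, ?_⟩
      change b' k ∈ Rep (T j)
      rw [h1]
      exact h2 k
    · refine h.sg_subset h4 ?_
      rintro _ ⟨k, rfl⟩
      rcases k with k | k
      · exact ⟨Sum.inl k, rfl⟩
      · exact ⟨Sum.inr ⟨e i k, mem_iUnion.2 ⟨⟨i, hi⟩, ⟨k, rfl⟩⟩⟩, rfl⟩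

end Clo

end Vale.Agent.P307.R2.H287
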