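import Vale.Agent.P307.R2.H301.Din.Dens

/-!
A small model which is isolated over a set, in which the isolated types are dense, is enlarged to an
isolated model of a given size which contains a given small part of the set.
-/

set_option linter.unusedSectionVars false

universe u

open FirstOrder Cardinal Set

namespace Vale.Agent.P307.R2.H287

open Vale.Agent.P307 Vale.Agent.P307.H304 Vale.Agent.P307.R2.H1 Vale.Agent.P307.R2.H971
  Vale.Agent.P307.R2.H804 Vale.Agent.P307.R2.H541 Vale.Agent.P307.R2.H541.PG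
  Vale.Agent.P307.R2.H301 Language.Structure Language.Substructure

open scoped Classical

section abs

variable {C : Type u} {M : PG C} {X R S₀ E B₀ : Set C}

/-- Every small set has an isolated copy over a given isolated set `R` and a part `S₀` of `X`. -/
theorem dens_enlarge (hD : Dens M X) (hB₀ : B₀ ⊆ X) (hB₀c : #B₀ < M.χ) (hi : M.Isol B₀ X R)
    (hS₀ : S₀ ⊆ X) (hS₀c : #S₀ < M.χ) (hE : #E < M.χ) :
    ∃ k ∈ M.G, (∀ x ∈ R, k x = x) ∧ (∀ x ∈ S₀, k x = x) ∧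
      ∃ B ⊆ X, #B < M.χ ∧ M.Isol B X (k '' E) := by
  obtain ⟨g, hg, h1, B, hB, hBc, h2⟩ := hD (S₀ ∪ B₀) (union_subset hS₀ hB₀)
    (small_union hS₀c hB₀c) E hE
  obtain ⟨h, hh, h3, h4⟩ := hi g hg (fun b hb => h1 b (Or.inr hb)) (B ∪ S₀)
    (union_subset hB hS₀) (small_union hBc hS₀c)
  refine ⟨h⁻¹ * g, M.G.mul_mem (M.G.inv_mem hh) hg, fun x hx => ?_, fun x hx => ?_, B, hB, hBc, ?_⟩
  · rw [Equiv.Perm.mul_apply, ← h4 x hx, inv_ap]
  · rw [Equiv.Perm.mul_apply, h1 x (Or.inl hx)]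
    exact fix_inv (h3 x (Or.inr hx))
  · have h5 := h2.smul (M.G.inv_mem hh) fun b hb => fix_inv (h3 b (Or.inl hb))
    have h6 : ((h⁻¹ * g : Equiv.Perm C) : C → C) '' E
        = (h⁻¹ : Equiv.Perm C) '' ((g : C → C) '' E) := by
      rw [image_image]
      rfl
    rw [h6]
    exact h5

end abs

variable {L : Language.{u, u}} {K : AEC L} {ℓ θ τ : Cardinal.{u}}
  {κf α : Cardinal.{u} → Cardinal.{u}} {C : Type u} [L.Structure C]

section

variable (h₀ : BasePt K ℓ κf α θ) (hK : K.IsLS ℓ)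
  (hunb : ∀ ν, ν < κf ν ∧ K.CategoricalIn (κf ν)) (hst : Stab K ℓ α (H287.thr κf))
  (hCm : K.mem C) (hs : Sat K θ C) (hCc : #C = Order.succ θ)

/-- **Isolated models of a given size** around an isolated set and a small part of `X`. -/
theorem pg_enlarge {X R S₀ B₀ : Set C} (hD : Dens (pg h₀ hK hunb hst hCm hs hCc) X)
    (hB₀ : B₀ ⊆ X) (hB₀c : #B₀ < θ) (hi : (pg h₀ hK hunb hst hCm hs hCc).Isol B₀ X R)
    (hS₀ : S₀ ⊆ X) (hτ : ℓ ≤ τ) (hτθ : τ < θ) (hSc : #S₀ ≤ τ) (hRc : #R ≤ τ) :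
    ∃ R' : L.Substructure C, K.le R' ∧ #R' = τ ∧ R ⊆ R' ∧ S₀ ⊆ R' ∧
      ∃ B ⊆ X, #B < θ ∧ (pg h₀ hK hunb hst hCm hs hCc).Isol B X (R' : Set C) := by
  have hτ0 : ℵ₀ ≤ τ := hK.1.trans hτ
  obtain ⟨E, hE, hRE, hEc⟩ := exists_sub_card hK hτ hCm
    (hτθ.le.trans ((Order.le_succ θ).trans hCc.ge)) (R ∪ S₀)
    ((mk_union_le _ _).trans (add_le_of_le hτ0 hRc hSc))
  obtain ⟨k, hk, h1, h2, B, hB, hBc, h3⟩ := dens_enlarge (E := (E : Set C)) hD hB₀ hB₀c hi hS₀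
    (hSc.trans_lt hτθ) ((show #(E : Set C) = τ from hEc).trans_lt hτθ)
  obtain ⟨R', hR', hR'c⟩ : ∃ R' : L.Substructure C, K.le R' ∧ (R' : Set C) = k '' (E : Set C) := by
    obtain ⟨e, he⟩ := hk
    refine ⟨E.map e.toHom, K.le_iso e _ hE, ?_⟩
    ext x
    constructor
    · rintro ⟨y, hy, rfl⟩
      exact ⟨y, hy, (he y).symm⟩
    · rintro ⟨y, hy, rfl⟩
      exact ⟨y, hy, he y⟩
  refine ⟨R', hR', ?_, fun x hx => ?_, fun x hx => ?_, B, hB, hBc, ?_⟩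
  · change #(R' : Set C) = τ
    rw [hR'c, mk_image_eq k.injective]
    exact hEc
  · rw [hR'c]
    exact ⟨x, hRE (Or.inl hx), h1 x hx⟩
  · rw [hR'c]
    exact ⟨x, hRE (Or.inr hx), h2 x hx⟩
  · rw [hR'c]
    exact h3

end

end Vale.Agent.P307.R2.H287
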