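import Vale.Agent.P307.R2.H287.PairEx

set_option linter.unusedSectionVars false

universe u v w

open FirstOrder Cardinal Set

namespace Vale.Agent.P307.R2.H287

open Vale.Agent.P307 Vale.Agent.P307.H304 Language.Structure Language.Substructure

variable {L : Language.{u, u}} {K : AEC L} {ν κ₁ κ₂ ℓ : Cardinal.{u}} {β : Ordinal.{u}}

/-- Strong embeddings of members of size at least `κ` preserve the level `β`. -/
def GrUp (K : AEC L) (κ ν : Cardinal.{u}) (β : Ordinal.{u}) : Prop :=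
  ∀ (M N : Type u) [L.Structure M] [L.Structure N] (f : M ↪[L] N), K.Emb f → κ ≤ #M →
    ∀ A : Set M, #A ≤ ν → gr f A ∈ Lev L M N ν β

theorem transfer_up (t : Tpl K ν) (hν : ν ≤ κ₁) (h12 : κ₁ ≤ κ₂) (hcat : K.CategoricalIn κ₁)
    (hK : K.IsLS ℓ) (hℓ : ℓ ≤ ν) (ih : GrUp K κ₁ ν β) (p : Pair t κ₁) (hP : #p.P.N = κ₂)
    {M₀ Z : Type u} [L.Structure M₀] [L.Structure Z] (g : p.N.N ↪[L] Z) (hg : K.Emb g)
    (hZ : #Z = κ₁) (Q : Set (p.N.N × M₀)) (hQ : #Q ≤ ν) (C : Set M₀) (R : Set (Z × M₀))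
    (hR : R ∈ Lev L Z M₀ ν β) (hQR : Prod.map g id '' Q ⊆ R) (hRC : CovR R C) :
    ∃ (P₂ : Type u) (_ : L.Structure P₂) (k : p.P.N ↪[L] P₂), K.Emb k ∧ #P₂ = κ₂ ∧
      ∃ R₂ ∈ Lev L P₂ M₀ ν β, Prod.map (fun n => k (p.i n)) id '' Q ⊆ R₂ ∧ CovR R₂ C := by
  have hκ0 : ℵ₀ ≤ κ₂ := t.hν.trans (hν.trans h12)
  have hne := t.ne
  obtain ⟨e⟩ := hcat.2 p.N.N Z p.N.mem hg.mem_right p.card hZ
  have hg' : K.Emb (e.symm.toEmbedding.comp g) :=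
    AEC.Emb.comp (AEC.Emb.of_equiv e.symm hg.mem_right) hg
  have hB : #(e.symm '' (Prod.fst '' R)) ≤ ν :=
    mk_image_le.trans (mk_image_le.trans (Lev.card hR))
  obtain ⟨P₁, sP₁, k₁, b', hk₁, hb', hgood⟩ := mirror (K := K) (Λ := t.Λ) (h := hFn ν) t.hν t.hL
    t.hΛ (le_max_right _ _) (le_max_left _ _) t.cl t.ha t.ha2 p.N.isEM p.N.top p.P.isEM p.P.top
    p.N.isEM p.N.top p.hι p.nice (p.nice.mono (le_max_left _ _)) p.i p.hi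
    (e.symm.toEmbedding.comp g) hg' (Prod.fst '' Q) (mk_image_le.trans hQ)
    (e.symm '' (Prod.fst '' R)) hB (by
      rintro _ ⟨q, hq, rfl⟩
      exact ⟨_, ⟨_, hQR ⟨q, hq, rfl⟩, rfl⟩, rfl⟩)
  obtain ⟨S, hS, hAS, hSc⟩ := hK.2.2 P₁ hk₁.mem_right
    (range k₁ ∪ b' '' (e.symm '' (Prod.fst '' R)))
  have hSκ : #S = κ₂ := by
    apply le_antisymm
    · refine hSc.trans (add_le_of_le hκ0 ((mk_union_le _ _).trans (add_le_of_le hκ0 ?_ ?_))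
        (hℓ.trans (hν.trans h12)))
      · exact mk_range_le.trans hP.le
      · exact (mk_image_le.trans hB).trans (hν.trans h12)
    · rw [← hP, ← mk_range_eq k₁ k₁.injective]
      exact mk_le_mk_of_subset (subset_union_left.trans hAS)
  let k : p.P.N ↪[L] S := k₁.codRestrict S fun c => hAS (Or.inl ⟨c, rfl⟩)
  have hk : K.Emb k := by
    refine AEC.Emb.of_comp (g := S.subtype) (AEC.emb_subtype.2 hS) ?_
    have h1 : S.subtype.comp k = k₁ := by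
      ext x
      rfl
    rw [h1]
    exact hk₁
  have hBS : ∀ b ∈ e.symm '' (Prod.fst '' R), b' b ∈ S := fun b hb => hAS (Or.inr ⟨b, hb, rfl⟩)
  have hL1 : gr S.subtype (Subtype.val ⁻¹' (b' '' (e.symm '' (Prod.fst '' R)))) ∈
      Lev L S P₁ ν β := ih S P₁ S.subtype (AEC.emb_subtype.2 hS) (h12.trans hSκ.ge) _
    ((mk_preimage_of_injective _ _ Subtype.val_injective).trans (mk_image_le.trans hB))
  have hL2 := Lev.comp hL1 (Lev.comp (Lev.swap (lev_of_good hgood β)) (Lev.comp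
    (lev_of_good (good_gr_equiv t.hν e hB) β) hR))
  refine ⟨S, inferInstance, k, hk, hSκ, _, hL2, ?_, ?_⟩
  · rintro _ ⟨q, hq, rfl⟩
    have hR1 : (g q.1, q.2) ∈ R := hQR ⟨q, hq, rfl⟩
    have hB1 : e.symm (g q.1) ∈ e.symm '' (Prod.fst '' R) := ⟨_, ⟨_, hR1, rfl⟩, rfl⟩
    have h1 : b' (e.symm (g q.1)) = k₁ (p.i q.1) := hb' q.1 ⟨q, hq, rfl⟩
    refine ⟨k₁ (p.i q.1), mem_gr.2 ⟨?_, rfl⟩, e.symm (g q.1), ?_, g q.1, ?_, hR1⟩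
    · exact ⟨_, hB1, h1⟩
    · exact mem_gr.2 ⟨hB1, h1.symm⟩
    · exact mem_gr.2 ⟨hB1, (e.apply_symm_apply _).symm⟩
  · intro c hc
    obtain ⟨z, hz⟩ := hRC c hc
    have hB1 : e.symm z ∈ e.symm '' (Prod.fst '' R) := ⟨_, ⟨_, hz, rfl⟩, rfl⟩
    refine ⟨⟨b' (e.symm z), hBS _ hB1⟩, b' (e.symm z), mem_gr.2 ⟨⟨_, hB1, rfl⟩, rfl⟩, e.symm z,
      mem_gr.2 ⟨hB1, rfl⟩, z, mem_gr.2 ⟨hB1, (e.apply_symm_apply _).symm⟩, hz⟩

theorem reflect_down {t : Tpl K ν} (p : Pair t κ₁) {M₀ : Type u} [L.Structure M₀]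
    (Q : Set (p.N.N × M₀)) (hQ : #Q ≤ ν) (C : Set M₀) (R : Set (p.P.N × M₀))
    (hR : R ∈ Lev L p.P.N M₀ ν β) (hQR : Prod.map p.i id '' Q ⊆ R) (hRC : CovR R C) :
    ∃ R₂ ∈ Lev L p.N.N M₀ ν β, Q ⊆ R₂ ∧ CovR R₂ C := by
  have h1 := p.N.good_map p.P (p.nice.mono (le_max_left _ _)) (p.nice'.mono (le_max_left _ _))
    p.ι p.hι p.i p.hi (Prod.fst '' Q) (mk_image_le.trans hQ)
  obtain ⟨T, h2, h3, h4⟩ := h1.exists_right (Prod.fst '' R) (mk_image_le.trans (Lev.card hR))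
  refine ⟨_, Lev.comp (lev_of_good h3 β) hR, ?_, ?_⟩
  · intro q hq
    exact ⟨p.i q.1, h2 (mem_gr.2 ⟨⟨q, hq, rfl⟩, rfl⟩), hQR ⟨q, hq, rfl⟩⟩
  · intro c hc
    obtain ⟨z, hz⟩ := hRC c hc
    obtain ⟨n, hn⟩ := h4 z ⟨_, hz, rfl⟩
    exact ⟨n, z, hn, hz⟩

/-- The states of the construction. -/
structure St (K : AEC L) (Ω : Type u) (κ₂ κ₁ : Cardinal.{u}) where
  p : Pt K Ω κ₂
  t : Set Ω
  sub : t ⊆ p.s
  card : #t ≤ κ₁

instance {Ω : Type u} : Preorder (St K Ω κ₂ κ₁) where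
  le x y := x.p ≤ y.p ∧ x.t ⊆ y.t
  le_refl x := ⟨le_rfl, Subset.rfl⟩
  le_trans x y z h h' := ⟨h.1.trans h'.1, h.2.trans h'.2⟩

theorem chB_st {Ω : Type u} (hκ : ℵ₀ ≤ κ₁) (h12 : κ₁ ≤ κ₂) : ChB (St K Ω κ₂ κ₁) κ₁ := by
  intro ι _ _ hι c hc
  obtain ⟨z, hz1, hz2⟩ := exists_union (hκ.trans h12) (hι.trans h12) (fun i => (c i).p)
    fun i j hij => (hc hij).1
  refine ⟨⟨z, ⋃ i, (c i).t, ?_, ?_⟩, fun i => ⟨hz2 i, subset_iUnion (fun i => (c i).t) i⟩⟩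
  · rw [hz1]
    exact iUnion_mono fun i => (c i).sub
  · exact mk_iUnion_le_of_le hκ hι _ fun i => (c i).card

theorem exists_step (t : Tpl K ν) (hν : ν ≤ κ₁) (hτ : tau ν ≤ κ₁) (h12 : κ₁ ≤ κ₂)
    (hpow : κ₁ ^ ν ≤ κ₂) (hcat : K.CategoricalIn κ₂) {Ω M₀ : Type u} [L.Structure M₀]
    (hM₀ : #M₀ = κ₁) (ih : GrLev K κ₂ ν β) (x : St K Ω κ₂ κ₁) :
    ∃ y, x ≤ y ∧ (∀ (Q : Set (Ω × M₀)) (C : Set M₀), Q ⊆ x.t ×ˢ Set.univ → #Q ≤ ν → #C ≤ ν →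
      (∃ z : Pt K Ω κ₂, y.p ≤ z ∧ Meets ν β Q C z) → Meets ν β Q C y.p) ∧
      ∃ (pr : Pair t κ₁) (e : pr.P.N ≃[L] y.p.s), y.t = range fun n => (e (pr.i n)).1 := by
  have hκ0 : ℵ₀ ≤ κ₁ := t.hν.trans hν
  have hκ20 : ℵ₀ ≤ κ₂ := hκ0.trans h12
  have hJ : #({s : Set (Ω × M₀) // s ⊆ x.t ×ˢ Set.univ ∧ #s ≤ ν} ×
      {s : Set M₀ // s ⊆ Set.univ ∧ #s ≤ ν}) ≤ κ₂ := by
    rw [mk_prod, lift_id, lift_id]
    refine (mul_le_mul' (b := κ₂) (d := κ₂) ?_ ?_).trans_eq (mul_eq_self hκ20)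
    · refine (mk_bounded_subset_le _ _).trans ((power_le_power_right (max_le ?_ hκ0)).trans hpow)
      rw [mk_setProd, mk_univ, hM₀]
      exact (mul_le_mul' x.card le_rfl).trans_eq (mul_eq_self hκ0)
    · refine (mk_bounded_subset_le _ _).trans ((power_le_power_right (max_le ?_ hκ0)).trans hpow)
      rw [mk_univ, hM₀]
  obtain ⟨y, hy1, hy2⟩ := exists_ge_forall (chB_pt hκ20) x.p hJ
    (fun q y => Meets ν β q.1.1 q.2.1 y) (fun q x y hxy h => Meets.mono ih hxy h)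
  obtain ⟨pr, e, he⟩ := exists_pair t hν hτ h12 hcat y.s y.mem y.card (Subtype.val ⁻¹' x.t)
    ((mk_preimage_of_injective _ _ Subtype.val_injective).trans x.card)
  refine ⟨⟨y, range fun n => (e (pr.i n)).1, ?_, ?_⟩, ⟨hy1, ?_⟩, ?_, pr, e, rfl⟩
  · rintro _ ⟨n, rfl⟩
    exact (e (pr.i n)).2
  · exact mk_range_le.trans pr.card.le
  · intro a ha
    obtain ⟨n, hn⟩ := he (show (⟨a, subset_of_le hy1 (x.sub ha)⟩ : y.s) ∈ Subtype.val ⁻¹' x.t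
      from ha)
    exact ⟨n, congrArg Subtype.val hn⟩
  · intro Q C hQ hQν hCν hz
    exact hy2 (⟨Q, hQ, hQν⟩, ⟨C, subset_univ _, hCν⟩) hz

end Vale.Agent.P307.R2.H287
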