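import Vale.Agent.P307.R2.H287.Tp

set_option linter.unusedSectionVars false

universe u v w

open FirstOrder Cardinal Set

namespace Vale.Agent.P307.R2.H287

open Vale.Agent.P307 Vale.Agent.P307.H304 Language.Structure Language.Substructure

variable {L : Language.{u, u}} {K : AEC L} {ℓ θ ν μ : Cardinal.{u}}
  {M N P : Type u} [L.Structure M] [L.Structure N] [L.Structure P]

theorem EM.cl {t : Tpl K ν} {I : Type u} [LinearOrder I] (E : EM t I) :
    Gr.Cl1 K (exHom L t.Λ) E.N := (t.cl.transfer fun A => by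
    obtain ⟨ρ⟩ := Gr.isEM_local E.isEM E.top A
    exact ⟨ρ, ρ.injective⟩).2

/-- Maps of vocabularies. -/
def exMap (L : Language.{u, u}) {Λ Λ' : Type u} (m : Λ → Λ') : exLang L Λ →ᴸ exLang L Λ' where
  onFunction := fun {n} f => (Sum.map id m f : L.Functions n ⊕ Λ')
  onRelation := fun {n} r => (Sum.map id id r : L.Relations n ⊕ PEmpty)

theorem exists_expand (hK : K.IsLS ℓ) {Z : Type u} [L.Structure Z] (hZ : K.mem Z) [Nonempty Z]
    {Ξ : Type u} (fx : ∀ n : ℕ, Ξ → (Fin n → Z) → Z) :
    ∃ (Λ : Type u) (_ : (exLang L (Λ ⊕ Ξ)).Structure Z) (_ : (exHom L (Λ ⊕ Ξ)).IsExpansionOn Z),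
      #Λ ≤ ℓ ∧ (∀ (n : ℕ) (ξ : Ξ) (v : Fin n → Z),
        funMap (L := exLang L (Λ ⊕ Ξ)) (Sum.inr (Sum.inr ξ)) v = fx n ξ v) ∧
      Gr.Cl1 K (exHom L (Λ ⊕ Ξ)) Z := by
  obtain ⟨Λ, hΛ⟩ : ∃ Λ : Type u, #Λ = ℓ := ⟨ℓ.out, mk_out ℓ⟩
  obtain ⟨sk, hsk⟩ := Vale.Agent.P307.exists_skolem hK hZ Λ hΛ
  let s' : (skLang (Λ ⊕ Ξ)).Structure Z :=
    { funMap := fun {n} (f : Λ ⊕ Ξ) v => Sum.elim (fun l : Λ => sk.funMap (n := n) l v)
        (fun ξ => fx n ξ v) f
      RelMap := fun {n} r => PEmpty.elim r }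
  refine ⟨Λ, inferInstance, inferInstance, hΛ.le, fun n ξ v => rfl, fun S => ?_⟩
  let S' : (exLang L Λ).Substructure Z :=
    { carrier := S
      fun_mem := by
        rintro n (f | f) v hv
        · exact S.fun_mem (n := n) (Sum.inl f) v hv
        · exact S.fun_mem (n := n) (Sum.inr (Sum.inl f : Λ ⊕ Ξ)) v hv }
  exact hsk S'

section terms

variable {Λ Λ' : Type u} {D' : Type u}

/-- The term of the larger language. -/
noncomputable def tmX (m : Λ → Λ') (tm : D' → (exLang L Λ').Term (Fin 1)) {Q : Type w}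
    (d : Q → D') (t : (exLang L Λ).Term Q) : (exLang L Λ').Term Q :=
  ((exMap L m).onTerm t).subst fun q => (tm (d q)).relabel fun _ => q

theorem realize_tmX (m : Λ → Λ') (tm : D' → (exLang L Λ').Term (Fin 1)) {Q : Type w}
    (d : Q → D') (t : (exLang L Λ).Term Q) {M : Type u} [(exLang L Λ').Structure M] (b : Q → M) :
    (tmX m tm d t).realize b = (t.realize (M := Dn (exMap L m) M)
      fun q => (tm (d q)).realize (M := M) fun _ => b q) := by
  unfold tmX
  rw [Language.Term.realize_subst, realize_dn]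
  congr 1
  funext q
  rw [Language.Term.realize_relabel]
  rfl

end terms

section kmap

variable {t : Tpl K ν} {t₃ : Tpl K μ} (m : t.Λ → t₃.Λ) {D D' X : Type u} [LinearOrder D]
  [LinearOrder D'] [LinearOrder X] (N : EM t D) (P : EM t D') (E₂ : EM t₃ D')
  (g : N.N ↪[L] t₃.M) (f : N.N ↪[exLang L t.Λ] Dn (exMap L m) t₃.M) (hf : ∀ x, f x = g x)
  (x : X → t₃.M) (a₂ : ∀ n : ℕ, Fin n → X) (ha₂ : ∀ n, StrictMono (a₂ n))
  (ha : ∀ n, t₃.a n = fun k => x (a₂ n k)) (tm : D' → (exLang L t₃.Λ).Term (Fin 1))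
  (pos : D' → X → D) (htm : ∀ d ξ, (tm d).realize (fun _ => x ξ) = g (N.c (pos d ξ)))
  (hpos : ∀ d d' ξ ξ', d < d' → ξ < ξ' → pos d ξ < pos d' ξ')

include hf htm in
theorem atEq_tm {Q : Type w} (d : Q → D') (ξ : Q → X)
    (h : AtEq (exLang L t₃.Λ) (fun q => E₂.c (d q)) (fun q => x (ξ q))) :
    AtEq (exLang L t.Λ) (M := Dn (exMap L m) E₂.N)
      (fun q => (tm (d q)).realize (M := E₂.N) fun _ => E₂.c (d q))
      (fun q => N.c (pos (d q) (ξ q))) := by
  have h1 := AtEq.dn (exMap L m)
    (AtEq.map_terms h fun q => (tm (d q)).relabel fun _ => q)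
  have h2 : (fun q => ((tm (d q)).relabel fun _ => q).realize (M := E₂.N)
      fun q => E₂.c (d q)) = fun q => (tm (d q)).realize (M := E₂.N) fun _ => E₂.c (d q) := by
    funext q
    rw [Language.Term.realize_relabel]
    rfl
  have h3 : (fun q => ((tm (d q)).relabel fun _ => q).realize (M := t₃.M)
      fun q => x (ξ q)) = fun q => f (N.c (pos (d q) (ξ q))) := by
    funext q
    rw [Language.Term.realize_relabel, hf]
    exact htm (d q) (ξ q)
  rw [h2, h3] at h1
  exact h1.trans (AtEq.of_embedding f fun q => N.c (pos (d q) (ξ q))).symm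

include hf ha₂ ha htm hpos in
theorem exists_k : ∃ k : P.N ↪[L] E₂.N, ∀ (Q : Type u) (s : (exLang L t.Λ).Term Q) (d : Q → D'),
      k (s.realize fun q => P.c (d q)) = (tmX m tm d s).realize fun q => E₂.c (d q) := by
  have hy : IsEM (exLang L t.Λ) (N := Dn (exMap L m) E₂.N) t.a
      (fun d : D' => (tm d).realize (M := E₂.N) fun _ => E₂.c d) := by
    intro n i hi
    have h1 := E₂.isEM n i hi
    rw [ha] at h1
    refine (atEq_tm m N E₂ g f hf x tm pos htm i (a₂ n) h1).trans (N.isEM n _ fun k k' hk => ?_)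
    exact hpos _ _ _ _ (hi hk) (ha₂ n hk)
  obtain ⟨k₀, hk₀⟩ := AtEq.exists_embedding (P.isEM.pattern hy id id fun _ _ => Iff.rfl) P.top
  refine ⟨{ toFun := k₀, inj' := k₀.injective, map_fun' := ?_, map_rel' := ?_ }, ?_⟩
  · intro n f b
    have h1 := k₀.map_fun (Sum.inl f : (exLang L t.Λ).Functions n) b
    have h2 := (exHom L t.Λ).map_onFunction f b
    have h3 := (exHom L t₃.Λ).map_onFunction (M := E₂.N) f
      fun i => k₀ (b i)
    exact ((congrArg k₀ h2.symm).trans h1).trans h3
  · intro n r b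
    have h1 := k₀.map_rel (Sum.inl r : (exLang L t.Λ).Relations n) b
    have h2 := (exHom L t.Λ).map_onRelation r b
    have h3 := (exHom L t₃.Λ).map_onRelation (M := E₂.N) r
      fun i => k₀ (b i)
    exact ((iff_of_eq h3).symm.trans h1).trans (iff_of_eq h2)
  · intro Q t d
    have h1 := hk₀ (t.relabel d)
    have h2 : (t.relabel d).realize (fun i => P.c (id i)) = t.realize fun q => P.c (d q) := by
      rw [Language.Term.realize_relabel]
      rfl
    have h3 := (Language.Term.realize_relabel (M := Dn (exMap L m) E₂.N)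
      (t := t) (g := d) (v := fun i => (tm (id i)).realize (M := E₂.N) fun _ => E₂.c (id i))).trans
      (realize_tmX m tm d t (M := E₂.N) fun q => E₂.c (d q)).symm
    exact (congrArg k₀ h2.symm).trans (h1.trans h3)

include hf ha₂ ha htm hpos in
theorem emb_kmap (hg : K.Emb g) (k : P.N ↪[L] E₂.N)
    (hk : ∀ (Q : Type u) (s : (exLang L t.Λ).Term Q) (d : Q → D'),
      k (s.realize fun q => P.c (d q)) = (tmX m tm d s).realize fun q => E₂.c (d q)) :
    K.Emb k := by
  classical
  have key : ∀ w : Finset D', K.Emb (k.comp ((exHom L t.Λ).substructureReduct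
      (closure (exLang L t.Λ) (range fun d : w => P.c d))).subtype) := by
    intro w
    let idx : w → Fin w.card := fun d => (w.orderIsoOfFin rfl).symm d
    have hidx : StrictMono idx := (w.orderIsoOfFin rfl).symm.strictMono
    have hpos' : StrictMono fun d : w => pos d.1 (a₂ w.card (idx d)) := fun d d' hd =>
      hpos _ _ _ _ hd (ha₂ _ (hidx hd))
    have h1 : AtEq (exLang L t₃.Λ) (fun d : w => E₂.c d.1) (fun d : w => x (a₂ w.card (idx d))) := by
      have h2 := IsEM.finset E₂.isEM w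
      rw [ha] at h2
      exact h2
    have h2 : AtEq (exLang L t.Λ) (fun d : w => P.c d.1)
        (fun d : w => N.c (pos d.1 (a₂ w.card (idx d)))) :=
      P.isEM.pattern N.isEM (fun d : w => d.1) _ fun d d' => hpos'.le_iff_le.symm
    obtain ⟨ρ₂, hρ₂⟩ := AtEq.exists_sub_embedding h1
    obtain ⟨ρN, hρN⟩ := AtEq.exists_sub_embedding h2
    have hkw : ∀ t' : (exLang L t.Λ).Term w, k (t'.realize fun d : w => P.c d.1) =
        (tmX m tm (fun d : w => d.1) t').realize fun d : w => E₂.c d.1 := fun t' =>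
      hk w t' fun d => d.1
    have hmem : ∀ p : ((exHom L t.Λ).substructureReduct
        (closure (exLang L t.Λ) (range fun d : w => P.c d))),
        (k.comp ((exHom L t.Λ).substructureReduct
          (closure (exLang L t.Λ) (range fun d : w => P.c d))).subtype) p ∈
        ((exHom L t₃.Λ).substructureReduct
          (closure (exLang L t₃.Λ) (range fun d : w => E₂.c d.1))) := by
      rintro ⟨p, hp⟩
      obtain ⟨t', rfl⟩ := Gr.mem_closure_range.1 hp
      have h3 : k (t'.realize fun d : w => P.c d.1) ∈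
          closure (exLang L t₃.Λ) (range fun d : w => E₂.c d.1) := by
        rw [hkw]
        exact Gr.mem_closure_range.2 ⟨_, rfl⟩
      exact h3
    have hcomp : (Gr.subEmb (exHom L t₃.Λ) _ ρ₂).comp
        (Language.Embedding.codRestrict _ _ hmem) = g.comp (Gr.subEmb (exHom L t.Λ) _ ρN) := by
      apply Language.Embedding.ext
      rintro ⟨p, hp⟩
      obtain ⟨t', rfl⟩ := Gr.mem_closure_range.1 hp
      have h3 : ρN ⟨t'.realize (fun d : w => P.c d.1), hp⟩ = _ := hρN t' hp
      change ρ₂ ⟨k (t'.realize fun d : w => P.c d.1), _⟩ = g (ρN ⟨t'.realize _, hp⟩)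
      rw [h3]
      have h4 : ∀ (z : E₂.N) (hz : z ∈ closure (exLang L t₃.Λ) (range fun d : w => E₂.c d.1)),
          z = (tmX m tm (fun d : w => d.1) t').realize (fun d : w => E₂.c d.1) →
          ρ₂ ⟨z, hz⟩ = (tmX m tm (fun d : w => d.1) t').realize
            fun d : w => x (a₂ w.card (idx d)) := by
        rintro z hz rfl
        exact hρ₂ _ hz
      refine (h4 _ _ (hkw t')).trans ?_
      rw [realize_tmX, ← hf]
      have h5 : (fun q : w => (tm q.1).realize (M := t₃.M)
          fun _ => x (a₂ w.card (idx q))) =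
          fun q : w => f (N.c (pos q.1 (a₂ w.card (idx q)))) := by
        funext q
        rw [hf]
        exact htm q.1 (a₂ w.card (idx q))
      exact (congrArg (fun b => t'.realize (M := Dn (exMap L m) t₃.M) b)
        h5).trans (Language.HomClass.realize_term (g := f))
    have h6 : K.Emb (Language.Embedding.codRestrict _ _ hmem) := by
      refine AEC.Emb.of_comp (t₃.cl.emb _ ρ₂) ?_
      rw [hcomp]
      exact AEC.Emb.comp hg (N.cl.emb _ ρN)
    have h7 := AEC.Emb.comp (AEC.emb_subtype.2 (E₂.cl (closure (exLang L t₃.Λ)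
      (range fun d : w => E₂.c d.1)))) h6
    have h8 : (((exHom L t₃.Λ).substructureReduct
        (closure (exLang L t₃.Λ) (range fun d : w => E₂.c d.1))).subtype).comp
        (Language.Embedding.codRestrict _ _ hmem) = (k.comp ((exHom L t.Λ).substructureReduct
      (closure (exLang L t.Λ) (range fun d : w => P.c d))).subtype) := by
      apply Language.Embedding.ext
      intro p
      rfl
    rw [← h8]
    exact h7
  have h1 := AEC.le_iSup_finset (K := K) (X := D') (fun w => (k.comp ((exHom L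
      t.Λ).substructureReduct (closure (exLang L t.Λ) (range fun d : w => P.c d))).subtype).toHom.range) ?_ key
  · unfold AEC.Emb
    convert h1 using 1
    apply le_antisymm
    · rintro _ ⟨p, rfl⟩
      obtain ⟨w, t', rfl⟩ := exists_finset_term P.top p
      refine (le_iSup (fun w : Finset D' => (k.comp ((exHom L t.Λ).substructureReduct
        (closure (exLang L t.Λ) (range fun d : w => P.c d))).subtype).toHom.range) w) ?_
      exact ⟨⟨_, Gr.mem_closure_range.2 ⟨t', rfl⟩⟩, rfl⟩
    · refine iSup_le fun w => ?_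
      rintro _ ⟨p, rfl⟩
      exact ⟨p.1, rfl⟩
  · rintro w w' hw _ ⟨⟨p, hp⟩, rfl⟩
    refine ⟨⟨p, ?_⟩, rfl⟩
    refine closure_mono ?_ hp
    rintro _ ⟨d, rfl⟩
    exact ⟨⟨d.1, hw d.2⟩, rfl⟩

end kmap

end Vale.Agent.P307.R2.H287
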