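import Vale.Agent.P307.R2.H287.Cuts

set_option linter.unusedSectionVars false

universe u v w

open FirstOrder Cardinal Set

namespace Vale.Agent.P307.R2.H287

open Vale.Agent.P307 Vale.Agent.P307.H304 Language.Structure Language.Substructure

variable {L : Language.{u, u}} {K : AEC L} {ℓ θ : Cardinal.{u}} {α κf : Cardinal.{u} → Cardinal.{u}}
  {M N P : Type u} [L.Structure M] [L.Structure N] [L.Structure P]

/-- A relation which covers the image of an embedding gives another embedding. -/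
theorem exists_emb_of_pi {P₀ : Type u} [L.Structure P₀] {R : Set (M × N)} (hR : IsPI L R)
    (g : P₀ ↪[L] M) (hc : ∀ x, ∃ y, (g x, y) ∈ R) : ∃ g' : P₀ ↪[L] N, ∀ x, (g x, g' x) ∈ R := by
  choose g' hg' using hc
  refine ⟨⟨⟨g', fun x y hxy => ?_⟩, ?_, ?_⟩, hg'⟩
  · exact g.injective ((hR.eq_iff _ (hg' x) _ (hg' y)).2 hxy)
  · intro n f x
    have h1 := hR.fun_iff f (fun i => (g (x i), g' (x i))) (fun i => hg' (x i)) _
      (hg' (funMap f x))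
    exact (h1.1 (g.map_fun f x).symm).symm
  · intro n r x
    have h1 := hR.rel_iff r (fun i => (g (x i), g' (x i))) (fun i => hg' (x i))
    exact h1.symm.trans (g.map_rel r x)

theorem emb_of_good (hK : K.IsLS ℓ) {ν : Cardinal.{u}} (hν : ℓ ≤ ν) (hM : K.mem M) (hN : K.mem N)
    {P₀ : Type u} [L.Structure P₀] (g : P₀ ↪[L] M) (g' : P₀ ↪[L] N) (hg : K.Emb g)
    (hR : Good L ν (range fun x => (g x, g' x))) : K.Emb g' := by
  refine le_of_good (hK.mono hν) hM hN hR (S := g.toHom.range) (T := g'.toHom.range) hg ?_ ?_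
  · ext y
    constructor
    · rintro ⟨x, rfl⟩
      exact ⟨_, ⟨x, rfl⟩, rfl⟩
    · rintro ⟨_, ⟨x, rfl⟩, rfl⟩
      exact ⟨x, rfl⟩
  · ext y
    constructor
    · rintro ⟨x, rfl⟩
      exact ⟨_, ⟨x, rfl⟩, rfl⟩
    · rintro ⟨_, ⟨x, rfl⟩, rfl⟩
      exact ⟨x, rfl⟩

/-- The diagonal of a set. -/
def dg (A : Set M) : Set (M × M) := (fun a => (a, a)) '' A

/-- The elements of an EM model with support in the range of `ω`. -/
def EMs {ν : Cardinal.{u}} {t : Tpl K ν} {J : Type u} [LinearOrder J] (E : EM t J) {Wt : Type u}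
    (ω : Wt → J) : Set E.N :=
  {x | ∃ s : (exLang L t.Λ).Term Wt, x = s.realize fun w => E.c (ω w)}

namespace Clo

variable (h : Clo K ℓ α κf θ)
include h

theorem tame (hH : ∀ ρ < θ, Hfn ρ < θ) {t : Tpl K ℓ} {J : Type u} [LinearOrder J]
    (hJ : Nice θ J) (E : EM t J) {Wt : Type u} [LinearOrder Wt] [WellFoundedLT Wt]
    (hW : θ ≤ #Wt) (ω : Wt → J) (hω : StrictMono ω) {σ : Type u} {σ₀ : Cardinal.{u}}
    (hℓσ : ℓ ≤ σ₀) (hσ₀ : σ₀ < θ) (hσ : #σ ≤ σ₀) (c c' : σ → E.N)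
    (H : ∀ A ⊆ EMs E ω, #A ≤ Hfn σ₀ → SG L ℓ θ (dg A ∪ range fun k => (c k, c' k)))
    (A : Set E.N) (hA : A ⊆ EMs E ω) (hAθ : #A < θ) :
    SG L ℓ θ (dg A ∪ range fun k => (c k, c' k)) := by
  classical
  have hσ0 : ℵ₀ ≤ σ₀ := h.h0.trans hℓσ
  have hJne : Nonempty J := h.nonempty_nice hJ
  have hEθ : θ ≤ #E.N := (h.le_mk_nice hJ).trans E.le_card
  obtain ⟨V, hV, hVc⟩ := exists_cover' hσ0 E.top (range c ∪ range c') ((mk_union_le _ _).trans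
    (add_le_of_le hσ0 (mk_range_le.trans hσ) (mk_range_le.trans hσ)))
  choose s hs using fun k => hVc (c k) (Or.inl ⟨k, rfl⟩)
  choose s' hs' using fun k => hVc (c' k) (Or.inr ⟨k, rfl⟩)
  obtain ⟨η, V', Γ, p, γ, hη1, hη2, hVV', hV', hΓ, hp1, hp2, hp3⟩ := exists_cuts hσ0 V hV ω hω
  have hσ2 : σ₀ ≤ η := (cantor σ₀).le.trans hη1
  have hη0 : ℵ₀ ≤ η := hσ0.trans hσ2
  have hℓη : ℓ ≤ η := hℓσ.trans hσ2
  have hηs : η < hstep η := (Order.lt_succ η).trans_le (le_max_right _ _)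
  have hsθ : hstep η < θ := hη2.trans_lt (hH σ₀ hσ₀)
  let X : Type u := (hstep η).ord.ToType
  have hX : #X = hstep η := mk_ord_toType _
  have hXne : Nonempty X := by
    rw [← mk_ne_zero_iff, hX]
    exact (aleph0_pos.trans_le (hη0.trans hηs.le)).ne'
  -- the small order
  let D : Set J := V' ∪ ⋃ c : Γ, range (p c)
  have hD : #D ≤ hstep η := (mk_union_le _ _).trans (add_le_of_le (hη0.trans hηs.le)
    (hV'.trans hηs.le) (mk_iUnion_le_of_le (hη0.trans hηs.le) (hΓ.trans hηs.le) _ fun c =>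
      mk_range_le.trans hX.le))
  let D' : Set J := V' ∪ range ω
  have hpD : ∀ c ξ, p c ξ ∈ D := fun c ξ => Or.inr (mem_iUnion.2 ⟨c, ⟨ξ, rfl⟩⟩)
  let p' : Γ → X → D := fun c ξ => ⟨p c ξ, hpD c ξ⟩
  obtain ⟨N⟩ := exists_em t D
  obtain ⟨P⟩ := exists_em t D'
  obtain ⟨g₁, hg₁, hg₁'⟩ := N.exists_map E (Subtype.val : D → J) (fun _ _ h => h)
  obtain ⟨f, hf, hf'⟩ := P.exists_map E (Subtype.val : D' → J) (fun _ _ h => h)
  have hg₁t : ∀ {Q : Type u} (τ : (exLang L t.Λ).Term Q) (d : Q → D),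
      g₁ (τ.realize fun q => N.c (d q)) = τ.realize fun q => E.c (d q).1 := by
    intro Q τ d
    have h1 := hg₁' (τ.relabel d)
    rw [Language.Term.realize_relabel, Language.Term.realize_relabel] at h1
    exact h1
  have hft : ∀ {Q : Type u} (τ : (exLang L t.Λ).Term Q) (d : Q → D'),
      f (τ.realize fun q => P.c (d q)) = τ.realize fun q => E.c (d q).1 := by
    intro Q τ d
    have h1 := hf' (τ.relabel d)
    rw [Language.Term.realize_relabel, Language.Term.realize_relabel] at h1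
    exact h1
  have hNc : #N.N ≤ hstep η := N.card_le (hℓη.trans hηs.le) hD
  have hPc : θ ≤ #P.N := by
    refine (hW.trans ?_).trans P.le_card
    exact mk_le_of_injective (f := fun w => (⟨ω w, Or.inr ⟨w, rfl⟩⟩ : D')) fun w w' hww' =>
      hω.injective (congrArg Subtype.val hww')
  -- the second embedding
  let A₀ : Set E.N := {x | ∃ y : N.N, g₁ y = x} ∩ EMs E ω
  have hA₀ : #A₀ ≤ Hfn σ₀ := by
    refine le_trans ?_ (hNc.trans hη2)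
    refine (mk_le_mk_of_subset inter_subset_left).trans ?_
    exact mk_range_le (f := g₁)
  have hSG := H A₀ inter_subset_right hA₀
  obtain ⟨R', hR1, hR2, hR3, -⟩ := h.exists_left E.mem E.mem hEθ hEθ hSG (range g₁)
    (mk_range_le.trans_lt (hNc.trans_lt hsθ))
  have hR2p : IsPI L R' := h.sg_isPI hR2
  obtain ⟨g₂, hg₂⟩ := exists_emb_of_pi hR2p g₁ fun x => hR3 (g₁ x) ⟨x, rfl⟩
  have hg₂e : K.Emb g₂ := by
    have h1 : SG L ℓ θ (range fun x => (g₁ x, g₂ x)) := h.sg_subset hR2 (by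
      rintro _ ⟨x, rfl⟩
      exact hg₂ x)
    exact emb_of_good h.hK (hℓη.trans hηs.le) E.mem E.mem g₁ g₂ hg₁ (h1.2 (hstep η)
      (hℓη.trans hηs.le) (mk_range_le.trans hNc) hsθ)
  have hg12 : ∀ y, g₁ y ∈ EMs E ω → g₁ y = g₂ y := by
    intro y hy
    have h1 : (g₁ y, g₁ y) ∈ R' := hR1 (Or.inl ⟨g₁ y, ⟨⟨y, rfl⟩, hy⟩, rfl⟩)
    exact (hR2p.eq_iff _ h1 _ (hg₂ y)).1 rfl
  have hVD : ∀ v : V, v.1 ∈ D := fun v => Or.inl (hVV' v.2)
  have hVD' : ∀ v : V, v.1 ∈ D' := fun v => Or.inl (hVV' v.2)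
  have hcN : ∀ k, g₁ ((s k).realize fun v : V => N.c ⟨v.1, hVD v⟩) = c k := fun k =>
    (hg₁t (s k) fun v => ⟨v.1, hVD v⟩).trans (hs k)
  have hcN' : ∀ k, g₁ ((s' k).realize fun v : V => N.c ⟨v.1, hVD v⟩) = c' k := fun k =>
    (hg₁t (s' k) fun v => ⟨v.1, hVD v⟩).trans (hs' k)
  have hcg : ∀ k, g₂ ((s k).realize fun v : V => N.c ⟨v.1, hVD v⟩) = c' k := by
    intro k
    have h1 : (c k, c' k) ∈ R' := hR1 (Or.inr ⟨k, rfl⟩)
    exact ((hR2p.eq_iff _ (hg₂ ((s k).realize fun v : V => N.c ⟨v.1, hVD v⟩)) _ h1).1 (hcN k))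
  -- stretching
  obtain ⟨x⟩ := (Cardinal.le_def X E.N).1 (hX.le.trans (hsθ.le.trans hEθ))
  have h2X : (2 : Cardinal.{u}) ≤ #X := by
    rw [hX]
    exact ofNat_lt_aleph0.le.trans (hη0.trans hηs.le)
  obtain ⟨P₂, sP₂, k, hk1, hk2⟩ := multi (t := t) h.hK (μ := η) hℓη hℓη E.mem
    (Idx := ULift.{u} Bool) (X := X) (mk_le_aleph0.trans hη0) hΓ (by
      rw [hX]
      exact le_max_left _ _) h2X N P γ p' (fun d d' ξ ξ' h1 h2 => hp1 d d' ξ ξ' h1 h2)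
    (fun i => if i.down then g₂ else g₁) (by
      rintro ⟨_ | _⟩
      · exact hg₁
      · exact hg₂e) x x.injective
  let k₁ : P.N ↪[L] P₂ := k (ULift.up false)
  let k₂ : P.N ↪[L] P₂ := k (ULift.up true)
  have hkA : ∀ a ∈ A, ∃ aP : P.N, f aP = a ∧ k₂ aP = k₁ aP := by
    intro a ha
    obtain ⟨τ, hτ⟩ := hA ha
    refine ⟨τ.realize fun w => P.c ⟨ω w, Or.inr ⟨w, rfl⟩⟩, ?_, ?_⟩
    · rw [hτ]
      exact hft τ fun w => ⟨ω w, Or.inr ⟨w, rfl⟩⟩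
    · refine hk2 (ULift.up true) (ULift.up false) Wt Wt τ τ (fun w => ⟨ω w, Or.inr ⟨w, rfl⟩⟩)
        (fun w => ⟨ω w, Or.inr ⟨w, rfl⟩⟩) fun hh => ?_
      refine (hg12 _ ?_).symm
      rw [hg₁t]
      have h3 : ∀ w, ∃ w', ω w' = p (γ ⟨ω w, Or.inr ⟨w, rfl⟩⟩) (hh ⟨ω w, Or.inr ⟨w, rfl⟩⟩) :=
        fun w => hp3 ⟨ω w, Or.inr ⟨w, rfl⟩⟩ ⟨w, rfl⟩ _
      choose w' hw' using h3
      refine ⟨τ.relabel w', ?_⟩
      rw [Language.Term.realize_relabel]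
      congr 1
      funext w
      exact congrArg E.c (hw' w).symm
  have hkc : ∀ i, k₂ ((s i).realize fun v : V => P.c ⟨v.1, hVD' v⟩) =
      k₁ ((s' i).realize fun v : V => P.c ⟨v.1, hVD' v⟩) := by
    intro i
    refine hk2 (ULift.up true) (ULift.up false) V V (s i) (s' i) (fun v => ⟨v.1, hVD' v⟩)
      (fun v => ⟨v.1, hVD' v⟩) fun hh => ?_
    have h3 : ∀ v : V, p' (γ ⟨v.1, hVD' v⟩) (hh ⟨v.1, hVD' v⟩) = ⟨v.1, hVD v⟩ := fun v =>
      Subtype.ext (hp2 ⟨v.1, hVD' v⟩ (hVV' v.2) _)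
    simp only [h3]
    exact (hcg i).trans (hcN' i).symm
  choose aP haP1 haP2 using fun a : A => hkA a.1 a.2
  let B : Set P.N := range aP ∪ range fun i => (s i).realize fun v : V => P.c ⟨v.1, hVD' v⟩
  let B' : Set P.N := range aP ∪ range fun i => (s' i).realize fun v : V => P.c ⟨v.1, hVD' v⟩
  have hσθ : #σ < θ := hσ.trans_lt hσ₀
  have hB : #B < θ := (mk_union_le _ _).trans_lt (h.add_lt (mk_range_le.trans_lt hAθ)
    (mk_range_le.trans_lt hσθ))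
  have hB' : #B' < θ := (mk_union_le _ _).trans_lt (h.add_lt (mk_range_le.trans_lt hAθ)
    (mk_range_le.trans_lt hσθ))
  have h1 := h.sg_gr f hf hPc B hB
  have h2 := h.sg_gr k₂ (hk1 _) hPc B hB
  have h3 := h.sg_gr k₁ (hk1 _) hPc B' hB'
  have h4 := h.sg_gr f hf hPc B' hB'
  refine h.sg_subset (h.sg_comp (h.sg_comp (h.sg_comp h1.swap h2) h3.swap) h4) ?_
  rintro _ (⟨a, ha, rfl⟩ | ⟨i, rfl⟩)
  · have e1 : f (aP ⟨a, ha⟩) = a := haP1 ⟨a, ha⟩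
    refine ⟨aP ⟨a, ha⟩, ⟨k₂ (aP ⟨a, ha⟩), ⟨aP ⟨a, ha⟩, ?_, ?_⟩, ?_⟩, ?_⟩
    · exact mem_gr.2 ⟨Or.inl ⟨_, rfl⟩, e1.symm⟩
    · exact mem_gr.2 ⟨Or.inl ⟨_, rfl⟩, rfl⟩
    · exact mem_gr.2 ⟨Or.inl ⟨_, rfl⟩, haP2 ⟨a, ha⟩⟩
    · exact mem_gr.2 ⟨Or.inl ⟨_, rfl⟩, e1.symm⟩
  · have e1 : f ((s i).realize fun v : V => P.c ⟨v.1, hVD' v⟩) = c i :=
      (hft (s i) fun v => ⟨v.1, hVD' v⟩).trans (hs i)
    have e2 : f ((s' i).realize fun v : V => P.c ⟨v.1, hVD' v⟩) = c' i :=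
      (hft (s' i) fun v => ⟨v.1, hVD' v⟩).trans (hs' i)
    refine ⟨(s' i).realize fun v : V => P.c ⟨v.1, hVD' v⟩,
      ⟨k₂ ((s i).realize fun v : V => P.c ⟨v.1, hVD' v⟩),
      ⟨(s i).realize fun v : V => P.c ⟨v.1, hVD' v⟩, ?_, ?_⟩, ?_⟩, ?_⟩
    · exact mem_gr.2 ⟨Or.inr ⟨i, rfl⟩, e1.symm⟩
    · exact mem_gr.2 ⟨Or.inr ⟨i, rfl⟩, rfl⟩
    · exact mem_gr.2 ⟨Or.inr ⟨i, rfl⟩, hkc i⟩
    · exact mem_gr.2 ⟨Or.inr ⟨i, rfl⟩, e2.symm⟩

end Clo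

end Vale.Agent.P307.R2.H287
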