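import Vale.Agent.P307.R2.H287.Small

set_option linter.unusedSectionVars false

universe u v w

open FirstOrder Cardinal Set

namespace Vale.Agent.P307.R2.H287

open Vale.Agent.P307 Vale.Agent.P307.H304 Language.Structure Language.Substructure

variable {L : Language.{u, u}} {K : AEC L} {ℓ θ : Cardinal.{u}} {α κf : Cardinal.{u} → Cardinal.{u}}
  {M N P : Type u} [L.Structure M] [L.Structure N] [L.Structure P]

theorem EM.exists_terms {ν : Cardinal.{u}} {t : Tpl K ν} {I : Type u} [LinearOrder I] [Nonempty I]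
    (E : EM t I) {ρ : Cardinal.{u}} (hρ : ℵ₀ ≤ ρ) {ι Q : Type u} (hι : #ι ≤ ρ) (hQ : #Q = ρ)
    (y : ι → E.N) : ∃ (s : ι → (exLang L t.Λ).Term Q) (w : Q → I),
      ∀ i, y i = (s i).realize fun q => E.c (w q) := by
  classical
  obtain ⟨V, hV, hVy⟩ := exists_cover' hρ E.top (range y) (mk_range_le.trans hι)
  obtain ⟨j⟩ := (Cardinal.le_def V Q).1 (hV.trans hQ.ge)
  choose s hs using fun i => hVy (y i) ⟨i, rfl⟩
  let w : Q → I := fun q => if hq : ∃ v, j v = q then hq.choose.1 else Classical.arbitrary I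
  have hw : ∀ v, w (j v) = v.1 := by
    intro v
    have hq : ∃ v', j v' = j v := ⟨v, rfl⟩
    have h1 : w (j v) = hq.choose.1 := dif_pos hq
    rw [h1, j.injective hq.choose_spec]
  refine ⟨fun i => (s i).relabel j, w, fun i => ?_⟩
  rw [Language.Term.realize_relabel, ← hs i]
  congr 1
  funext v
  exact congrArg E.c (hw v).symm

theorem mk_codes_le {L : Language.{u, u}} {ρ : Cardinal.{u}} (hρ : ℵ₀ ≤ ρ) (hL : L.card ≤ ρ)
    {ι Q S : Type u} (hι : #ι ≤ ρ) (hQ : #Q ≤ ρ) (hS : #S ≤ ρ) :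
    #((ι → L.Term Q) × Set (S × S)) ≤ 2 ^ ρ := by
  have h2 : ∀ T : Type u, #T ≤ 2 ^ ρ → #(ι → T) ≤ 2 ^ ρ := by
    intro T hT
    rw [← power_def]
    refine (power_le_power_right hT).trans ?_
    rw [← power_mul]
    exact power_le_power_left two_ne_zero (mul_le_of_le hρ le_rfl hι)
  rw [mk_prod, lift_id, lift_id]
  refine mul_le_of_le (hρ.trans (cantor ρ).le) (h2 _ ((mk_term_le hρ hL Q hQ).trans (cantor ρ).le)) ?_
  rw [mk_set]
  simp only [mk_prod, lift_id]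
  exact power_le_power_left two_ne_zero (mul_le_of_le hρ hS hS)

namespace Clo

variable (h : Clo K ℓ α κf θ)
include h

theorem le_mk_nice {I : Type u} [LinearOrder I] (hI : Nice θ I) : θ ≤ #I := by
  by_contra hcon
  rw [not_le] at hcon
  obtain ⟨x, hx, -⟩ := hI univ ∅ (by
    rw [mk_univ]
    exact hcon.le) (by simp) (by simp)
  exact lt_irrefl x (hx x trivial)

theorem nonempty_nice {I : Type u} [LinearOrder I] (hI : Nice θ I) : Nonempty I := by
  obtain ⟨x, -⟩ := hI ∅ ∅ (by simp) (by simp) (by simp)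
  exact ⟨x⟩

/-- The number of types. -/
theorem exists_tpf (hM : K.mem M) (hMθ : θ ≤ #M) {ρ : Cardinal.{u}} (hℓρ : ℓ ≤ ρ) (hρ : ρ < θ)
    {ι : Type u} (hι : #ι ≤ ρ) : ∃ (C : Type u) (f : (ι → M) → C), #C ≤ 2 ^ ρ ∧
      ∀ x y, f x = f y → SG L ℓ θ (range fun i => (x i, y i)) := by
  obtain ⟨t⟩ := h.tpl
  obtain ⟨I, oI, hI, hIθ⟩ := exists_nice θ θ
  obtain ⟨E⟩ := exists_em t I
  have hIne := h.nonempty_nice hI
  have hEθ : θ ≤ #E.N := hIθ.trans E.le_card
  have hρ0 : ℵ₀ ≤ ρ := h.h0.trans hℓρ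
  choose y hy using fun x : ι → M => h.exists_tuple hM E.mem hMθ hEθ
    (h.sg_empty hM E.mem hMθ hEθ) (hι.trans_lt hρ) x
  obtain ⟨Q, hQ⟩ : ∃ Q : Type u, #Q = ρ := ⟨ρ.out, mk_out ρ⟩
  choose s w hsw using fun x : ι → M => E.exists_terms hρ0 hι hQ (y x)
  refine ⟨(ι → (exLang L t.Λ).Term Q) × Set (Q × Q), fun x => (s x, pat (w x)), ?_, ?_⟩
  · exact mk_codes_le hρ0 (t.hx.trans hℓρ) hι hQ.le hQ.le
  · intro x x' hxx'
    obtain ⟨h1, h2⟩ := Prod.ext_iff.1 hxx'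
    change s x = s x' at h1
    change pat (w x) = pat (w x') at h2
    have h3 := h.sg_pattern E E hI hI (hQ.trans_lt hρ) (w x) (w x')
      (fun p q => (Set.ext_iff.1 h2 (p, q))) (s x)
    have h4 := h.sg_comp (h.sg_comp (h.sg_subset (hy x) subset_union_right) h3)
      (h.sg_subset (hy x') subset_union_right).swap
    refine h.sg_subset h4 ?_
    rintro _ ⟨i, rfl⟩
    refine ⟨y x' i, ⟨y x i, ⟨i, rfl⟩, ⟨i, ?_⟩⟩, ⟨i, rfl⟩⟩
    change _ = (y x i, y x' i)
    rw [hsw x i, hsw x' i, h1]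

end Clo

end Vale.Agent.P307.R2.H287
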