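import Vale.Agent.P307.R2.H287.Unif2

set_option linter.unusedSectionVars false

universe u

open FirstOrder Cardinal Set

namespace Vale.Agent.P307.R2.H287

open Vale.Agent.P307 Vale.Agent.P307.H304 Language.Structure Language.Substructure

theorem isSys_good {L : Language.{u, u}} {M N : Type u} [L.Structure M] [L.Structure N]
    (l : Cardinal.{u}) : IsSys L (Order.succ l) {R : Set (M × N) | Good L l R} where
  isPI := fun _ h => h.1
  card := fun _ h => Order.lt_succ_of_le h.2.1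
  forth := fun _ h A hA => by
    obtain ⟨R', h1, h2, h3⟩ := h.exists_left A (Order.lt_succ_iff.1 hA)
    exact ⟨R', h2, h1, h3⟩
  back := fun _ h A hA => by
    obtain ⟨R', h1, h2, h3⟩ := h.exists_right A (Order.lt_succ_iff.1 hA)
    exact ⟨R', h2, h1, h3⟩

/-- Two categoricity cardinals. -/
theorem two_cardinals (l : Cardinal.{u}) (hl : ℵ₀ ≤ l) :
    ∃ τ, l ≤ τ ∧ ∀ (L : Language.{u, u}) (K : AEC L), K.LS ≤ l →
      ∀ κ₁ κ₂ : Cardinal.{u}, τ ≤ κ₁ → κ₁ ^ l ≤ κ₂ → K.CategoricalIn κ₁ → K.CategoricalIn κ₂ →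
        (∀ (M N : Type u) [L.Structure M] [L.Structure N], K.mem M → K.mem N → κ₁ ≤ #M →
          κ₁ ≤ #N → InfEq L (Order.succ l) M N) ∧
        (∀ (N : Type u) [L.Structure N] (S : L.Substructure N), K.le S → κ₁ ≤ #S →
          InfElem L (Order.succ l) S) := by
  refine ⟨max (max (tau l) (Order.succ l)) (hanf (2 ^ l)), ((Order.le_succ l).trans
    (le_max_right _ _)).trans (le_max_left _ _), ?_⟩
  intro L K hLS κ₁ κ₂ hτ hpow hcat₁ hcat₂
  have hK : K.IsLS l := AEC.isLS_of_LS_le hLS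
  have h1 : tau l ≤ κ₁ := ((le_max_left _ _).trans (le_max_left _ _)).trans hτ
  have h2 : Order.succ l ≤ κ₁ := ((le_max_right _ _).trans (le_max_left _ _)).trans hτ
  have h3 : hanf (2 ^ l) ≤ κ₁ := (le_max_right _ _).trans hτ
  have hlκ : l ≤ κ₁ := (Order.le_succ l).trans h2
  have hpos : 0 < κ₁ := aleph0_pos.trans_le (hl.trans hlκ)
  have h12 : κ₁ ≤ κ₂ := (self_le_power κ₁ (one_le_aleph0.trans hl)).trans hpow
  obtain ⟨⟨M₀, sM₀, hM₀, hM₀c⟩, -⟩ := id hcat₁
  obtain ⟨t⟩ := exists_tpl hK h3 hpos hM₀ hM₀c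
  have hl' : ℵ₀ < Order.succ l := Order.lt_succ_of_le hl
  have hL' : L.card < Order.succ l := Order.lt_succ_of_le hK.2.1
  refine ⟨fun M N _ _ hM hN hMκ hNκ φ => ?_, fun N _ S hS hSκ X hX φ v => ?_⟩
  · exact (isSys_good l).sat_iff hl' hL' φ (R := ∅)
      (good_empty_two t h1 h2 h12 hpow hcat₁ hcat₂ hK le_rfl hM hN hMκ hNκ) (by
      rw [mk_pempty]
      exact aleph0_pos.trans hl') (fun x => x.elim)
  · exact (isSys_good l).sat_iff hl' hL' φ (R := gr S.subtype (Set.range v))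
      (good_gr_two t h1 h2 h12 hpow hcat₁ hcat₂ hK le_rfl S.subtype (AEC.emb_subtype.2 hS) hSκ _
        (mk_range_le.trans (Order.lt_succ_iff.1 hX))) hX
      (fun x => mem_gr.2 ⟨⟨x, rfl⟩, rfl⟩)

end Vale.Agent.P307.R2.H287
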